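import Mathlib

/-!
The algebra of finitely supported signed measures on words, with concatenation as product.
-/

noncomputable section

open Finset

namespace Vale.Agent.P321

/-- Signed, finitely supported measures on words over `σ`. -/
abbrev Alg (σ : Type) : Type := MonoidAlgebra ℝ (FreeMonoid σ)

variable {σ σ' : Type}

/-- The point mass at a word, with weight. -/
def pt (w : FreeMonoid σ) (r : ℝ) : Alg σ := MonoidAlgebra.single w r

/-- The coefficient of a word. -/
def cf (x : Alg σ) (w : FreeMonoid σ) : ℝ := x.coeff w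

/-- The support of an element. -/
def supp (x : Alg σ) : Finset (FreeMonoid σ) := x.coeff.support

/-- The total variation norm. -/
def nrm (x : Alg σ) : ℝ := ∑ w ∈ supp x, |cf x w|

/-- The total mass. -/
def mass (x : Alg σ) : ℝ := ∑ w ∈ supp x, cf x w

theorem ext_cf {x y : Alg σ} (h : ∀ w, cf x w = cf y w) : x = y :=
  MonoidAlgebra.ext (Finsupp.ext h)

theorem not_mem_supp {x : Alg σ} {w : FreeMonoid σ} (h : w ∉ supp x) : cf x w = 0 :=
  Finsupp.notMem_support_iff.mp h

theorem mem_supp {x : Alg σ} {w : FreeMonoid σ} : w ∈ supp x ↔ cf x w ≠ 0 :=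
  Finsupp.mem_support_iff

@[simp] theorem cf_zero (w : FreeMonoid σ) : cf (0 : Alg σ) w = 0 := by simp [cf]

@[simp] theorem cf_add (x y : Alg σ) (w : FreeMonoid σ) : cf (x + y) w = cf x w + cf y w := by
  simp [cf]

@[simp] theorem cf_sub (x y : Alg σ) (w : FreeMonoid σ) : cf (x - y) w = cf x w - cf y w := by
  simp [cf]

@[simp] theorem cf_neg (x : Alg σ) (w : FreeMonoid σ) : cf (-x) w = - cf x w := by
  simp [cf]

@[simp] theorem cf_smul (c : ℝ) (x : Alg σ) (w : FreeMonoid σ) : cf (c • x) w = c * cf x w := by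
  simp [cf]

theorem cf_sum {ι : Type*} (s : Finset ι) (f : ι → Alg σ) (w : FreeMonoid σ) :
    cf (∑ i ∈ s, f i) w = ∑ i ∈ s, cf (f i) w := by
  classical
  induction s using Finset.induction with
  | empty => simp
  | insert i s hi ih => rw [sum_insert hi, sum_insert hi, cf_add, ih]

open scoped Classical in
theorem cf_pt (v : FreeMonoid σ) (r : ℝ) (w : FreeMonoid σ) :
    cf (pt v r) w = if v = w then r else 0 := by
  simp [cf, pt, MonoidAlgebra.coeff_single, Finsupp.single_apply]

theorem pt_mul (u v : FreeMonoid σ) (r s : ℝ) : pt u r * pt v s = pt (u * v) (r * s) :=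
  MonoidAlgebra.single_mul_single ..

theorem sum_pt (x : Alg σ) {S : Finset (FreeMonoid σ)} (h : supp x ⊆ S) :
    ∑ w ∈ S, pt w (cf x w) = x := by
  classical
  refine ext_cf fun w => ?_
  rw [cf_sum]
  simp only [cf_pt]
  rw [sum_ite_eq']
  split
  · rfl
  · rename_i hw
    exact (not_mem_supp fun hh => hw (h hh)).symm

open scoped Classical in
theorem cf_mul (x y : Alg σ) {S T : Finset (FreeMonoid σ)} (hS : supp x ⊆ S) (hT : supp y ⊆ T)
    (w : FreeMonoid σ) :
    cf (x * y) w = ∑ uv ∈ (S ×ˢ T).filter (fun uv => uv.1 * uv.2 = w),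
      cf x uv.1 * cf y uv.2 := by
  conv_lhs => rw [← sum_pt x hS, ← sum_pt y hT, sum_mul_sum]
  simp only [cf_sum, pt_mul, cf_pt]
  rw [sum_filter, sum_product]

open scoped Classical in
theorem supp_mul (x y : Alg σ) :
    supp (x * y) ⊆ (supp x ×ˢ supp y).image (fun uv => uv.1 * uv.2) := by
  classical
  intro w hw
  rw [mem_supp, cf_mul x y subset_rfl subset_rfl] at hw
  obtain ⟨uv, huv, -⟩ := exists_ne_zero_of_sum_ne_zero hw
  rw [mem_filter] at huv
  exact mem_image.mpr ⟨uv, huv.1, by exact huv.2⟩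

theorem sum_cf_subset (x : Alg σ) {S : Finset (FreeMonoid σ)} (h : supp x ⊆ S)
    (g : FreeMonoid σ → ℝ → ℝ) (hg : ∀ w, g w 0 = 0) :
    ∑ w ∈ supp x, g w (cf x w) = ∑ w ∈ S, g w (cf x w) :=
  sum_subset h fun w _ hw => by rw [not_mem_supp hw, hg]

theorem nrm_eq (x : Alg σ) {S : Finset (FreeMonoid σ)} (h : supp x ⊆ S) :
    nrm x = ∑ w ∈ S, |cf x w| :=
  sum_cf_subset x h (fun _ r => |r|) (fun _ => abs_zero)

theorem mass_eq (x : Alg σ) {S : Finset (FreeMonoid σ)} (h : supp x ⊆ S) :
    mass x = ∑ w ∈ S, cf x w :=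
  sum_cf_subset x h (fun _ r => r) (fun _ => rfl)

theorem nrm_nonneg (x : Alg σ) : 0 ≤ nrm x := sum_nonneg fun _ _ => abs_nonneg _

theorem abs_cf_le_nrm (x : Alg σ) (w : FreeMonoid σ) : |cf x w| ≤ nrm x := by
  by_cases h : w ∈ supp x
  · exact single_le_sum (f := fun w => |cf x w|) (fun _ _ => abs_nonneg _) h
  · rw [not_mem_supp h, abs_zero]; exact nrm_nonneg x

theorem abs_mass_le (x : Alg σ) : |mass x| ≤ nrm x := abs_sum_le_sum_abs _ _

@[simp] theorem nrm_zero : nrm (0 : Alg σ) = 0 := by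
  classical
  simp [nrm]

theorem nrm_add (x y : Alg σ) : nrm (x + y) ≤ nrm x + nrm y := by
  classical
  rw [nrm_eq x (subset_union_left (s₂ := supp y ∪ supp (x + y))),
    nrm_eq y (S := supp x ∪ (supp y ∪ supp (x + y))) (by intro w hw; simp [hw]),
    nrm_eq (x + y) (S := supp x ∪ (supp y ∪ supp (x + y))) (by intro w hw; simp [hw]),
    ← sum_add_distrib]
  exact sum_le_sum fun w _ => by rw [cf_add]; exact abs_add_le _ _

theorem nrm_smul (c : ℝ) (x : Alg σ) : nrm (c • x) = |c| * nrm x := by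
  classical
  rw [nrm_eq x (S := supp x) subset_rfl, nrm_eq (c • x) (S := supp x) ?_, mul_sum]
  · exact sum_congr rfl fun w _ => by rw [cf_smul, abs_mul]
  · intro w hw
    rw [mem_supp, cf_smul] at hw
    exact mem_supp.mpr fun h => hw (by rw [h, mul_zero])

theorem nrm_neg (x : Alg σ) : nrm (-x) = nrm x := by
  have : -x = (-1 : ℝ) • x := ext_cf fun w => by simp
  rw [this, nrm_smul]; simp

theorem nrm_sub_comm (x y : Alg σ) : nrm (x - y) = nrm (y - x) := by
  rw [← nrm_neg (x - y), neg_sub]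

theorem nrm_sub (x y : Alg σ) : nrm (x - y) ≤ nrm x + nrm y := by
  rw [sub_eq_add_neg]
  exact (nrm_add _ _).trans (by rw [nrm_neg])

theorem nrm_tri (x y z : Alg σ) : nrm (x - z) ≤ nrm (x - y) + nrm (y - z) := by
  have : x - z = (x - y) + (y - z) := by abel
  rw [this]; exact nrm_add _ _

theorem nrm_sum {ι : Type*} (s : Finset ι) (f : ι → Alg σ) :
    nrm (∑ i ∈ s, f i) ≤ ∑ i ∈ s, nrm (f i) := by
  classical
  induction s using Finset.induction with
  | empty => simp
  | insert i s hi ih =>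
    rw [sum_insert hi, sum_insert hi]
    exact (nrm_add _ _).trans (by linarith)

theorem nrm_pt (w : FreeMonoid σ) (r : ℝ) : nrm (pt w r) = |r| := by
  classical
  rw [nrm_eq (pt w r) (S := {w}) ?_]
  · simp [cf_pt]
  · intro v hv
    rw [mem_supp, cf_pt] at hv
    simp only [mem_singleton]
    by_contra h
    exact hv (by rw [if_neg (Ne.symm h)])

theorem nrm_mul (x y : Alg σ) : nrm (x * y) ≤ nrm x * nrm y := by
  classical
  conv_lhs => rw [← sum_pt x subset_rfl, ← sum_pt y subset_rfl, sum_mul_sum]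
  refine (nrm_sum _ _).trans ?_
  rw [nrm, nrm, sum_mul_sum]
  refine sum_le_sum fun u _ => (nrm_sum _ _).trans (sum_le_sum fun v _ => ?_)
  rw [pt_mul, nrm_pt, abs_mul]

theorem one_eq_pt : (1 : Alg σ) = pt 1 1 := MonoidAlgebra.one_def

@[simp] theorem nrm_one : nrm (1 : Alg σ) = 1 := by rw [one_eq_pt, nrm_pt, abs_one]

theorem nrm_mul3 (x y z : Alg σ) : nrm (x * y * z) ≤ nrm x * nrm y * nrm z :=
  (nrm_mul _ _).trans (mul_le_mul_of_nonneg_right (nrm_mul _ _) (nrm_nonneg _))

theorem nrm_pow (x : Alg σ) (n : ℕ) : nrm (x ^ n) ≤ nrm x ^ n := by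
  induction n with
  | zero => simp
  | succ n ih =>
    rw [pow_succ, pow_succ]
    exact (nrm_mul _ _).trans (mul_le_mul_of_nonneg_right ih (nrm_nonneg _))

theorem nrm_list_prod (l : List (Alg σ)) : nrm l.prod ≤ (l.map nrm).prod := by
  induction l with
  | nil => simp
  | cons a l ih =>
    simp only [List.prod_cons, List.map_cons]
    exact (nrm_mul _ _).trans (mul_le_mul_of_nonneg_left ih (nrm_nonneg _))

/-- All coefficients are nonnegative. -/
def Pos (x : Alg σ) : Prop := ∀ w, 0 ≤ cf x w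

/-- A probability element. -/
def IsProb (x : Alg σ) : Prop := Pos x ∧ mass x = 1

theorem Pos.zero : Pos (0 : Alg σ) := fun w => by simp

theorem Pos.add {x y : Alg σ} (hx : Pos x) (hy : Pos y) : Pos (x + y) := fun w => by
  rw [cf_add]; exact add_nonneg (hx w) (hy w)

theorem Pos.smul {x : Alg σ} {c : ℝ} (hc : 0 ≤ c) (hx : Pos x) : Pos (c • x) := fun w => by
  rw [cf_smul]; exact mul_nonneg hc (hx w)

theorem Pos.mul {x y : Alg σ} (hx : Pos x) (hy : Pos y) : Pos (x * y) := fun w => by
  classical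
  rw [cf_mul x y subset_rfl subset_rfl]
  exact sum_nonneg fun uv _ => mul_nonneg (hx _) (hy _)

theorem Pos.one : Pos (1 : Alg σ) := fun w => by
  classical
  rw [one_eq_pt, cf_pt]; split <;> norm_num

theorem Pos.pow {x : Alg σ} (hx : Pos x) (n : ℕ) : Pos (x ^ n) := by
  induction n with
  | zero => simpa using Pos.one
  | succ n ih => rw [pow_succ]; exact ih.mul hx

theorem Pos.nrm_eq_mass {x : Alg σ} (hx : Pos x) : nrm x = mass x :=
  sum_congr rfl fun w _ => abs_of_nonneg (hx w)

theorem mass_pt (w : FreeMonoid σ) (r : ℝ) : mass (pt w r) = r := by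
  classical
  rw [mass_eq (pt w r) (S := {w}) ?_]
  · simp [cf_pt]
  · intro v hv
    rw [mem_supp, cf_pt] at hv
    simp only [mem_singleton]
    by_contra h
    exact hv (by rw [if_neg (Ne.symm h)])

theorem mass_add (x y : Alg σ) : mass (x + y) = mass x + mass y := by
  classical
  rw [mass_eq x (subset_union_left (s₂ := supp y ∪ supp (x + y))),
    mass_eq y (S := supp x ∪ (supp y ∪ supp (x + y))) (by intro w hw; simp [hw]),
    mass_eq (x + y) (S := supp x ∪ (supp y ∪ supp (x + y))) (by intro w hw; simp [hw]),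
    ← sum_add_distrib]
  simp

theorem mass_sum {ι : Type*} (s : Finset ι) (f : ι → Alg σ) :
    mass (∑ i ∈ s, f i) = ∑ i ∈ s, mass (f i) := by
  classical
  induction s using Finset.induction with
  | empty => simp [mass]
  | insert i s hi ih => rw [sum_insert hi, sum_insert hi, mass_add, ih]

theorem mass_mul (x y : Alg σ) : mass (x * y) = mass x * mass y := by
  classical
  conv_lhs => rw [← sum_pt x subset_rfl, ← sum_pt y subset_rfl, sum_mul_sum]
  rw [mass_sum, mass, mass, sum_mul_sum]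
  refine sum_congr rfl fun u _ => ?_
  rw [mass_sum]
  exact sum_congr rfl fun v _ => by rw [pt_mul, mass_pt]

theorem mass_smul (c : ℝ) (x : Alg σ) : mass (c • x) = c * mass x := by
  classical
  rw [mass_eq x (S := supp x) subset_rfl, mass_eq (c • x) (S := supp x) ?_, mul_sum]
  · simp
  · intro w hw
    rw [mem_supp, cf_smul] at hw
    exact mem_supp.mpr fun h => hw (by rw [h, mul_zero])

theorem IsProb.one : IsProb (1 : Alg σ) := ⟨Pos.one, by rw [one_eq_pt, mass_pt]⟩

theorem IsProb.mul {x y : Alg σ} (hx : IsProb x) (hy : IsProb y) : IsProb (x * y) :=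
  ⟨hx.1.mul hy.1, by rw [mass_mul, hx.2, hy.2, one_mul]⟩

theorem IsProb.pow {x : Alg σ} (hx : IsProb x) (n : ℕ) : IsProb (x ^ n) := by
  induction n with
  | zero => simpa using IsProb.one
  | succ n ih => rw [pow_succ]; exact ih.mul hx

theorem IsProb.nrm_eq {x : Alg σ} (hx : IsProb x) : nrm x = 1 := by
  rw [hx.1.nrm_eq_mass, hx.2]

end Vale.Agent.P321
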