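import Vale.Agent.P321.Alg

/-!
Power bounds for eventual estimates in one natural parameter.
-/

noncomputable section

open Filter Topology

namespace Vale.Agent.P321

/-- `f` is at most a constant times `g ^ e`, eventually. -/
def BO (f : ℕ → ℝ) (e : ℝ) : Prop :=
  ∃ C : ℝ, 0 ≤ C ∧ ∀ᶠ g : ℕ in atTop, |f g| ≤ C * (g : ℝ) ^ e

theorem ev_one_le : ∀ᶠ g : ℕ in atTop, (1 : ℝ) ≤ g := by
  filter_upwards [eventually_ge_atTop 1] with g hg
  exact_mod_cast hg

theorem BO.rpow (e : ℝ) : BO (fun g => (g : ℝ) ^ e) e :=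
  ⟨1, zero_le_one, Eventually.of_forall fun g => by
    rw [one_mul, abs_of_nonneg (Real.rpow_nonneg (Nat.cast_nonneg g) e)]⟩

theorem BO.mono {f : ℕ → ℝ} {e e' : ℝ} (h : BO f e) (he : e ≤ e') : BO f e' := by
  obtain ⟨C, hC, hf⟩ := h
  refine ⟨C, hC, ?_⟩
  filter_upwards [hf, ev_one_le] with g hg h1
  exact hg.trans (mul_le_mul_of_nonneg_left (Real.rpow_le_rpow_of_exponent_le h1 he) hC)

theorem BO.const (c : ℝ) : BO (fun _ => c) 0 :=
  ⟨|c|, abs_nonneg c, Eventually.of_forall fun g => by simp⟩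

theorem BO.const' (c : ℝ) {e : ℝ} (he : 0 ≤ e) : BO (fun _ => c) e := (BO.const c).mono he

theorem BO.of_le {f h : ℕ → ℝ} {e : ℝ} (hh : BO h e) (hle : ∀ᶠ g : ℕ in atTop, |f g| ≤ h g) :
    BO f e := by
  obtain ⟨C, hC, hb⟩ := hh
  refine ⟨C, hC, ?_⟩
  filter_upwards [hb, hle] with g h1 h2
  exact h2.trans ((le_abs_self _).trans h1)

theorem BO.add {f h : ℕ → ℝ} {e : ℝ} (hf : BO f e) (hh : BO h e) :
    BO (fun g => f g + h g) e := by
  obtain ⟨C, hC, h1⟩ := hf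
  obtain ⟨C', hC', h2⟩ := hh
  refine ⟨C + C', add_nonneg hC hC', ?_⟩
  filter_upwards [h1, h2] with g a b
  exact (abs_add_le _ _).trans (by rw [add_mul]; linarith)

theorem BO.mul {f h : ℕ → ℝ} {e e' : ℝ} (hf : BO f e) (hh : BO h e') :
    BO (fun g => f g * h g) (e + e') := by
  obtain ⟨C, hC, h1⟩ := hf
  obtain ⟨C', hC', h2⟩ := hh
  refine ⟨C * C', mul_nonneg hC hC', ?_⟩
  filter_upwards [h1, h2, ev_one_le] with g a b hg
  rw [abs_mul, Real.rpow_add (by linarith)]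
  exact (mul_le_mul a b (abs_nonneg _) (le_trans (abs_nonneg _) a)).trans (le_of_eq (by ring))

theorem BO.cmul {f : ℕ → ℝ} {e : ℝ} (c : ℝ) (hf : BO f e) : BO (fun g => c * f g) e := by
  simpa using (BO.const c).mul hf

theorem BO.mulc {f : ℕ → ℝ} {e : ℝ} (c : ℝ) (hf : BO f e) : BO (fun g => f g * c) e := by
  simpa using hf.mul (BO.const c)

theorem BO.pow {f : ℕ → ℝ} {e : ℝ} (hf : BO f e) (n : ℕ) :
    BO (fun g => f g ^ n) (e * n) := by
  induction n with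
  | zero => simpa using BO.const 1
  | succ n ih =>
    simp only [pow_succ]
    exact (ih.mul hf).mono (le_of_eq (by push_cast; ring))

theorem BO.sqrt {f : ℕ → ℝ} {e : ℝ} (hf : BO f e) :
    BO (fun g => Real.sqrt (f g)) (e / 2) := by
  obtain ⟨C, hC, h1⟩ := hf
  refine ⟨Real.sqrt C, Real.sqrt_nonneg _, ?_⟩
  filter_upwards [h1] with g a
  rw [abs_of_nonneg (Real.sqrt_nonneg _)]
  refine (Real.sqrt_le_sqrt ((le_abs_self _).trans a)).trans (le_of_eq ?_)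
  rw [Real.sqrt_mul hC, Real.sqrt_eq_rpow ((g : ℝ) ^ e), ← Real.rpow_mul (Nat.cast_nonneg g)]
  congr 2
  ring

/-- Division by a quantity at least `g ^ e'`. -/
theorem BO.div {f h : ℕ → ℝ} {e e' : ℝ} (hf : BO f e)
    (hh : ∀ᶠ g : ℕ in atTop, (g : ℝ) ^ e' ≤ h g) : BO (fun g => f g / h g) (e - e') := by
  obtain ⟨C, hC, h1⟩ := hf
  refine ⟨C, hC, ?_⟩
  filter_upwards [h1, hh, ev_one_le] with g a b hg
  have hp : 0 < (g : ℝ) ^ e' := Real.rpow_pos_of_pos (by linarith) _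
  rw [abs_div, abs_of_pos (show 0 < h g by linarith), Real.rpow_sub (by linarith), ← mul_div_assoc]
  exact div_le_div₀ (by positivity) a hp b

theorem BO.ceil (e : ℝ) (he : 0 ≤ e) : BO (fun g => (⌈(g : ℝ) ^ e⌉₊ : ℝ)) e := by
  refine ⟨2, by norm_num, ?_⟩
  filter_upwards [ev_one_le] with g hg
  have h1 := Real.one_le_rpow hg he
  have h2 := Nat.ceil_lt_add_one (show (0 : ℝ) ≤ (g : ℝ) ^ e by linarith)
  rw [Nat.abs_cast]
  linarith

theorem BO.eventually_le {f : ℕ → ℝ} {e e' : ℝ} (hf : BO f e) (he : e < e') :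
    ∀ᶠ g : ℕ in atTop, f g ≤ (g : ℝ) ^ e' := by
  obtain ⟨C, hC, h1⟩ := hf
  have h2 := ((tendsto_rpow_atTop (show 0 < e' - e by linarith)).comp
    tendsto_natCast_atTop_atTop).eventually (eventually_ge_atTop C)
  filter_upwards [h1, h2, ev_one_le] with g a b hg
  refine ((le_abs_self _).trans a).trans ?_
  refine (mul_le_mul_of_nonneg_right (show C ≤ (g : ℝ) ^ (e' - e) from b) (by positivity)).trans ?_
  rw [← Real.rpow_add (by linarith)]
  simp

theorem BO.small {f : ℕ → ℝ} {e : ℝ} (hf : BO f e) (he : e < 0) {ε : ℝ} (hε : 0 < ε) :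
    ∀ᶠ g : ℕ in atTop, f g ≤ ε := by
  obtain ⟨C, hC, h1⟩ := hf
  have h2 := ((tendsto_rpow_atTop (show 0 < -e by linarith)).comp
    tendsto_natCast_atTop_atTop).eventually (eventually_ge_atTop (C / ε))
  filter_upwards [h1, h2, ev_one_le] with g a b hg
  refine ((le_abs_self _).trans a).trans ?_
  have hb : C / ε ≤ (g : ℝ) ^ (-e) := b
  rw [div_le_iff₀ hε, Real.rpow_neg (by linarith), inv_mul_eq_div,
    le_div_iff₀ (Real.rpow_pos_of_pos (by linarith) _)] at hb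
  exact hb

theorem ceil_ge_rpow (g : ℕ) (e : ℝ) : (g : ℝ) ^ e ≤ (⌈(g : ℝ) ^ e⌉₊ : ℝ) := Nat.le_ceil _

theorem ev_ceil_large {e : ℝ} (he : 0 < e) (N : ℕ) :
    ∀ᶠ g : ℕ in atTop, N ≤ ⌈(g : ℝ) ^ e⌉₊ := by
  have h := ((tendsto_rpow_atTop he).comp tendsto_natCast_atTop_atTop).eventually
    (eventually_ge_atTop (N : ℝ))
  filter_upwards [h] with g hg
  exact_mod_cast le_trans hg (Nat.le_ceil _)

end Vale.Agent.P321
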