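import Vale.Agent.P321.Cell

/-!
Flattening words of cells, and smoothness of the powers of a cell.
-/

noncomputable section

open Finset

namespace Vale.Agent.P321

variable {σ : Type}

/-- Marked positions of a word of cells of length `P`. -/
def flat (P : ℕ) (U V S : Finset ℕ) : ℕ → Finset ℕ
  | 0 => ∅
  | J + 1 => glue (J * P) (flat P U V S J) (if J ∈ S then V else U)

theorem flat_mem {P : ℕ} {U V S : Finset ℕ} : ∀ {J x : ℕ}, x ∈ flat P U V S J →
    ∃ i < J, ∃ u ∈ U ∪ V, x = i * P + u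
  | 0, x, h => by simp [flat] at h
  | J + 1, x, h => by
    simp only [flat, glue, mem_union, mem_image] at h
    rcases h with h | ⟨u, hu, rfl⟩
    · obtain ⟨i, hi, r⟩ := flat_mem h
      exact ⟨i, Nat.lt_succ_of_lt hi, r⟩
    · refine ⟨J, Nat.lt_succ_self J, u, ?_, rfl⟩
      split at hu
      · exact mem_union_right _ hu
      · exact mem_union_left _ hu

theorem flat_lt {P : ℕ} {U V S : Finset ℕ} (h : ∀ u ∈ U ∪ V, u < P) {J x : ℕ}
    (hx : x ∈ flat P U V S J) : x < J * P := by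
  obtain ⟨i, hi, u, hu, rfl⟩ := flat_mem hx
  have := h u hu
  have : (i + 1) * P ≤ J * P := Nat.mul_le_mul_right P hi
  rw [add_mul, one_mul] at this
  omega

theorem wd_flat (a b : Alg σ) {P : ℕ} {U V : Finset ℕ} (h : ∀ u ∈ U ∪ V, u < P) (S : Finset ℕ) :
    ∀ J : ℕ, wd (wd a b U P) (wd a b V P) S J = wd a b (flat P U V S J) (J * P)
  | 0 => by simp
  | J + 1 => by
    rw [wd_succ, flat, add_mul, one_mul, wd_glue a b (fun i hi => flat_lt h hi),
      wd_flat a b h S J]
    congr 1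
    split <;> rfl

theorem flat_sparse {P : ℕ} (hP : 0 < P) {U V : Finset ℕ} (h : ∀ u ∈ U ∪ V, u < P) (S : Finset ℕ)
    (J : ℕ) : Sparse (flat P U V S J) (2 * (U ∪ V).card) P := by
  intro x L
  have hsub : (flat P U V S J).filter (fun v => x ≤ v ∧ v ≤ x + L) ⊆
      (Icc (x / P) ((x + L) / P) ×ˢ (U ∪ V)).image (fun iu => iu.1 * P + iu.2) := by
    intro v hv
    rw [mem_filter] at hv
    obtain ⟨i, -, u, hu, rfl⟩ := flat_mem hv.1
    have hi : (i * P + u) / P = i := by
      rw [add_comm, Nat.add_mul_div_right u i hP, Nat.div_eq_of_lt (h u hu), zero_add]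
    rw [mem_image]
    refine ⟨(i, u), mem_product.mpr ⟨mem_Icc.mpr ⟨?_, ?_⟩, hu⟩, rfl⟩
    · rw [← hi]; exact Nat.div_le_div_right hv.2.1
    · rw [← hi]; exact Nat.div_le_div_right hv.2.2
  refine ((card_le_card hsub).trans card_image_le).trans ?_
  rw [card_product, Nat.card_Icc]
  have hd : (x + L) / P + 1 - x / P ≤ 2 * (L / P + 1) := by
    have h1 : x + L < (x / P + L / P + 1 + 1) * P := by
      have := Nat.lt_div_mul_add (a := x) hP
      have := Nat.lt_div_mul_add (a := L) hP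
      simp only [add_mul, one_mul]
      omega
    have := (Nat.div_lt_iff_lt_mul hP).mpr h1
    generalize (x + L) / P = s, x / P = t, L / P = u at this ⊢
    omega
  calc ((x + L) / P + 1 - x / P) * (U ∪ V).card ≤ 2 * (L / P + 1) * (U ∪ V).card :=
        Nat.mul_le_mul_right _ hd
    _ = _ := by ring

theorem flat_card {P : ℕ} {U V S : Finset ℕ} (J : ℕ) :
    (flat P U V S J).card ≤ J * (U ∪ V).card := by
  calc (flat P U V S J).card
      ≤ ((range J ×ˢ (U ∪ V)).image fun iu => iu.1 * P + iu.2).card := by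
        refine card_le_card fun v hv => ?_
        obtain ⟨i, hi, u, hu, rfl⟩ := flat_mem hv
        exact mem_image.mpr ⟨(i, u), mem_product.mpr ⟨mem_range.mpr hi, hu⟩, rfl⟩
    _ ≤ _ := card_image_le.trans (by rw [card_product, card_range])

theorem nrm_shift_pow {a : Alg σ} (ha : nrm a ≤ 1) {tau : ℝ} (hs : Smooth a tau) {X : ℕ}
    (hX : 1 ≤ X) (P : ℕ) : nrm (a ^ (X + P) - a ^ X) ≤ (P : ℝ) * Real.sqrt (tau / X) := by
  have e : a ^ (X + P) - a ^ X = a ^ X * (a - 1) * ∑ i ∈ range P, a ^ i := by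
    rw [mul_assoc, mul_geom_sum, mul_sub, mul_one, pow_add]
  rw [e]
  refine (nrm_mul _ _).trans ?_
  rw [mul_comm (P : ℝ)]
  refine mul_le_mul (hs X hX) ((nrm_sum _ _).trans ?_) (nrm_nonneg _) (Real.sqrt_nonneg _)
  calc ∑ i ∈ range P, nrm (a ^ i) ≤ ∑ _i ∈ range P, (1 : ℝ) :=
        sum_le_sum fun i _ => nrm_pow_le_one ha i
    _ = _ := by simp

theorem uerr_mono (m D K : ℕ) (tau : ℝ) {n n' : ℕ} (h : n ≤ n') :
    uerr m D K tau n ≤ uerr m D K tau n' := by
  have := one_le_L1c m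
  have : 0 ≤ gam m D tau := by unfold gam; positivity
  have h' : (n : ℝ) ≤ n' := by exact_mod_cast h
  unfold uerr
  gcongr

/-- The total error when a lattice of `J` cells with at most `c` marks each is flattened. -/
def lbound (m D K c P J : ℕ) (tau r bad : ℝ) : ℝ :=
  (J : ℝ) * c * bad + ((K : ℝ) + 1) ^ 2 * Real.sqrt (kap 1 * r ^ 2 * Sbd m D (2 * c) P J)
    + (J : ℝ) * c * ((K : ℝ) + 1) * Real.sqrt ((kap 1 * r ^ 2 * Sbd m D (2 * c) P J) ^ K)
    + ((K : ℝ) + 1) * uerr m D K tau (J * c)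

theorem lbound_spec {a b : Alg σ} (ha : IsProb a) (hb : IsProb b) {f : FreeMonoid σ → ℝ} {r : ℝ}
    (hf : IsTilt a f r) {bad : ℝ} (hbad : nrm (b - (a + dlt a f)) ≤ bad) (hr : r ≤ 1)
    {tau : ℝ} (ht : 0 ≤ tau) (hs : Smooth a tau) {m D K c P J : ℕ}
    (hD : 4 * (K + 1) * (2 * m + 3) ≤ D) (hg : gam m D tau ≤ 1) (hP : 0 < P)
    {U : Finset ℕ} (hU : ∀ u ∈ U, u < P) (hc : U.card = c)
    (hrho : kap 1 * r ^ 2 * Sbd m D (2 * c) P J ≤ 1) :
    nrm ((wd a b U P) ^ J - a ^ (J * P)) ≤ lbound m D K c P J tau r bad := by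
  have hU' : ∀ u ∈ U ∪ U, u < P := by simpa using hU
  have e : (wd a b U P) ^ J = wd a b (flat P U U ∅ J) (J * P) := by
    rw [← wd_flat a b hU' ∅ J, wd_empty]
  rw [e]
  set F := flat P U U ∅ J with hF
  have hFc : F.card ≤ J * c := by
    have := flat_card (P := P) (U := U) (V := U) (S := ∅) J
    rwa [union_self, hc] at this
  have hFs : Sparse F (2 * c) P := by
    have := flat_sparse hP hU' ∅ J
    rwa [union_self, hc] at this
  have ht' := isProb_tilt ha hf hr
  have h1 : nrm (wd a b F (J * P) - wd a (a + dlt a f) F (J * P)) ≤ (J : ℝ) * c * bad := by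
    refine (wd_change ha.nrm_eq.le hb.nrm_eq.le ha.nrm_eq.le ht'.nrm_eq.le F _).trans ?_
    simp only [sub_self, nrm_zero, mul_zero, add_zero]
    refine mul_le_mul ?_ hbad (nrm_nonneg _) (by positivity)
    exact_mod_cast (card_le_card fun i hi => (mem_filter.mp hi).2).trans hFc
  have h2 := lattice_close ha hf hr ht hs hD hg hFs hP
    (show J * P / P ≤ J from (Nat.mul_div_cancel J hP).le) hrho (K := K)
  refine (nrm_tri _ (wd a (a + dlt a f) F (J * P)) _).trans ?_
  have hFr : (F.card : ℝ) ≤ (J : ℝ) * c := by exact_mod_cast hFc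
  have h3 := mul_le_mul_of_nonneg_right (mul_le_mul_of_nonneg_right hFr
    (show (0 : ℝ) ≤ (K : ℝ) + 1 by positivity))
    (Real.sqrt_nonneg ((kap 1 * r ^ 2 * Sbd m D (2 * c) P J) ^ K))
  have h4 := mul_le_mul_of_nonneg_left (uerr_mono m D K tau hFc)
    (show (0 : ℝ) ≤ (K : ℝ) + 1 by positivity)
  unfold lbound
  linarith

theorem cell_smooth {a b : Alg σ} (ha : IsProb a) (hb : IsProb b) {f : FreeMonoid σ → ℝ} {r : ℝ}
    (hf : IsTilt a f r) {bad : ℝ} (hbad : nrm (b - (a + dlt a f)) ≤ bad) (hr : r ≤ 1)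
    {tau : ℝ} (ht : 0 ≤ tau) (hs : Smooth a tau) {m D K c P J : ℕ}
    (hD : 4 * (K + 1) * (2 * m + 3) ≤ D) (hg : gam m D tau ≤ 1) (hP : 0 < P) (hJ : 0 < J)
    {U : Finset ℕ} (hU : ∀ u ∈ U, u < P) (hc : U.card = c)
    (hrho : kap 1 * r ^ 2 * Sbd m D (2 * c) P (J + 1) ≤ 1)
    (hsmall : 2 * lbound m D K c P (J + 1) tau r bad + (P : ℝ) * Real.sqrt (tau / ((J * P : ℕ) : ℝ)) ≤ 1) :
    Smooth (wd a b U P) (32 * (2 * (J : ℝ) + 1)) := by
  have hA := isProb_wd ha hb U P
  have hm : Sbd m D (2 * c) P J ≤ Sbd m D (2 * c) P (J + 1) := by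
    have := ovA_pos m
    unfold Sbd periodSum
    push_cast
    gcongr <;> linarith
  have hk : 0 ≤ kap 1 * r ^ 2 := by have := kap_pos 1; positivity
  have hrhoJ := le_trans (mul_le_mul_of_nonneg_left hm hk) hrho
  have h1 := lbound_spec ha hb hf hbad hr ht hs hD hg hP hU hc hrhoJ (K := K)
  have h2 := lbound_spec ha hb hf hbad hr ht hs hD hg hP hU hc hrho (K := K)
  have hlm : lbound m D K c P J tau r bad ≤ lbound m D K c P (J + 1) tau r bad := by
    have hb0 : 0 ≤ bad := le_trans (nrm_nonneg _) hbad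
    have hS0 := Sbd_nonneg m D (2 * c) P J
    have := uerr_mono m D K tau (show J * c ≤ (J + 1) * c by gcongr; omega)
    unfold lbound
    push_cast
    gcongr <;> linarith
  have h3 := nrm_shift_pow ha.nrm_eq.le hs (X := J * P) (by nlinarith) P
  rw [show J * P + P = (J + 1) * P by ring] at h3
  have hclose : nrm ((wd a b U P) ^ J - (wd a b U P) ^ (J + 1)) ≤ 2 * (1 - 1 / 2) := by
    refine (nrm_tri _ (a ^ (J * P)) _).trans ?_
    refine (add_le_add h1 ((nrm_tri _ (a ^ ((J + 1) * P)) _).trans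
      (add_le_add (le_of_eq (nrm_sub_comm _ _)) (le_of_eq (nrm_sub_comm _ _))))).trans ?_
    linarith
  have := smooth_of_slip hA (W := J) (th := 1 / 2) (by norm_num) (by norm_num) hclose
  exact this.mono (le_of_eq (by ring))

end Vale.Agent.P321
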