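import Vale.Agent.P321.Strings

/-!
The base strings and the coefficient vectors used for their smoothness.
-/

noncomputable section

open Finset

namespace Vale.Agent.P321

/-- The alternating string with `n` periods. -/
def rep01 : ℕ → List Bool
  | 0 => []
  | n + 1 => rep01 n ++ [false, true]

/-- The first base string. -/
def baseA (n : ℕ) : List Bool := rep01 n ++ [false] ++ rep01 (n + 1)

/-- The second base string. -/
def baseB (n : ℕ) : List Bool := rep01 (n + 1) ++ [false] ++ rep01 n

theorem length_rep01 : ∀ n, (rep01 n).length = 2 * n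
  | 0 => rfl
  | n + 1 => by rw [rep01, List.length_append, length_rep01 n]; rfl

theorem tr_rep01 (q : ℝ) : ∀ n, tr q (rep01 n) = tr q [false, true] ^ n
  | 0 => by simp [rep01, tr_nil]
  | n + 1 => by rw [rep01, tr_append, tr_rep01 q n, pow_succ]

theorem length_baseA (n : ℕ) : (baseA n).length = 4 * n + 3 := by
  simp [baseA, length_rep01]; omega

theorem length_baseB (n : ℕ) : (baseB n).length = 4 * n + 3 := by
  simp [baseB, length_rep01]; omega

theorem tr_baseA (q : ℝ) (n : ℕ) :
    tr q (baseA n) = tr q [false, true] ^ n * tr q [false] * tr q [false, true] ^ (n + 1) := by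
  rw [baseA, tr_append, tr_append, tr_rep01, tr_rep01]

theorem tr_baseB (q : ℝ) (n : ℕ) :
    tr q (baseB n) = tr q [false, true] ^ (n + 1) * tr q [false] * tr q [false, true] ^ n := by
  rw [baseB, tr_append, tr_append, tr_rep01, tr_rep01]

/-- An unmarked unit: dropped with weight `d`. -/
def eU (d : ℝ) : Alg Bool := d • 1 + (1 - d) • pt (FreeMonoid.of false) 1

/-- The mark. -/
def phiU (d : ℝ) : Alg Bool := (1 - d) • pt (FreeMonoid.of true) 1

/-- The marked positions in `W` periods. -/
def latU (n W : ℕ) : Finset ℕ := (range W).image fun i => n + i * (2 * n + 2)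

/-- The coefficient vector of `W` periods. -/
def cW (d : ℝ) (n W : ℕ) : Alg Bool :=
  wd (eU d) (eU d + phiU d) (latU n W) (W * (2 * n + 2))

/-- The homogeneous component of degree `R`. -/
def homPart (R : ℕ) (c : Alg Bool) : Alg Bool :=
  ∑ w ∈ (supp c).filter (fun w => len w = R), pt w (cf c w)

theorem cf_homPart (R : ℕ) (c : Alg Bool) (w : FreeMonoid Bool) :
    cf (homPart R c) w = if len w = R then cf c w else 0 := by
  classical
  rw [homPart, cf_sum]
  simp only [cf_pt]
  rw [sum_ite_eq']
  simp only [mem_filter]
  by_cases h : len w = R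
  · by_cases hw : w ∈ supp c
    · simp [h, hw]
    · simp [h, hw, not_mem_supp hw]
  · simp [h]

theorem homog_homPart (R : ℕ) (c : Alg Bool) : Homog R (homPart R c) := by
  intro w hw
  rw [cf_homPart] at hw
  by_contra h
  exact hw (if_neg h)

end Vale.Agent.P321
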