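import Vale.Agent.P321.KernelDiff
import Vale.Agent.P321.SlipDefs
import Vale.Agent.P321.Flat

/-!
The base pair of strings: smoothness of the unit, the tilt, and the smoothed expansion.
-/

noncomputable section

open Finset Polynomial

namespace Vale.Agent.P321

theorem unitTr_false_false {q : ℝ} :
    tr q [false] = q • 1 + (1 - q) • pt (FreeMonoid.of false) 1 := by
  simp [tr, unitTr]

open scoped Classical in
theorem cf_trF (q : ℝ) (w : FreeMonoid Bool) :
    cf (tr q [false]) w =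
      (if w = 1 then q else 0) + (if w = FreeMonoid.of false then 1 - q else 0) := by
  classical
  rw [unitTr_false_false, cf_add, cf_smul, cf_smul, one_eq_pt, cf_pt, cf_pt]
  by_cases h1 : w = 1 <;> by_cases h2 : w = FreeMonoid.of false <;>
    simp [h1, h2, eq_comm]

theorem tr_FT (q : ℝ) :
    tr q [false, true] = (q * q) • 1 + (q * (1 - q)) • pt (FreeMonoid.of false) 1 +
      ((1 - q) * q) • pt (FreeMonoid.of true) 1 +
      ((1 - q) * (1 - q)) • pt (FreeMonoid.of false * FreeMonoid.of true) 1 := by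
  simp only [tr, List.map_cons, List.map_nil, List.prod_cons, List.prod_nil, mul_one, unitTr,
    add_mul, mul_add, smul_mul_assoc, mul_smul_comm, one_mul, mul_one, pt_mul, smul_smul]
  module

theorem word_ne_aux : (FreeMonoid.of false : FreeMonoid Bool) ≠ FreeMonoid.of true ∧
    (1 : FreeMonoid Bool) ≠ FreeMonoid.of false ∧ (1 : FreeMonoid Bool) ≠ FreeMonoid.of true ∧
    (1 : FreeMonoid Bool) ≠ FreeMonoid.of false * FreeMonoid.of true ∧
    (FreeMonoid.of false : FreeMonoid Bool) ≠ FreeMonoid.of false * FreeMonoid.of true := by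
  refine ⟨?_, ?_, ?_, ?_, ?_⟩ <;>
    · intro h
      have := congrArg FreeMonoid.toList h
      simp [FreeMonoid.toList_mul, FreeMonoid.toList_of] at this

theorem cf_trFT (q : ℝ) :
    cf (tr q [false, true]) 1 = q * q ∧
      cf (tr q [false, true]) (FreeMonoid.of false) = q * (1 - q) := by
  classical
  obtain ⟨h1, h2, h3, h4, h5⟩ := word_ne_aux
  rw [tr_FT]
  refine ⟨?_, ?_⟩ <;>
    simp [one_eq_pt, cf_pt, h1, h2, h2.symm, h3.symm, h4.symm, h5.symm, h1.symm]

/-- The single defect is a bounded tilt of the unit. -/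
theorem unit_tilt {q : ℝ} (hq0 : 0 < q) (hq1 : q < 1) :
    ∃ (f : FreeMonoid Bool → ℝ) (r : ℝ), IsTilt (tr q [false, true]) f r ∧
      tr q [false] = tr q [false, true] + dlt (tr q [false, true]) f := by
  classical
  set a := tr q [false, true] with ha
  set b := tr q [false] with hb
  set f : FreeMonoid Bool → ℝ := fun w => (cf b w - cf a w) / cf a w with hf
  have hab : ∀ w, cf a w = 0 → cf b w = 0 := by
    intro w hw
    obtain ⟨e1, e2⟩ := cf_trFT q
    have hw1 : w ≠ 1 := fun h => by subst h; rw [ha, e1] at hw; nlinarith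
    have hw2 : w ≠ FreeMonoid.of false := fun h => by subst h; rw [ha, e2] at hw; nlinarith
    rw [hb, cf_trF, if_neg hw1, if_neg hw2, add_zero]
  have hmul : ∀ w, cf a w * f w = cf b w - cf a w := by
    intro w
    rcases eq_or_ne (cf a w) 0 with h | h
    · rw [h, hab w h]; simp
    · rw [hf]; field_simp
  refine ⟨f, ∑ u ∈ supp a, |f u|, ⟨fun u => ?_, ?_⟩, ?_⟩
  · by_cases hu : u ∈ supp a
    · exact single_le_sum (f := fun u => |f u|) (fun _ _ => abs_nonneg _) hu
    · rw [hf]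
      simp only [not_mem_supp hu, div_zero, abs_zero]
      exact sum_nonneg fun _ _ => abs_nonneg _
  · rw [sum_congr rfl fun u _ => hmul u, sum_sub_distrib]
    have hs : supp b ⊆ supp a := fun w hw =>
      mem_supp.mpr fun h => mem_supp.mp hw (hab w h)
    have h1 := (isProb_tr hq0.le hq1.le [false]).2
    have h2 := (isProb_tr hq0.le hq1.le [false, true]).2
    rw [← hb, mass_eq b hs] at h1
    rw [← ha] at h2
    unfold mass at h2
    linarith
  · refine ext_cf fun w => ?_
    rw [cf_add, cf_dlt, hmul]; ring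

/-- Powers of the unit are smooth. -/
theorem unit_smooth {q : ℝ} (hq0 : 0 < q) (hq1 : q < 1) :
    Smooth (tr q [false, true]) (16 * (2 * ((1 : ℕ) : ℝ) + 1) / (q ^ 4)) := by
  classical
  have hp := isProb_tr hq0.le hq1.le [false, true]
  set a := tr q [false, true] with ha
  refine smooth_of_slip hp (W := 1) (by positivity) (pow_lt_one₀ hq0.le hq1 (by norm_num)) ?_
  rw [pow_one]
  have hm := mass_amin hp (hp.pow 2)
  have hpos : Pos (amin a (a ^ 2)) := fun w => by
    rw [cf_amin (hp.pow 2).1]; exact le_min (hp.1 w) ((hp.pow 2).1 w)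
  have h1 : cf (amin a (a ^ 2)) 1 ≤ mass (amin a (a ^ 2)) := by
    rw [← hpos.nrm_eq_mass]
    exact (le_abs_self _).trans (abs_cf_le_nrm _ _)
  have e1 : cf a 1 = q * q := (cf_trFT q).1
  have h2 : q * q * (q * q) ≤ cf (a ^ 2) 1 := by
    rw [pow_two, cf_mul a a subset_rfl subset_rfl, ← e1]
    refine single_le_sum (f := fun uv : FreeMonoid Bool × FreeMonoid Bool => cf a uv.1 * cf a uv.2)
      (fun uv _ => mul_nonneg (hp.1 _) (hp.1 _)) (a := (1, 1)) ?_
    have hs : (1 : FreeMonoid Bool) ∈ supp a := mem_supp.mpr (by rw [e1]; positivity)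
    simp [hs]
  have h3 : q ^ 4 ≤ cf (amin a (a ^ 2)) 1 := by
    rw [cf_amin (hp.pow 2).1, e1]
    refine le_min ?_ (le_trans (le_of_eq (by ring)) h2)
    nlinarith [mul_pos hq0 hq0, mul_lt_mul'' hq1 hq1 hq0.le hq0.le]
  linarith

/-- The coefficients of the smoothed difference. -/
def bcoef (m s j : ℕ) : ℝ :=
  ∑ il ∈ ((range ((m + 2) * s + 2)) ×ˢ range ((m + 2) * s + 1)).filter (fun il => il.1 + il.2 = j),
    dker m s il.1 * ker m s il.2

/-- The range of the smoothed difference. -/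
def brng (m s : ℕ) : ℕ := 2 * ((m + 2) * s) + 3

theorem dker_exact (m s : ℕ) (P : ℝ[X]) (hP : P.natDegree ≤ m) :
    ∑ i ∈ range ((m + 2) * s + 2), dker m s i * P.eval (i : ℝ) = P.eval 1 - P.eval 0 := by
  unfold dker
  simp only [sub_mul, sum_sub_distrib]
  rw [ker_exact m s P hP (by omega), sum_range_succ']
  congr 1
  simp only [Nat.le_add_left, Nat.one_ne_zero, if_true, Nat.add_sub_cancel, if_false,
    show ¬ (1 ≤ 0) by omega, zero_mul, add_zero]
  have := ker_exact m s (P.comp (X + C 1)) (by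
    rw [natDegree_comp, natDegree_X_add_C, mul_one]; exact hP) (M := (m + 2) * s + 1) (by omega)
  simp only [eval_comp, eval_add, eval_X, eval_C, zero_add] at this
  rw [← this]
  exact sum_congr rfl fun i _ => by push_cast; ring

theorem bcoef_exact (m s : ℕ) (P : ℝ[X]) (hP : P.natDegree ≤ m) :
    ∑ j ∈ range (brng m s), bcoef m s j * P.eval (j : ℝ) = P.eval 1 - P.eval 0 := by
  simp only [bcoef, sum_mul]
  rw [sum_congr rfl fun j _ => sum_congr rfl (g := fun il : ℕ × ℕ => dker m s il.1 * ker m s il.2 *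
      P.eval ((il.1 + il.2 : ℕ) : ℝ)) fun il hil => by rw [(mem_filter.mp hil).2],
    ]
  refine (sum_fiberwise_of_maps_to (g := fun il : ℕ × ℕ => il.1 + il.2) (fun il hil => by
      rw [mem_product, mem_range, mem_range] at hil
      rw [mem_range, brng]; omega)
      (fun il => dker m s il.1 * ker m s il.2 * P.eval ((il.1 + il.2 : ℕ) : ℝ))).trans ?_
  rw [sum_product, ← dker_exact m s P hP]
  refine sum_congr rfl fun i _ => ?_
  have := ker_exact m s (P.comp (X + C (i : ℝ))) (by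
    rw [natDegree_comp, natDegree_X_add_C, mul_one]; exact hP) (M := (m + 2) * s + 1) (by omega)
  simp only [eval_comp, eval_add, eval_X, eval_C, zero_add] at this
  rw [← this, mul_sum]
  refine sum_congr rfl fun l _ => ?_
  push_cast
  rw [add_comm (i : ℝ)]; ring

theorem bcoef_l1 {m s : ℕ} (hs : 0 < s) :
    ∑ j ∈ range (brng m s), |bcoef m s j| ≤ DLam m * (((m : ℝ) + 3) * Lam m) / s := by
  refine (sum_le_sum fun j _ => abs_sum_le_sum_abs _ _).trans ?_
  refine (le_of_eq (sum_fiberwise_of_maps_to (g := fun il : ℕ × ℕ => il.1 + il.2)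
    (fun il hil => by
      rw [mem_product, mem_range, mem_range] at hil
      rw [mem_range, brng]; omega) (fun il => |dker m s il.1 * ker m s il.2|))).trans ?_
  rw [sum_product]
  simp only [abs_mul, ← mul_sum]
  rw [← sum_mul, mul_div_right_comm]
  exact mul_le_mul (dker_l1 hs) (ker_l1 m s) (sum_nonneg fun _ _ => abs_nonneg _)
    (div_nonneg (by linarith [one_le_DLam m]) (by positivity))

theorem bcoef_abs {m s : ℕ} (hs : 0 < s) (j : ℕ) :
    |bcoef m s j| ≤ DLam m * Lam m / (s : ℝ) ^ 2 := by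
  refine (abs_sum_le_sum_abs _ _).trans ?_
  set A := range ((m + 2) * s + 2)
  set B := range ((m + 2) * s + 1)
  set F := (A ×ˢ B).filter fun il => il.1 + il.2 = j with hF
  have hinj : Set.InjOn (fun il : ℕ × ℕ => il.1) F := by
    intro x hx y hy h
    simp only [hF, coe_filter, Set.mem_setOf_eq] at hx hy
    simp only at h
    exact Prod.ext h (by omega)
  calc ∑ il ∈ F, |dker m s il.1 * ker m s il.2|
      ≤ ∑ il ∈ F, |dker m s il.1| * (Lam m / s) := sum_le_sum fun il _ => by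
        rw [abs_mul]
        refine mul_le_mul_of_nonneg_left ((abs_ker m s _).trans ?_) (abs_nonneg _)
        rw [max_eq_right (show 1 ≤ s from hs)]
    _ = ∑ i ∈ F.image (fun il => il.1), |dker m s i| * (Lam m / s) := (sum_image (f := fun i => |dker m s i| * (Lam m / (s : ℝ))) hinj).symm
    _ ≤ ∑ i ∈ A, |dker m s i| * (Lam m / s) := by
        refine sum_le_sum_of_subset_of_nonneg (fun i hi => ?_) fun i _ _ =>
          mul_nonneg (abs_nonneg _) (div_nonneg (by linarith [one_le_Lam m]) (by positivity))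
        rw [mem_image] at hi
        obtain ⟨il, hil, rfl⟩ := hi
        exact (mem_product.mp (mem_filter.mp hil).1).1
    _ ≤ DLam m / s * (Lam m / s) := by
        rw [← sum_mul]
        exact mul_le_mul_of_nonneg_right (dker_l1 hs)
          (div_nonneg (by linarith [one_le_Lam m]) (by positivity))
    _ = _ := by ring

variable {σ : Type}

/-- A smoothed single mark is a coefficient vector with small weighted square sum. -/
theorem one_mark {a : Alg σ} (ha : IsProb a) {f : FreeMonoid σ → ℝ} {r : ℝ} (hf : IsTilt a f r)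
    {pe : ℕ} (hpe : 1 ≤ pe) (M G H : ℕ) (hH : M ≤ H + 1) (c : ℕ → ℝ) {X : ℝ}
    (hX : ∑ j ∈ range M, c j ^ 2 ≤ X) :
    Mom (∑ j ∈ range M, c j • (a ^ (G + j) * dlt a f * a ^ (H - j))) (a ^ (G + H + 1)) pe
      (kap pe * r ^ 2 * X) := by
  classical
  let wj : ℕ → FreeMonoid Bool := fun j => gw 1 ![G + j, H - j]
  have hinj : ∀ i ∈ range M, ∀ j ∈ range M, wj i = wj j → i = j := by
    intro i _ j _ h
    have := congrFun (gw_inj 1 _ _ h) 0
    simp at this
    omega
  set cc : Alg Bool := ∑ j ∈ range M, pt (wj j) (c j) with hcc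
  have hsupp : supp cc ⊆ (range M).image wj := by
    intro w hw
    rw [mem_supp, hcc, cf_sum] at hw
    obtain ⟨j, hj, hne⟩ := exists_ne_zero_of_sum_ne_zero hw
    rw [cf_pt] at hne
    split at hne
    · rename_i h; exact mem_image.mpr ⟨j, hj, h⟩
    · simp at hne
  have hval : ∀ j ∈ range M, cf cc (wj j) = c j := by
    intro j hj
    rw [hcc, cf_sum, sum_eq_single j]
    · rw [cf_pt, if_pos rfl]
    · intro i hi hne
      rw [cf_pt, if_neg fun h => hne (hinj i hi j hj h)]
    · exact fun h => absurd hj h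
  have hhom : Homog (G + H + 1) cc := by
    intro w hw
    obtain ⟨j, hj, rfl⟩ := mem_image.mp (hsupp (mem_supp.mpr hw))
    rw [mem_range] at hj
    rw [gw_len]
    simp [Fin.sum_univ_two]
    omega
  have hpsi : psi a (dlt a f) cc = ∑ j ∈ range M, c j • (a ^ (G + j) * dlt a f * a ^ (H - j)) := by
    rw [hcc, map_sum]
    refine sum_congr rfl fun j _ => ?_
    rw [psi_pt, psiM_gw]
    simp [tgen]
  have hsq : wsq (kap pe * r ^ 2) cc ≤ kap pe * r ^ 2 * X := by
    rw [wsq_eq _ _ hsupp, sum_image hinj]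
    have hk : 0 ≤ kap pe * r ^ 2 := mul_nonneg (kap_pos pe).le (sq_nonneg r)
    refine le_trans (le_of_eq ?_) (mul_le_mul_of_nonneg_left hX hk)
    rw [mul_sum]
    refine sum_congr rfl fun j hj => ?_
    rw [hval j hj, gw_cnt, pow_one]
  rw [← hpsi]
  exact (moment_bound ha (fun u _ => hf.1 u) hf.2 (cf_dlt a f) hpe (G + H + 1) cc hhom).mono
    (wsq_nonneg (mul_nonneg (kap_pos pe).le (sq_nonneg r)) _) hsq

/-- The smoothed forms of the base pair. -/
theorem base_expand {a : Alg σ} (ha : IsProb a) {f : FreeMonoid σ → ℝ} {r : ℝ} (hf : IsTilt a f r)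
    {tau : ℝ} (ht : 0 ≤ tau) (hs : Smooth a tau) {pe m s n : ℕ} (hpe : 1 ≤ pe) (hs0 : 0 < s)
    (hn : brng (2 * m) s ≤ n) (hm : m + 1 ≤ n - brng (2 * m) s) {γ : ℝ} (hγ1 : γ ≤ 1)
    (hγ : (brng (2 * m) s : ℝ) *
      Real.sqrt (2 * ((m : ℝ) + 1) * tau / ((n - brng (2 * m) s : ℕ) : ℝ)) ≤ γ) :
    ∃ zc zy : Alg σ,
      Mom zc (a ^ (2 * n + 2)) pe (kap pe * r ^ 2 *
        (DLam (2 * m) ^ 2 * Lam (2 * m) ^ 2 * (((2 * m : ℕ) : ℝ) + 3) / (s : ℝ) ^ 3)) ∧
      Mom zy (a ^ (2 * n + 2)) pe (kap pe * r ^ 2 *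
        (Lam (2 * m) ^ 2 * (((2 * m : ℕ) : ℝ) + 3) / (s : ℝ))) ∧
      nrm (a ^ (n + 1) * (a + dlt a f) * a ^ n - a ^ n * (a + dlt a f) * a ^ (n + 1) - zc) ≤
        r * ((((m : ℝ) + 2) * γ ^ (m + 1)) *
          (DLam (2 * m) * ((((2 * m : ℕ) : ℝ) + 3) * Lam (2 * m)) / s + 2)) ∧
      nrm (a ^ n * (a + dlt a f) * a ^ (n + 1) - a ^ (2 * n + 2) - zy) ≤
        r * ((((m : ℝ) + 2) * γ ^ (m + 1)) * ((((2 * m : ℕ) : ℝ) + 3) * Lam (2 * m) + 1)) := by
  classical
  set M := brng (2 * m) s with hM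
  set d := dlt a f with hd
  set δ := Real.sqrt (2 * ((m : ℝ) + 1) * tau / ((n - M : ℕ) : ℝ)) with hδ
  have hδ0 : 0 ≤ δ := Real.sqrt_nonneg _
  have hγ0 : 0 ≤ γ := le_trans (by positivity) hγ
  have hmn : (0 : ℝ) < ((n - M : ℕ) : ℝ) := by
    exact_mod_cast (show 0 < n - M by omega)
  have hsm : ∀ G, n - M ≤ G → ∀ i ≤ m + 1, nrm (a ^ G * (a - 1) ^ i) ≤ δ ^ i := by
    intro G hG i hi
    refine (pow_smooth ha.nrm_eq.le ht hs (le_trans hm hG) hi).trans ?_
    refine pow_le_pow_left₀ (Real.sqrt_nonneg _) (Real.sqrt_le_sqrt ?_) i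
    exact div_le_div_of_nonneg_left (by positivity) hmn (by exact_mod_cast hG)
  have hr := hf.nonneg
  set Bm : Alg σ →ₗ[ℝ] Alg σ →ₗ[ℝ] Alg σ := midMul d with hBm
  have hB : ∀ x y, Bm x y = x * d * y := fun x y => rfl
  have hBn : ∀ x y, nrm (Bm x y) ≤ r * (nrm x * nrm y) := fun x y => by
    rw [hB]
    refine (nrm_mul3 _ _ _).trans ?_
    have := mul_le_mul_of_nonneg_left (nrm_dlt ha hf) (nrm_nonneg x)
    have := mul_le_mul_of_nonneg_right this (nrm_nonneg y)
    linarith
  have key : ∀ (M' : ℕ) (w : ℕ → ℝ) (t S1 : ℝ), M' ≤ M → |t| ≤ 1 →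
      (∀ P : ℝ[X], P.natDegree ≤ 2 * m →
        ∑ j ∈ range M', w j * P.eval (j : ℝ) = t * P.eval 0) →
      ∑ j ∈ range M', |w j| ≤ S1 →
      nrm ((∑ j ∈ range M', w j • (a ^ (n + j) * d * a ^ (n + 1 - j))) -
        t • (a ^ n * d * a ^ (n + 1))) ≤ r * (((m : ℝ) + 2) * γ ^ (m + 1) * (S1 + 1)) := by
    intro M' w t S1 hM' ht' hw hS1
    have := exchange_gen ha.nrm_eq.le Bm hr hBn m n (n + 1) M' w t hw hδ0 hγ1 (by omega)
      (hsm n (by omega)) (hsm (n + 1 - M') (by omega))
      (le_trans (mul_le_mul_of_nonneg_right (by exact_mod_cast hM') hδ0) hγ)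
    simp only [hB] at this
    refine this.trans ?_
    rw [mul_assoc r]
    exact mul_le_mul_of_nonneg_left (mul_le_mul_of_nonneg_left (by linarith) (by positivity)) hr
  have hL : 0 ≤ Lam (2 * m) := by linarith [one_le_Lam (2 * m)]
  have hD : 0 ≤ DLam (2 * m) := by linarith [one_le_DLam (2 * m)]
  set c := bcoef (2 * m) s with hc
  set My := (2 * m + 2) * s + 1 with hMy
  have hMy' : My ≤ M := by rw [hMy, hM, brng]; omega
  have hsq : ∀ (M' : ℕ) (w : ℕ → ℝ) {u v : ℝ}, 0 ≤ u → (∀ j, |w j| ≤ u) →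
      ∑ j ∈ range M', |w j| ≤ v → ∑ j ∈ range M', w j ^ 2 ≤ u * v := by
    intro M' w u v hu h1 h2
    refine le_trans (sum_le_sum fun j _ => ?_) (le_trans (le_of_eq (mul_sum _ _ u).symm)
      (mul_le_mul_of_nonneg_left h2 hu))
    rw [← sq_abs, sq]
    exact mul_le_mul_of_nonneg_right (h1 j) (abs_nonneg _)
  refine ⟨∑ j ∈ range M, c j • (a ^ (n + j) * d * a ^ (n + 1 - j)),
    ∑ j ∈ range My, ker (2 * m) s j • (a ^ (n + j) * d * a ^ (n + 1 - j)), ?_, ?_, ?_, ?_⟩
  · rw [show 2 * n + 2 = n + (n + 1) + 1 by omega]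
    refine one_mark ha hf hpe M n (n + 1) (by omega) c ?_
    refine (hsq M c (by positivity) (bcoef_abs hs0) (bcoef_l1 hs0)).trans (le_of_eq ?_)
    ring
  · rw [show 2 * n + 2 = n + (n + 1) + 1 by omega]
    refine one_mark ha hf hpe My n (n + 1) (by omega) _ ?_
    refine (hsq My _ (u := Lam (2 * m) / s) (by positivity) (fun j => ?_)
      (ker_l1 (2 * m) s)).trans (le_of_eq ?_)
    · have := abs_ker (2 * m) s j
      rwa [max_eq_right (show 1 ≤ s from hs0)] at this
    · ring
  · set w : ℕ → ℝ := fun j => c j - if j = 1 then 1 else 0 with hw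
    have h1M : 1 ∈ range M := by rw [mem_range, hM, brng]; omega
    have h := key M w (-1) (DLam (2 * m) * ((((2 * m : ℕ) : ℝ) + 3) * Lam (2 * m)) / s + 1) le_rfl
      (by simp) (fun P hP => by
        simp only [hw, sub_mul, sum_sub_distrib, ite_mul, one_mul, zero_mul, sum_ite_eq',
          if_pos h1M]
        rw [hc, hM, bcoef_exact (2 * m) s P hP]
        push_cast; ring) (by
        refine (sum_le_sum fun j _ => abs_sub _ _).trans ?_
        rw [sum_add_distrib]
        refine add_le_add (bcoef_l1 hs0) (le_of_eq ?_)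
        simp [apply_ite, h1M])
    simp only [hw, sub_smul, sum_sub_distrib, ite_smul, one_smul, zero_smul, sum_ite_eq',
      if_pos h1M] at h
    rw [show (2 : ℝ) = 1 + 1 by norm_num, ← add_assoc (DLam (2 * m) * _ / _)]
    rw [nrm_sub_comm]
    refine le_trans (le_of_eq ?_) (le_trans h (le_of_eq (by norm_num)))
    congr 1
    rw [show n + 1 - 1 = n by omega, neg_smul, one_smul]
    have e1 : a ^ (n + 1) * a * a ^ n = a ^ n * a * a ^ (n + 1) := by
      rw [← pow_succ, ← pow_add, ← pow_succ, ← pow_add]; congr 1; omega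
    rw [mul_add, mul_add, add_mul, add_mul, e1]
    abel
  · have h := key My (ker (2 * m) s) 1 ((((2 * m : ℕ) : ℝ) + 3) * Lam (2 * m)) hMy' (by simp)
      (fun P hP => by rw [one_mul]; exact ker_exact (2 * m) s P hP (by omega)) (ker_l1 (2 * m) s)
    rw [one_smul] at h
    rw [nrm_sub_comm]
    refine le_trans (le_of_eq ?_) h
    congr 1
    have e1 : a ^ n * a * a ^ (n + 1) = a ^ (2 * n + 2) := by
      rw [← pow_succ, ← pow_add]; congr 1; omega
    rw [mul_add, add_mul, e1]
    abel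

end Vale.Agent.P321
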