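import Vale.Agent.P321.Round

/-!
Iteration of rounds: pairs of strings with polynomially small distance of any degree.
-/

noncomputable section

open Filter Topology

namespace Vale.Agent.P321

/-- Usable pairs of exponent `α` occur at every scale. -/
def Good (q α : ℝ) : Prop :=
  ∀ η : ℝ, 0 < η → ∀ B : ℝ, ∀ᶠ G : ℕ in atTop,
    ∃ g : ℕ, G ≤ g ∧ (g : ℝ) ≤ (G : ℝ) ^ (1 + η) ∧ Pair q α η B g

theorem Good.step {q α : ℝ} (hq0 : 0 < q) (hq1 : q < 1) (hα : 5 / 4 ≤ α) (h : Good q α) :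
    Good q (α + 1 / 32) := by
  intro η' hη' B'
  set α' := α + 1 / 32 with hα'
  set B'' := max B' 0 with hB''
  have hB0 : 0 ≤ B'' := le_max_right _ _
  set η := min (1 / 64) (min (η' / 8) (1 / (16 * (4 + 11 * α')))) with hη
  have hd : 0 < 16 * (4 + 11 * α') := by linarith
  have hη0 : 0 < η := lt_min (by norm_num) (lt_min (by linarith) (by positivity))
  have hη1 : η ≤ 1 / 64 := min_le_left _ _
  have hη2 : η ≤ η' / 8 := le_trans (min_le_right _ _) (min_le_left _ _)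
  have hη3 : η * (16 * (4 + 11 * α')) ≤ 1 :=
    (le_div_iff₀ hd).mp (le_trans (min_le_right _ _) (min_le_right _ _))
  set T := 5 * B'' + 5 with hT
  obtain ⟨K, hK⟩ := exists_nat_ge (16 * (T + 20))
  obtain ⟨m, hm⟩ := exists_nat_ge ((T + 20 + 8 * ((K : ℝ) + 2)) / η)
  obtain ⟨pe, hpe⟩ := exists_nat_ge (16 * (T + 2))
  have hpar : RoundPar α α' η η' T (T + 20) m K pe := by
    refine ⟨hα, hη0, hη1, by linarith, by linarith, le_rfl, hK, ?_, by linarith, by linarith, hpe⟩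
    rw [div_le_iff₀ hη0] at hm
    push_cast
    linarith
  have hr := round hq0 hq1 hpar
  obtain ⟨N, hN⟩ := (hr.and ((h η hη0 (T + 20)))).exists_forall_of_atTop
  set E := (1 + η) * (4 + 11 * η) with hE
  have hE0 : 0 < E := by positivity
  have hEη : E < 4 * (1 + η') := by nlinarith
  have hc := (BO.ceil (1 / 4) (by norm_num)).eventually_le (e' := (1 + η') / E)
    (by rw [lt_div_iff₀ hE0]; linarith)
  filter_upwards [hc, ev_ceil_large (show (0 : ℝ) < 1 / 4 by norm_num) (max N 1),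
    eventually_ge_atTop 1] with G' hc' hN' hG'
  set G := ⌈(G' : ℝ) ^ (1 / 4 : ℝ)⌉₊ with hG
  have hG0 : (0 : ℝ) ≤ G' := Nat.cast_nonneg G'
  have hGN : N ≤ G := le_trans (le_max_left _ _) hN'
  obtain ⟨g, hgG, hgU, hpair⟩ := (hN G hGN).2
  obtain ⟨h4, h11, x, y, hx, hy, hxy, f, hf, herr, hsm⟩ := (hN g (le_trans hGN hgG)).1 hpair
  have hg1 : (1 : ℝ) ≤ g := by
    exact_mod_cast le_trans (le_trans (le_max_right N 1) hN') hgG
  refine ⟨pLen η m g, ?_, ?_, x, y, hx, hy, hxy, f, hf, ?_, hsm⟩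
  · have h1 : (G' : ℝ) ≤ (g : ℝ) ^ (4 : ℝ) := by
      calc (G' : ℝ) = ((G' : ℝ) ^ (1 / 4 : ℝ)) ^ (4 : ℝ) := by
            rw [← Real.rpow_mul hG0]; norm_num
        _ ≤ (g : ℝ) ^ (4 : ℝ) := Real.rpow_le_rpow (by positivity)
            (le_trans (Nat.le_ceil _) (by exact_mod_cast hgG)) (by norm_num)
    exact_mod_cast h1.trans h4
  · refine h11.trans ?_
    calc (g : ℝ) ^ (4 + 11 * η) ≤ ((G : ℝ) ^ (1 + η)) ^ (4 + 11 * η) :=
          Real.rpow_le_rpow (Nat.cast_nonneg _) hgU (by linarith)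
      _ = (G : ℝ) ^ E := by rw [← Real.rpow_mul (Nat.cast_nonneg _)]
      _ ≤ ((G' : ℝ) ^ ((1 + η') / E)) ^ E :=
          Real.rpow_le_rpow (Nat.cast_nonneg _) hc' hE0.le
      _ = (G' : ℝ) ^ (1 + η') := by rw [← Real.rpow_mul hG0, div_mul_cancel₀ _ hE0.ne']
  · refine herr.trans ?_
    have hl : (1 : ℝ) ≤ pLen η m g := (Real.one_le_rpow hg1 (by norm_num)).trans h4
    calc (g : ℝ) ^ (-T) ≤ (g : ℝ) ^ ((4 + 11 * η) * -B'') :=
          Real.rpow_le_rpow_of_exponent_le hg1 (by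
            have := mul_le_mul_of_nonneg_right (show 4 + 11 * η ≤ 5 by linarith) hB0
            linarith)
      _ = ((g : ℝ) ^ (4 + 11 * η)) ^ (-B'') := by rw [← Real.rpow_mul (by linarith)]
      _ ≤ (pLen η m g : ℝ) ^ (-B'') :=
          Real.rpow_le_rpow_of_nonpos (by linarith) h11 (by linarith)
      _ ≤ (pLen η m g : ℝ) ^ (-B') :=
          Real.rpow_le_rpow_of_exponent_le hl (by linarith [le_max_left B' 0])

theorem Good.iterate {q : ℝ} (hq0 : 0 < q) (hq1 : q < 1) (h : Good q (5 / 4)) :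
    ∀ n : ℕ, Good q (5 / 4 + n / 32)
  | 0 => by simpa using h
  | n + 1 => by
    have := (Good.iterate hq0 hq1 h n).step hq0 hq1 (by
      have : (0 : ℝ) ≤ n := Nat.cast_nonneg n
      linarith)
    rwa [show (5 / 4 : ℝ) + ((n + 1 : ℕ) : ℝ) / 32 = 5 / 4 + (n : ℝ) / 32 + 1 / 32 by
      push_cast; ring]

/-- Distinct strings with trace laws at polynomially small distance, of any degree. -/
theorem close_pairs {q : ℝ} (hq0 : 0 < q) (hq1 : q < 1) (h : Good q (5 / 4)) (K : ℕ) :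
    ∃ N : ℕ, ∀ G ≥ N, ∃ g, G ≤ g ∧ g ≤ G ^ 2 ∧ ∃ x y : List Bool, x.length = g ∧ y.length = g ∧
      x ≠ y ∧ nrm (tr q x - tr q y) ≤ 1 / (g : ℝ) ^ K := by
  obtain ⟨N, hN⟩ := ((Good.iterate hq0 hq1 h (64 * (K + 1))) 1 one_pos ((K : ℝ) + 1))
    |>.exists_forall_of_atTop
  refine ⟨max N 2, fun G hG => ?_⟩
  obtain ⟨g, hgG, hgU, x, y, hx, hy, hxy, f, hf, herr, -⟩ := hN G (le_trans (le_max_left _ _) hG)
  have hg2 : (2 : ℝ) ≤ g := by exact_mod_cast le_trans (le_trans (le_max_right _ _) hG) hgG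
  refine ⟨g, hgG, ?_, x, y, hx, hy, hxy, ?_⟩
  · rw [show (1 : ℝ) + 1 = ((2 : ℕ) : ℝ) by norm_num, Real.rpow_natCast] at hgU
    exact_mod_cast hgU
  · set e := (g : ℝ) ^ (-((K : ℝ) + 1)) with he
    have hd : nrm (dlt (tr q x) f) ≤ e := (nrm_dlt (isProb_tr hq0.le hq1.le x) hf).trans
      (Real.rpow_le_rpow_of_exponent_le (by linarith) (by
        have : (0 : ℝ) ≤ K := Nat.cast_nonneg K
        push_cast; linarith))
    have htot : nrm (tr q x - tr q y) ≤ e + e := by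
      rw [nrm_sub_comm, show tr q y - tr q x =
        (tr q y - (tr q x + dlt (tr q x) f)) + dlt (tr q x) f by abel]
      exact (nrm_add _ _).trans (add_le_add herr hd)
    refine htot.trans ?_
    rw [he, Real.rpow_neg (by linarith), Real.rpow_add (by linarith), Real.rpow_natCast,
      Real.rpow_one]
    rw [mul_inv, ← mul_add, one_div]
    refine mul_le_of_le_one_right (by positivity) ?_
    rw [← two_mul, ← div_eq_mul_inv, div_le_one (by linarith)]
    linarith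

end Vale.Agent.P321
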