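import Vale.Agent.P321.Base
import Vale.Agent.P321.Grow

/-!
The base pair satisfies the requirements of the iteration.
-/

noncomputable section

open Filter Topology Finset

namespace Vale.Agent.P321

/-- The kernel width at the base. -/
def bW (g : ℕ) : ℕ := ⌈(g : ℝ) ^ (15 / 32 : ℝ)⌉₊

theorem baseA_ne_baseB : ∀ n : ℕ, baseA n ≠ baseB n := by
  intro n h
  have e : ∀ n, rep01 (n + 1) = rep01 n ++ [false, true] := fun n => rfl
  rw [baseA, baseB, e] at h
  simp only [List.append_assoc] at h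
  have := List.append_cancel_left h
  simp at this
  rcases n with _ | k
  · simp [rep01] at this
  · have hh : ∀ k, ∃ l, rep01 (k + 1) = false :: l := by
      intro k
      induction k with
      | zero => exact ⟨[true], rfl⟩
      | succ k ih =>
        obtain ⟨l, hl⟩ := ih
        exact ⟨l ++ [false, true], by rw [e, hl]; rfl⟩
    obtain ⟨l, hl⟩ := hh k
    rw [hl] at this
    simp at this

theorem good_base {q : ℝ} (hq0 : 0 < q) (hq1 : q < 1)
    (hslip : ∃ C : ℝ, ∃ n0 : ℕ, 1 ≤ C ∧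
      ∀ n ≥ n0, Smooth (tr q (baseA n)) (C * ((4 * n + 3 : ℕ) : ℝ))) :
    Good q (5 / 4) := by
  intro η hη B
  obtain ⟨f, r, hf, hb⟩ := unit_tilt hq0 hq1
  have hs := unit_smooth hq0 hq1
  set τ := 16 * (2 * ((1 : ℕ) : ℝ) + 1) / q ^ 4 with hτ
  have hτ0 : 0 ≤ τ := by positivity
  have ha := isProb_tr hq0.le hq1.le [false, true]
  set a := tr q [false, true] with ha'
  obtain ⟨C, n0, hC, hsl⟩ := hslip
  obtain ⟨m, hm⟩ := exists_nat_ge (32 * (max B 0 + 4))
  obtain ⟨pe, hpe⟩ := exists_nat_ge (32 * (max B 0 + 4))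
  have hB0 : (0 : ℝ) ≤ max B 0 := le_max_right _ _
  have hBB : B ≤ max B 0 := le_max_left _ _
  have hpe1 : 1 ≤ pe := by
    have : (1 : ℝ) ≤ pe := by linarith
    exact_mod_cast this
  set M : ℕ → ℕ := fun g => brng (2 * m) (bW g) with hM
  have bW_BO : BO (fun g => (bW g : ℝ)) (15 / 32) := BO.ceil _ (by norm_num)
  have bM : BO (fun g => (M g : ℝ)) (15 / 32) := by
    simp only [hM, brng, Nat.cast_add, Nat.cast_mul]
    exact ((bW_BO.cmul _).cmul _).add (BO.const' _ (by norm_num))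
  have gW : ∀ᶠ g : ℕ in atTop, (g : ℝ) ^ (15 / 32 : ℝ) ≤ (bW g : ℝ) :=
    Eventually.of_forall fun g => ceil_ge_rpow g _
  set γ : ℕ → ℝ := fun g => (M g : ℝ) * Real.sqrt (32 * (2 * ((m : ℝ) + 1) * τ) / g) with hγ
  have bγ : BO γ (-(1 / 32)) := by
    have h1 : ∀ᶠ g : ℕ in atTop, (g : ℝ) ^ (1 : ℝ) ≤ (g : ℝ) := by simp
    exact (bM.mul ((((BO.const (32 * (2 * ((m : ℝ) + 1) * τ))).div h1).sqrt))).mono (by norm_num)
  set Qd : ℕ → ℝ := fun g => kap pe * r ^ 2 *
    (DLam (2 * m) ^ 2 * Lam (2 * m) ^ 2 * (((2 * m : ℕ) : ℝ) + 3) / (bW g : ℝ) ^ 3) with hQd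
  set Qy : ℕ → ℝ := fun g => kap pe * r ^ 2 *
    (Lam (2 * m) ^ 2 * (((2 * m : ℕ) : ℝ) + 3) / (bW g : ℝ)) with hQy
  have bQd : BO Qd (-(45 / 32)) := by
    have h3 : ∀ᶠ g : ℕ in atTop, (g : ℝ) ^ (45 / 32 : ℝ) ≤ (bW g : ℝ) ^ 3 := by
      filter_upwards [gW] with g hg
      refine le_trans (le_of_eq ?_) (pow_le_pow_left₀ (by positivity) hg 3)
      rw [← Real.rpow_natCast ((g : ℝ) ^ (15 / 32 : ℝ)) 3, ← Real.rpow_mul (Nat.cast_nonneg g)]
      norm_num
    exact (((BO.const _).div h3).cmul (kap pe * r ^ 2)).mono (by norm_num)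
  have bQy : BO Qy (-(15 / 32)) :=
    (((BO.const _).div gW).cmul (kap pe * r ^ 2)).mono (by norm_num)
  set eps : ℕ → ℝ := fun g => (g : ℝ) ^ (-(5 / 4 / 2) : ℝ) / 4 with heps
  have beps : BO eps 0 := by
    simp only [heps, div_eq_mul_inv]
    exact ((BO.rpow _).mulc _).mono (by norm_num)
  set S1 := DLam (2 * m) * ((((2 * m : ℕ) : ℝ) + 3) * Lam (2 * m)) with hS1
  set S2 := (((2 * m : ℕ) : ℝ) + 3) * Lam (2 * m) + 1 with hS2
  set e1 : ℕ → ℝ := fun g => r * ((((m : ℝ) + 2) * γ g ^ (m + 1)) * (S1 / (bW g : ℝ) + 2)) with he1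
  set ey : ℕ → ℝ := fun g => r * ((((m : ℝ) + 2) * γ g ^ (m + 1)) * S2) with hey
  have bg : BO (fun g => ((m : ℝ) + 2) * γ g ^ (m + 1)) (-(max B 0 + 4)) := by
    refine ((bγ.pow (m + 1)).cmul _).mono ?_
    push_cast; linarith
  have be1 : BO e1 (-(max B 0 + 2)) := by
    have h2 : BO (fun g => S1 / (bW g : ℝ) + 2) 0 :=
      (((BO.const S1).div gW).mono (by norm_num)).add (BO.const 2)
    exact ((bg.mul h2).cmul r).mono (by linarith)
  have bey : BO ey (-(max B 0 + 2)) := ((bg.mulc S2).cmul r).mono (by linarith)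
  have bxd : BO (fun g => Qd g ^ pe / eps g ^ (2 * pe - 1)) (-(max B 0 + 2)) := by
    have h54 : BO (fun g : ℕ => 16 * (g : ℝ) ^ (5 / 4 : ℝ)) (5 / 4) := (BO.rpow _).cmul 16
    refine BO.of_le ((beps.mul ((bQd.mul h54).pow pe)).mono ?_) ?_
    · linarith
    · filter_upwards [eventually_ge_atTop 1] with g hg
      have hg0 : (0 : ℝ) < g := by exact_mod_cast hg
      have he0 : 0 < eps g := by simp only [heps]; positivity
      have e2 : (16 : ℝ) * (g : ℝ) ^ (5 / 4 : ℝ) = 1 / eps g ^ 2 := by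
        simp only [heps]
        rw [div_pow, ← Real.rpow_natCast ((g : ℝ) ^ (-(5 / 4 / 2) : ℝ)) 2, ← Real.rpow_mul hg0.le,
          show (-(5 / 4 / 2) : ℝ) * ((2 : ℕ) : ℝ) = -(5 / 4) by norm_num, Real.rpow_neg hg0.le]
        field_simp
        norm_num
      have hQ0 : 0 ≤ Qd g := by
        have := kap_pos pe
        simp only [hQd]; positivity
      rw [e2, abs_of_nonneg (div_nonneg (pow_nonneg hQ0 _) (by positivity)), mul_one_div,
        div_pow (Qd g), ← pow_mul, ← mul_div_assoc]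
      refine le_of_eq ?_
      rw [div_eq_div_iff (by positivity) (by positivity)]
      conv_rhs => rw [mul_comm (eps g), mul_assoc, ← pow_succ', Nat.sub_add_cancel (by omega)]
  have bxy : BO (fun g => 2 * eps g * (Qy g ^ pe / (1 / 2) ^ (2 * pe - 1) + ey g))
      (-(max B 0 + 2)) := by
    have h1 : BO (fun g => Qy g ^ pe / (1 / 2) ^ (2 * pe - 1)) (-(max B 0 + 2)) := by
      simp only [div_eq_mul_inv]
      exact ((bQy.pow pe).mulc _).mono (by linarith)
    exact ((beps.cmul 2).mul (h1.add bey)).mono (by linarith)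
  have etot := ((be1.add (bxd.add bxy)).cmul 2).eventually_le (e' := -B) (by linarith)
  have e32 := (bM.cmul (32 * ((m : ℝ) + 2))).eventually_le (e' := 1) (by norm_num)
  have eγ := bγ.small (by norm_num) one_pos
  have bC : BO (fun g : ℕ => C * (g : ℝ)) 1 := by simpa using (BO.rpow (1 : ℝ)).cmul C
  have eC := bC.eventually_le (e' := 1 + η) (by linarith)
  have eW := ev_ceil_large (show (0 : ℝ) < 15 / 32 by norm_num) 1
  have e4 : ∀ᶠ g : ℕ in atTop, 4 * g ≤ g * g := by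
    filter_upwards [eventually_ge_atTop 4] with g hg
    exact Nat.mul_le_mul_right g hg
  obtain ⟨N, hN⟩ := (etot.and (e32.and (eγ.and (eC.and eW)))).exists_forall_of_atTop
  have hup : ∀ᶠ G : ℕ in atTop, (4 * (G : ℝ) + 7) ≤ 11 * (G : ℝ) := by
    filter_upwards [ev_one_le] with G h; linarith
  have b11 : BO (fun g : ℕ => 2 * (g : ℝ)) 1 := by simpa using (BO.rpow (1 : ℝ)).cmul 2
  filter_upwards [eventually_ge_atTop (max (4 * n0 + 4) (max N 8)),
    b11.eventually_le (e' := 1 + η) (by linarith)] with G hG hGU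
  simp only [max_le_iff] at hG
  set n := G / 4 with hn
  set g := 4 * n + 3 with hg
  have hgG : G ≤ g := by omega
  obtain ⟨htot, h32, hγ1, hCg, hW⟩ := hN g (by omega)
  refine ⟨g, hgG, le_trans ?_ hGU, baseA n, baseB n, length_baseA n, length_baseB n,
    baseA_ne_baseB n, ?_⟩
  · exact_mod_cast (show g ≤ 2 * G by omega)
  rw [Real.rpow_one] at h32
  have hMn : 32 * (m + 2) * M g ≤ g := by exact_mod_cast h32
  have hg3 : 3 ≤ g := by omega
  have hW0 : 0 < bW g := hW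
  have hM1 : 1 ≤ M g := by simp only [hM, brng]; omega
  have hMn' : 32 * M g ≤ g := le_trans
    (Nat.mul_le_mul_right _ (by omega)) hMn
  have hm' : 32 * (m + 2) ≤ g := le_trans (Nat.le_mul_of_pos_right _ hM1) hMn
  obtain ⟨zc, zy, hzc, hzy, h1, h2⟩ := base_expand (pe := pe) (m := m) (s := bW g) (n := n) ha hf
    hτ0 hs hpe1 hW0 (show M g ≤ n by omega) (show m + 1 ≤ n - M g by omega) (γ := γ g) hγ1 (by
      refine mul_le_mul_of_nonneg_left (Real.sqrt_le_sqrt ?_) (Nat.cast_nonneg _)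
      have hnm : (g : ℝ) ≤ 32 * ((n - M g : ℕ) : ℝ) := by
        exact_mod_cast (show g ≤ 32 * (n - M g) by omega)
      have hg0 : (0 : ℝ) < g := by exact_mod_cast (show 0 < g by omega)
      rw [div_le_div_iff₀ (by exact_mod_cast (show 0 < n - M g by omega)) hg0]
      refine (mul_le_mul_of_nonneg_left hnm (by positivity)).trans (le_of_eq ?_)
      ring)
  have hA : tr q (baseA n) = a ^ n * (a + dlt a f) * a ^ (n + 1) := by rw [tr_baseA, ← ha', hb]
  have hB : tr q (baseB n) = a ^ (n + 1) * (a + dlt a f) * a ^ n := by rw [tr_baseB, ← ha', hb]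
  rw [← hA] at h1 h2
  rw [← hB] at h1
  have he0 : 0 < eps g := by
    have : (0 : ℝ) < g := by exact_mod_cast (show 0 < g by omega)
    simp only [heps]; positivity
  obtain ⟨f', hf', he'⟩ := tilt_of_moments (isProb_tr hq0.le hq1.le (baseA n))
    (isProb_tr hq0.le hq1.le (baseB n)) (ha.pow _).1 hpe1 he0 hzc hzy h1 h2
  refine ⟨f', ?_, ?_, ?_⟩
  · rw [show (g : ℝ) ^ (-(5 / 4 / 2) : ℝ) = 2 * (2 * eps g) by simp only [heps]; ring]
    exact hf'
  · exact he'.trans htot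
  · exact (hsl n (by omega)).mono hCg

end Vale.Agent.P321
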