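import Vale.Agent.P321.Slip

/-!
Elementary bounds on binomial probabilities along arithmetic progressions.
-/

noncomputable section

open Finset

namespace Vale.Agent.P321

variable {th : ℝ}

theorem bp_rec (th : ℝ) (c i : ℕ) :
    bp th (c + 1) (i + 1) = th * bp th c (i + 1) + (1 - th) * bp th c i := by
  have h1 := bp_th th c (i + 1)
  have h2 := bp_th' th c i
  push_cast at h1
  have : ((c : ℝ) + 1) ≠ 0 := by positivity
  refine mul_left_cancel₀ this ?_
  linear_combination -h1 - h2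

theorem sum_bp_le (h0 : 0 ≤ th) (h1 : th ≤ 1) (c N : ℕ) : ∑ j ∈ range N, bp th c j ≤ 1 := by
  refine (sum_le_sum_of_subset_of_nonneg (range_subset_range.mpr (Nat.le_add_right N (c + 1)))
    fun j _ _ => bp_nonneg h0 h1 c j).trans (le_of_eq (sum_bp c (by omega)))

theorem bp_le_inv_sqrt (h0 : 0 < th) (h1 : th < 1) (c j : ℕ) :
    bp th c j ≤ 1 / Real.sqrt (th * (1 - th) * ((c : ℝ) + 1)) := by
  have hp : 0 < 1 - th := by linarith
  have htel : ∀ m, bp th c j - bp th c (j + m) =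
      (∑ i ∈ range m, (bp th (c + 1) (j + i + 1) - bp th c (j + i + 1))) / (1 - th) := by
    intro m
    induction m with
    | zero => simp
    | succ m ih =>
      rw [sum_range_succ, add_div, ← ih, bp_rec th c (j + m), ← add_assoc, eq_comm]
      field_simp
      ring
  have h2 := htel (c + 1)
  rw [bp_eq_zero (show c < j + (c + 1) by omega), sub_zero] at h2
  have h3 : ∑ i ∈ range (c + 1), (bp th (c + 1) (j + i + 1) - bp th c (j + i + 1)) ≤
      Real.sqrt ((1 - th) / (th * ((c : ℝ) + 1))) := by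
    refine le_trans ?_ (sum_abs_bp_diff h0 h1.le c (j + 1 + (c + 1)) (by omega))
    rw [sum_range_add _ (j + 1) (c + 1)]
    refine le_add_of_nonneg_of_le (sum_nonneg fun _ _ => abs_nonneg _) (sum_le_sum fun i _ => ?_)
    rw [show j + 1 + i = j + i + 1 by ring]
    exact le_abs_self _
  rw [h2, div_le_iff₀ hp]
  refine h3.trans (le_of_eq ?_)
  rw [show (1 - th) / (th * ((c : ℝ) + 1)) = (1 - th) ^ 2 / (th * (1 - th) * ((c : ℝ) + 1)) by
    field_simp, Real.sqrt_div' _ (by positivity), Real.sqrt_sq hp.le]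
  ring

theorem bp_le_inv_sqrt' (h0 : 0 < th) (h1 : th < 1) (c j : ℕ) :
    bp th c j ≤ 1 / Real.sqrt (th * (1 - th) * ((j : ℝ) + 1)) := by
  have hp : 0 < 1 - th := by linarith
  rcases lt_or_ge c j with h | h
  · rw [bp_eq_zero h]; positivity
  · refine (bp_le_inv_sqrt h0 h1 c j).trans ?_
    have : (j : ℝ) ≤ c := by exact_mod_cast h
    gcongr

theorem sum_bp_time (h0 : 0 ≤ th) (h1 : th < 1) (M : ℕ) : ∀ j,
    ∑ H ∈ range M, bp th H j ≤ 1 / (1 - th)
  | 0 => by
    have hg : ∀ H : ℕ, bp th H 0 = th ^ H := fun H => by simp [bp]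
    simp only [hg]
    have := geom_sum_mul_neg th M
    rw [le_div_iff₀ (by linarith), this]
    linarith [pow_nonneg h0 M]
  | j + 1 => by
    refine le_trans ?_ (sum_bp_time h0 h1 M j)
    have e : ∑ H ∈ range M, bp th (H + 1) (j + 1) =
        th * ∑ H ∈ range M, bp th H (j + 1) + (1 - th) * ∑ H ∈ range M, bp th H j := by
      simp only [bp_rec, sum_add_distrib, ← mul_sum]
    have e2 : ∑ H ∈ range (M + 1), bp th H (j + 1) = ∑ H ∈ range M, bp th (H + 1) (j + 1) := by
      rw [sum_range_succ', bp_eq_zero (Nat.succ_pos j), add_zero]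
    rw [sum_range_succ] at e2
    have := bp_nonneg h0 h1.le M (j + 1)
    refine le_of_mul_le_mul_left ?_ (sub_pos.mpr h1)
    linarith

theorem sum_abs_bp_time (h0 : 0 < th) (h1 : th < 1) (j : ℕ) {B : ℝ}
    (hB : ∀ H, bp th H j ≤ B) (M : ℕ) :
    ∑ H ∈ range M, |bp th (H + 1) j - bp th H j| ≤ 2 * B := by
  suffices h : ∑ H ∈ range M, |bp th (H + 1) j - bp th H j| ≤
      if (M : ℝ) * (1 - th) ≤ j then bp th M j else 2 * B - bp th M j by
    have := hB M
    have := bp_nonneg h0.le h1.le M j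
    split at h <;> linarith
  induction M with
  | zero => simpa using bp_nonneg h0.le h1.le 0 j
  | succ M ih =>
    rw [sum_range_succ]
    have hth := bp_th th M j
    have hM : (0 : ℝ) < (M : ℝ) + 1 := by positivity
    have hf := bp_nonneg h0.le h1.le (M + 1) j
    push_cast
    by_cases hc : ((M : ℝ) + 1) * (1 - th) ≤ j
    · rw [if_pos hc]
      rw [if_pos (by nlinarith)] at ih
      have : bp th M j ≤ bp th (M + 1) j := by
        refine le_of_mul_le_mul_left ?_ (mul_pos hM h0)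
        have := mul_le_mul_of_nonneg_right
          (show ((M : ℝ) + 1 - j) ≤ ((M : ℝ) + 1) * th by linarith) hf
        linarith
      rw [abs_of_nonneg (sub_nonneg.mpr this)]
      linarith
    · rw [if_neg hc]
      have : bp th (M + 1) j ≤ bp th M j := by
        refine le_of_mul_le_mul_left ?_ (mul_pos hM h0)
        have := mul_le_mul_of_nonneg_right
          (show ((M : ℝ) + 1) * th ≤ ((M : ℝ) + 1 - j) by linarith) hf
        linarith
      rw [abs_of_nonpos (sub_nonpos.mpr this)]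
      have := hB M
      split at ih <;> linarith

theorem sum_blocks_le (g : ℕ → ℝ) (hg : ∀ H, 0 ≤ g H) (o P : ℕ) : ∀ W,
    ∑ i ∈ range W, ∑ r ∈ range P, g (o + i * P + r) ≤ ∑ H ∈ range (o + W * P), g H
  | 0 => by simpa using sum_nonneg fun H _ => hg H
  | W + 1 => by
    rw [sum_range_succ, show o + (W + 1) * P = o + W * P + P by ring, sum_range_add _ (o + W * P) P]
    linarith [sum_blocks_le g hg o P W]

theorem abs_tel_le (f : ℕ → ℝ) (a : ℕ) : ∀ r, f a ≤ f (a + r) + ∑ s ∈ range r, |f (a + s + 1) - f (a + s)|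
  | 0 => by simp
  | r + 1 => by
    rw [sum_range_succ, ← add_assoc a r 1]
    linarith [abs_tel_le f a r, neg_abs_le (f (a + r + 1) - f (a + r))]

theorem sum_bp_lattice (h0 : 0 < th) (h1 : th < 1) (j o W : ℕ) {P : ℕ} (hP : 0 < P) :
    ∑ i ∈ range W, bp th (o + i * P) j ≤
      1 / ((P : ℝ) * (1 - th)) + 2 / Real.sqrt (th * (1 - th) * ((j : ℝ) + 1)) := by
  set f : ℕ → ℝ := fun H => bp th H j
  set V : ℕ → ℝ := fun i => ∑ s ∈ range P, |f (o + i * P + s + 1) - f (o + i * P + s)|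
  have hPr : (0 : ℝ) < P := by exact_mod_cast hP
  have hpt : ∀ i, (P : ℝ) * f (o + i * P) ≤ ∑ r ∈ range P, f (o + i * P + r) + (P : ℝ) * V i := by
    intro i
    have : ∀ r ∈ range P, f (o + i * P) ≤ f (o + i * P + r) + V i := by
      intro r hr
      refine (abs_tel_le f (o + i * P) r).trans ?_
      have := sum_le_sum_of_subset_of_nonneg
        (f := fun s => |f (o + i * P + s + 1) - f (o + i * P + s)|)
        (range_subset_range.mpr (mem_range.mp hr).le) (fun s _ _ => abs_nonneg _)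
      linarith
    refine le_trans (le_of_eq ?_) ((sum_le_sum this).trans (le_of_eq ?_))
    · simp [f]
    · rw [sum_add_distrib]; simp
  have hsum := sum_le_sum fun i (_ : i ∈ range W) => hpt i
  rw [sum_add_distrib, ← mul_sum, ← mul_sum] at hsum
  have hA : ∑ i ∈ range W, ∑ r ∈ range P, f (o + i * P + r) ≤ 1 / (1 - th) :=
    (sum_blocks_le f (fun H => bp_nonneg h0.le h1.le H j) o P W).trans (sum_bp_time h0.le h1 _ j)
  have hV : ∑ i ∈ range W, V i ≤ 2 * (1 / Real.sqrt (th * (1 - th) * ((j : ℝ) + 1))) :=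
    (sum_blocks_le (fun H => |f (H + 1) - f H|) (fun H => abs_nonneg _) o P W).trans
      (sum_abs_bp_time h0 h1 j (fun H => bp_le_inv_sqrt' h0 h1 H j) _)
  refine le_of_mul_le_mul_left ?_ hPr
  have hV' := mul_le_mul_of_nonneg_left hV hPr.le
  have e : (P : ℝ) * (1 / ((P : ℝ) * (1 - th))) = 1 / (1 - th) := by
    field_simp
  rw [mul_add, e]
  have e2 : (P : ℝ) * (2 / Real.sqrt (th * (1 - th) * ((j : ℝ) + 1))) =
      (P : ℝ) * (2 * (1 / Real.sqrt (th * (1 - th) * ((j : ℝ) + 1)))) := by ring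
  rw [e2]
  linarith

theorem sum_bp_div_sqrt (h0 : 0 ≤ th) (h1 : th < 1) (c N : ℕ) :
    ∑ j ∈ range N, bp th c j / Real.sqrt ((j : ℝ) + 1) ≤
      1 / Real.sqrt ((1 - th) * ((c : ℝ) + 1)) := by
  have hp : 0 < 1 - th := by linarith
  have hb : ∀ j, 0 ≤ bp th c j := fun j => bp_nonneg h0 h1.le c j
  have h2 : ∑ j ∈ range N, bp th c j / ((j : ℝ) + 1) ≤ 1 / ((1 - th) * ((c : ℝ) + 1)) := by
    have e : ∀ j : ℕ, bp th c j / ((j : ℝ) + 1) =
        bp th (c + 1) (j + 1) / ((1 - th) * ((c : ℝ) + 1)) := by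
      intro j
      rw [div_eq_div_iff (by positivity) (by positivity)]
      linear_combination bp_th' th c j
    simp only [e, ← sum_div]
    refine div_le_div_of_nonneg_right ?_ (by positivity)
    have := sum_bp_le h0 h1.le (c + 1) (N + 1)
    rw [sum_range_succ'] at this
    linarith [bp_nonneg h0 h1.le (c + 1) 0]
  have hcs : (∑ j ∈ range N, bp th c j / Real.sqrt ((j : ℝ) + 1)) ^ 2 ≤
      1 / ((1 - th) * ((c : ℝ) + 1)) := by
    refine (sum_sq_le_sum_mul_sum_of_sq_le_mul (range N) (f := fun j => bp th c j)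
      (g := fun j => bp th c j / ((j : ℝ) + 1)) (fun j _ => hb j)
      (fun j _ => div_nonneg (hb j) (by positivity)) fun j _ => ?_).trans ?_
    · rw [div_pow, Real.sq_sqrt (by positivity), sq, mul_div_assoc]
    · exact (mul_le_of_le_one_left (sum_nonneg fun j _ => div_nonneg (hb j) (by positivity))
        (sum_bp_le h0 h1.le c N)).trans h2
  have h3 := Real.sqrt_le_sqrt hcs
  rw [Real.sqrt_sq (sum_nonneg fun j _ => div_nonneg (hb j) (Real.sqrt_nonneg _)),
    Real.sqrt_div' _ (by positivity), Real.sqrt_one] at h3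
  exact h3

theorem sum_inv_sqrt_le : ∀ W : ℕ, ∑ i ∈ range W, 1 / Real.sqrt ((i : ℝ) + 1) ≤ 2 * Real.sqrt W
  | 0 => by simp
  | W + 1 => by
    rw [sum_range_succ]
    push_cast
    have hW : (0 : ℝ) ≤ W := Nat.cast_nonneg W
    set a := Real.sqrt (W : ℝ)
    set b := Real.sqrt ((W : ℝ) + 1)
    have ha : a ^ 2 = W := Real.sq_sqrt hW
    have hb : b ^ 2 = (W : ℝ) + 1 := Real.sq_sqrt (by linarith)
    have hb0 : 0 < b := Real.sqrt_pos.mpr (by linarith)
    have ha0 : 0 ≤ a := Real.sqrt_nonneg _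
    have hab : a ≤ b := Real.sqrt_le_sqrt (by linarith)
    have ih : ∑ i ∈ range W, 1 / Real.sqrt ((i : ℝ) + 1) ≤ 2 * a := sum_inv_sqrt_le W
    have : 1 / b ≤ 2 * (b - a) := by
      rw [div_le_iff₀ hb0]
      nlinarith
    linarith

theorem sum_inv_sqrt_lattice (o W : ℕ) {P : ℕ} (hP : 0 < P) :
    ∑ i ∈ range W, 1 / Real.sqrt (((o + i * P : ℕ) : ℝ) + 1) ≤
      1 / Real.sqrt ((o : ℝ) + 1) + 2 * Real.sqrt ((W : ℝ) / P) := by
  rcases W with _ | V
  · simp
  rw [sum_range_succ']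
  have hPr : (0 : ℝ) < P := by exact_mod_cast hP
  have h1 : ∀ i ∈ range V, 1 / Real.sqrt (((o + (i + 1) * P : ℕ) : ℝ) + 1) ≤
      1 / Real.sqrt ((i : ℝ) + 1) / Real.sqrt P := by
    intro i _
    rw [div_div, ← Real.sqrt_mul (by positivity)]
    refine div_le_div_of_nonneg_left zero_le_one (Real.sqrt_pos.mpr (by positivity))
      (Real.sqrt_le_sqrt ?_)
    push_cast
    linarith [(Nat.cast_nonneg o : (0 : ℝ) ≤ o)]
  have h2 := div_le_div_of_nonneg_right (sum_inv_sqrt_le V) (Real.sqrt_nonneg (P : ℝ))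
  rw [sum_div, mul_div_assoc, ← Real.sqrt_div (Nat.cast_nonneg V)] at h2
  have h3 : Real.sqrt ((V : ℝ) / P) ≤ Real.sqrt (((V + 1 : ℕ) : ℝ) / P) :=
    Real.sqrt_le_sqrt (div_le_div_of_nonneg_right (by simp) hPr.le)
  have := sum_le_sum h1
  simp only [Nat.zero_mul, add_zero]
  linarith

end Vale.Agent.P321
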