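import Vale.Agent.P321.SlipDefs
import Vale.Agent.P321.SlipBinom

/-!
The coefficient vector of the base strings: support, sign, and weighted square sums.
-/

noncomputable section

open Finset

namespace Vale.Agent.P321

/-- All gap vectors up to `N`. -/
def gbox (N k : ℕ) : Finset (Fin (k + 1) → ℕ) := Fintype.piFinset fun _ => range (N + 1)

/-- The weight of a gap vector `D` given true gaps `G`. -/
def bpProd (d : ℝ) {k : ℕ} (G D : Fin (k + 1) → ℕ) : ℝ := ∏ l, bp d (G l) (D l)

theorem pow_eU (d : ℝ) {N : ℕ} : ∀ {G : ℕ}, G ≤ N →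
    eU d ^ G = ∑ j ∈ range (N + 1), pt (FreeMonoid.of false ^ j) (bp d G j)
  | 0, _ => by
    rw [sum_eq_single 0 (fun j _ hj => ?_) (fun h => absurd (mem_range.mpr (by omega)) h)]
    · simp [bp, one_eq_pt]
    · rw [bp_eq_zero (by omega)]; exact MonoidAlgebra.single_zero _
  | G + 1, hG => by
    classical
    rw [pow_succ, pow_eU d (N := N) (by omega)]
    refine ext_cf fun w => ?_
    rw [eU, mul_add, mul_smul_comm, mul_smul_comm, mul_one, sum_mul, cf_add, cf_smul, cf_smul,
      cf_sum, cf_sum, cf_sum]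
    simp only [pt_mul, cf_pt, mul_one, ← pow_succ]
    have hN : bp d G N = 0 := bp_eq_zero (by omega)
    have e3 : ∀ j, (if FreeMonoid.of false ^ (j + 1) = w then bp d (G + 1) (j + 1) else 0) =
        d * (if FreeMonoid.of false ^ (j + 1) = w then bp d G (j + 1) else 0) +
          (1 - d) * (if FreeMonoid.of false ^ (j + 1) = w then bp d G j else 0) := fun j => by
      split_ifs <;> simp [bp_rec]
    have e0 : (if FreeMonoid.of false ^ 0 = w then bp d (G + 1) 0 else 0) =
        d * (if FreeMonoid.of false ^ 0 = w then bp d G 0 else 0) := by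
      split_ifs <;> simp [bp, pow_succ, mul_comm]
    rw [sum_range_succ' (fun j => if FreeMonoid.of false ^ j = w then bp d G j else 0) N,
      sum_range_succ' (fun j => if FreeMonoid.of false ^ j = w then bp d (G + 1) j else 0) N,
      sum_range_succ (fun j => if FreeMonoid.of false ^ (j + 1) = w then bp d G j else 0) N]
    simp only [hN, ite_self, add_zero, e3, e0, sum_add_distrib, ← mul_sum]
    ring

theorem tgen_sum_pt (d : ℝ) (N : ℕ) : ∀ (k : ℕ) (b : Fin (k + 1) → ℕ → ℝ),
    tgen (phiU d) k (fun l => ∑ j ∈ range (N + 1), pt (FreeMonoid.of false ^ j) (b l j)) =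
      ∑ D ∈ gbox N k, pt (gw k D) ((1 - d) ^ k * ∏ l, b l (D l))
  | 0, b => by
    simp only [tgen]
    refine sum_nbij' (fun j => fun _ => j) (fun D => D 0) ?_ ?_ ?_ ?_ ?_
    · intro j hj; exact Fintype.mem_piFinset.mpr fun _ => hj
    · intro D hD; exact Fintype.mem_piFinset.mp hD 0
    · intro j _; rfl
    · intro D _; funext l; rw [Fin.fin_one_eq_zero l]
    · intro j _; simp [gw]
  | k + 1, b => by
    rw [tgen, tgen_sum_pt d N k (fun l => b l.succ), sum_mul, sum_mul]
    simp only [mul_sum]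
    rw [← sum_product']
    refine sum_nbij' (fun p => Fin.cons p.1 p.2) (fun D => (D 0, Fin.tail D)) ?_ ?_ ?_ ?_ ?_
    · intro p hp
      rw [mem_product] at hp
      refine Fintype.mem_piFinset.mpr fun l => ?_
      refine Fin.cases ?_ (fun i => ?_) l
      · simpa using hp.1
      · simpa using Fintype.mem_piFinset.mp hp.2 i
    · intro D hD
      exact mem_product.mpr ⟨Fintype.mem_piFinset.mp hD 0,
        Fintype.mem_piFinset.mpr fun l => Fintype.mem_piFinset.mp hD l.succ⟩
    · intro p _; simp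
    · intro D _; simp
    · intro p _
      have hphi : phiU d = pt (FreeMonoid.of true) (1 - d) := by
        refine ext_cf fun w => ?_
        rw [phiU, cf_smul, cf_pt, cf_pt]
        split <;> simp
      rw [hphi, pt_mul, pt_mul, Fin.prod_univ_succ (f := fun l => b l (Fin.cons (α := fun _ => ℕ) p.1 p.2 l)), gw]
      simp only [Fin.cons_zero, Fin.cons_succ]
      congr 1
      ring

theorem gaps_inj : ∀ {k N : ℕ} {t t' : Fin k → ℕ}, StrictMono t → StrictMono t' →
    gaps N t = gaps N t' → t = t'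
  | 0, _, t, t', _, _, _ => funext fun i => i.elim0
  | k + 1, N, t, t', hm, hm', h => by
    have h0 : t 0 = t' 0 := by
      have := congrFun h 0
      rwa [gaps_zero, gaps_zero] at this
    have hlt : ∀ i : Fin k, t 0 + 1 ≤ t i.succ := fun i => Nat.succ_le_of_lt (hm (Fin.succ_pos i))
    have hlt' : ∀ i : Fin k, t' 0 + 1 ≤ t' i.succ := fun i =>
      Nat.succ_le_of_lt (hm' (Fin.succ_pos i))
    have hs : StrictMono fun i : Fin k => t i.succ - (t 0 + 1) := fun i j hij => by
      have := hm (Fin.succ_lt_succ_iff.mpr hij); have := hlt i; dsimp only; omega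
    have hs' : StrictMono fun i : Fin k => t' i.succ - (t' 0 + 1) := fun i j hij => by
      have := hm' (Fin.succ_lt_succ_iff.mpr hij); have := hlt' i; dsimp only; omega
    have := gaps_inj (N := N - (t 0 + 1)) hs hs' (funext fun l => by
      have := congrFun h l.succ
      rw [gaps_succ hm, gaps_succ hm', ← h0] at this
      rw [← h0]
      exact this)
    funext i
    refine Fin.cases h0 (fun j => ?_) i
    have e := congrFun this j
    have := hlt j; have := hlt' j
    omega

/-- The gap lengths that can occur between marked positions. -/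
def gapLens (n W : ℕ) : Finset ℕ :=
  ((range W).image fun i => n + i * (2 * n + 2)) ∪ ((range W).image fun i => n + 1 + i * (2 * n + 2))
    ∪ ((range W).image fun i => 2 * n + 1 + i * (2 * n + 2))

theorem latU_lt {n W : ℕ} : ∀ u ∈ latU n W, u < W * (2 * n + 2) := by
  intro u hu
  obtain ⟨i, hi, rfl⟩ := mem_image.mp hu
  rw [mem_range] at hi
  have := Nat.mul_le_mul_right (2 * n + 2) (Nat.succ_le_of_lt hi)
  rw [Nat.succ_mul] at this
  omega

theorem gaps_mem {n W : ℕ} : ∀ {k : ℕ} {t : Fin k → ℕ}, 1 ≤ k → StrictMono t →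
    (∀ i, t i ∈ latU n W) → ∀ l, gaps (W * (2 * n + 2)) t l ∈ gapLens n W := by
  intro k t hk hm hmem l
  obtain ⟨P, hP⟩ : ∃ P, P = 2 * n + 2 := ⟨_, rfl⟩
  rw [← hP]
  have hidx : ∀ i, ∃ a, a < W ∧ t i = n + a * P := fun i => by
    obtain ⟨a, ha, e⟩ := mem_image.mp (hmem i)
    rw [← hP] at e
    exact ⟨a, mem_range.mp ha, e.symm⟩
  simp only [gapLens, ← hP, mem_union, mem_image, mem_range, gaps, hiP, loP]
  by_cases h0 : l.val = 0
  · obtain ⟨a, ha, e⟩ := hidx ⟨0, hk⟩
    refine Or.inl (Or.inl ⟨a, ha, ?_⟩)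
    rw [dif_pos (show l.val < k by omega), dif_pos h0, Nat.sub_zero, ← e]
    exact congrArg t (Fin.ext h0.symm)
  rw [dif_neg h0]
  obtain ⟨a, ha, e⟩ := hidx ⟨l.val - 1, by omega⟩
  rw [e]
  by_cases hlk : l.val < k
  · rw [dif_pos hlk]
    obtain ⟨b, hb, e'⟩ := hidx ⟨l.val, hlk⟩
    rw [e']
    have hlt := hm (show (⟨l.val - 1, by omega⟩ : Fin k) < ⟨l.val, hlk⟩ from
      Fin.lt_def.mpr (show l.val - 1 < l.val by omega))
    rw [e, e'] at hlt
    have hab : a < b := by
      by_contra hc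
      have : b * P ≤ a * P := Nat.mul_le_mul (Nat.le_of_not_lt hc) le_rfl
      omega
    obtain ⟨c, rfl⟩ : ∃ c, b = a + (c + 1) := ⟨b - a - 1, by omega⟩
    refine Or.inr ⟨c, by omega, ?_⟩
    have : (a + (c + 1)) * P = a * P + c * P + P := by ring
    omega
  · rw [dif_neg hlk]
    obtain ⟨c, rfl⟩ : ∃ c, W = a + (c + 1) := ⟨W - a - 1, by omega⟩
    refine Or.inl (Or.inr ⟨c, by omega, ?_⟩)
    have : (a + (c + 1)) * P = a * P + c * P + P := by ring
    omega

/-- The gaps of a marked set. -/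
def gapsOf (N k : ℕ) (S : Finset ℕ) : Fin (k + 1) → ℕ :=
  if h : S.card = k then gaps N (S.orderEmbOfFin h) else 0

theorem gapsOf_le {n W k : ℕ} {S : Finset ℕ} (hS : S ∈ (latU n W).powersetCard k) :
    (∑ l, gapsOf (W * (2 * n + 2)) k S l) + k = W * (2 * n + 2) := by
  obtain ⟨hsub, hk⟩ := mem_powersetCard.mp hS
  rw [gapsOf, dif_pos hk]
  exact gaps_total (S.orderEmbOfFin hk).strictMono
    fun i => latU_lt _ (hsub (orderEmbOfFin_mem S hk i))

/-- The coefficient of the word with `k` marks and gaps `D`. -/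
def cwCoef (d : ℝ) (n W k : ℕ) (D : Fin (k + 1) → ℕ) : ℝ :=
  (1 - d) ^ k * ∑ S ∈ (latU n W).powersetCard k, bpProd d (gapsOf (W * (2 * n + 2)) k S) D

theorem card_latU (n W : ℕ) : (latU n W).card = W := by
  rw [latU, card_image_of_injective _ fun i j h => ?_, card_range]
  exact Nat.eq_of_mul_eq_mul_right (by omega : 0 < 2 * n + 2) (Nat.add_left_cancel h)

theorem cW_eq (d : ℝ) (n W : ℕ) :
    cW d n W = ∑ k ∈ range (W + 1), ∑ D ∈ gbox (W * (2 * n + 2)) k,
      pt (gw k D) (cwCoef d n W k D) := by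
  set N := W * (2 * n + 2) with hN
  have hF : (range N).filter (fun i => i ∈ latU n W) = latU n W := by
    ext i
    simp only [mem_filter, mem_range]
    exact ⟨fun h => h.2, fun h => ⟨latU_lt i h, h⟩⟩
  rw [cW, ← hN, expand_full, hF, sum_powerset, card_latU]
  refine sum_congr rfl fun k _ => ?_
  have hS : ∀ S ∈ (latU n W).powersetCard k, wd (eU d) (phiU d) S N =
      ∑ D ∈ gbox N k, pt (gw k D) ((1 - d) ^ k * bpProd d (gapsOf N k S) D) := by
    intro S hS
    obtain ⟨hsub, hk⟩ := mem_powersetCard.mp hS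
    rw [wd_eq_tgen_sort _ _ hk fun i hi => latU_lt i (hsub hi)]
    have hle : ∀ l, gaps N (S.orderEmbOfFin hk) l ≤ N := fun l => by
      have h1 := gapsOf_le hS
      rw [gapsOf, dif_pos hk, ← hN] at h1
      have := single_le_sum (f := fun l => gaps N (S.orderEmbOfFin hk) l)
        (fun _ _ => Nat.zero_le _) (mem_univ l)
      omega
    have e : (fun l => eU d ^ gaps N (S.orderEmbOfFin hk) l) = fun l =>
        ∑ j ∈ range (N + 1), pt (FreeMonoid.of false ^ j) (bp d (gaps N (S.orderEmbOfFin hk) l) j) :=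
      funext fun l => pow_eU d (hle l)
    rw [e, tgen_sum_pt]
    simp [gapsOf, hk, bpProd]
  rw [sum_congr rfl hS, sum_comm]
  refine sum_congr rfl fun D _ => ext_cf fun w => ?_
  rw [cf_sum]
  simp only [cf_pt, cwCoef, mul_sum, ← hN]
  split_ifs <;> simp

theorem cf_cW (d : ℝ) (n W : ℕ) {k : ℕ} (hk : k ≤ W) {D : Fin (k + 1) → ℕ}
    (hD : D ∈ gbox (W * (2 * n + 2)) k) : cf (cW d n W) (gw k D) = cwCoef d n W k D := by
  classical
  rw [cW_eq, cf_sum, sum_eq_single k, cf_sum, sum_eq_single D]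
  · rw [cf_pt, if_pos rfl]
  · intro D' _ hne
    rw [cf_pt, if_neg fun h => hne (gw_inj k _ _ h)]
  · exact fun h => absurd hD h
  · intro k' _ hne
    rw [cf_sum]
    refine sum_eq_zero fun D' _ => ?_
    rw [cf_pt, if_neg]
    intro h
    have := congrArg cnt h
    rw [gw_cnt, gw_cnt] at this
    exact hne this
  · exact fun h => absurd (mem_range.mpr (Nat.lt_succ_of_le hk)) h

theorem cW_pos {d : ℝ} (h0 : 0 ≤ d) (h1 : d ≤ 1) (n W : ℕ) : Pos (cW d n W) := by
  intro w
  rw [cW_eq, cf_sum]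
  refine sum_nonneg fun k _ => ?_
  rw [cf_sum]
  refine sum_nonneg fun D _ => ?_
  rw [cf_pt]
  split
  · exact mul_nonneg (pow_nonneg (by linarith) _)
      (sum_nonneg fun S _ => prod_nonneg fun l _ => bp_nonneg h0 h1 _ _)
  · rfl

theorem cW_exists {d : ℝ} {n W : ℕ} {w : FreeMonoid Bool} (hw : cf (cW d n W) w ≠ 0) :
    ∃ k, k ≤ W ∧ ∃ D ∈ gbox (W * (2 * n + 2)) k, gw k D = w ∧ cwCoef d n W k D ≠ 0 := by
  classical
  rw [cW_eq, cf_sum] at hw
  obtain ⟨k, hk, hk'⟩ := exists_ne_zero_of_sum_ne_zero hw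
  rw [cf_sum] at hk'
  obtain ⟨D, hD, hD'⟩ := exists_ne_zero_of_sum_ne_zero hk'
  rw [cf_pt] at hD'
  split at hD'
  · rename_i h
    exact ⟨k, Nat.le_of_lt_succ (mem_range.mp hk), D, hD, h, hD'⟩
  · exact absurd rfl hD'

theorem cW_supp {d : ℝ} {n W : ℕ} {w : FreeMonoid Bool} (hw : cf (cW d n W) w ≠ 0) :
    len w ≤ W * (2 * n + 2) := by
  obtain ⟨k, -, D, -, rfl, hc⟩ := cW_exists hw
  obtain ⟨S, hS, hS'⟩ := exists_ne_zero_of_sum_ne_zero (right_ne_zero_of_mul hc)
  rw [gw_len, ← gapsOf_le hS]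
  refine Nat.add_le_add_right (sum_le_sum fun l _ => ?_) k
  by_contra h
  exact hS' (prod_eq_zero (mem_univ l) (bp_eq_zero (Nat.lt_of_not_le h)))

theorem cW_zero (d : ℝ) (n W R : ℕ) :
    cf (cW d n W) (FreeMonoid.of false ^ R) = bp d (W * (2 * n + 2)) R := by
  set N := W * (2 * n + 2) with hN
  have e : FreeMonoid.of false ^ R = gw 0 fun _ => R := by simp [gw]
  rcases lt_or_ge N R with h | h
  · rw [bp_eq_zero h]
    by_contra hne
    have := cW_supp hne
    rw [e, gw_len] at this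
    simp at this
    omega
  · rw [e, cf_cW d n W (Nat.zero_le W) (Fintype.mem_piFinset.mpr fun _ => mem_range.mpr (by omega))]
    simp [cwCoef, bpProd, gapsOf, gaps, hiP, loP, powersetCard_zero, ← hN]

variable {d : ℝ}

/-- The column bound for gap distributions. -/
def psiGap (d : ℝ) (n W j : ℕ) : ℝ := ∑ g ∈ gapLens n W, bp d g j

theorem psiGap_nonneg (hd0 : 0 ≤ d) (hd1 : d ≤ 1) (n W j : ℕ) : 0 ≤ psiGap d n W j :=
  sum_nonneg fun _ _ => bp_nonneg hd0 hd1 _ _

/-- The total self-overlap of gap distributions. -/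
def phiGap (d : ℝ) (n W N : ℕ) : ℝ :=
  ∑ g ∈ gapLens n W, ∑ j ∈ range (N + 1), bp d g j * psiGap d n W j

theorem sum_gapLens_le (f : ℕ → ℝ) (hf : ∀ g, 0 ≤ f g) (n W : ℕ) :
    ∑ g ∈ gapLens n W, f g ≤ (∑ i ∈ range W, f (n + i * (2 * n + 2))) +
      (∑ i ∈ range W, f (n + 1 + i * (2 * n + 2))) +
      ∑ i ∈ range W, f (2 * n + 1 + i * (2 * n + 2)) := by
  have hu : ∀ A B : Finset ℕ, ∑ g ∈ A ∪ B, f g ≤ ∑ g ∈ A, f g + ∑ g ∈ B, f g := fun A B => by
    rw [← sum_union_inter]
    exact le_add_of_nonneg_right (sum_nonneg fun g _ => hf g)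
  have hi : ∀ e : ℕ → ℕ, ∑ g ∈ (range W).image e, f g ≤ ∑ i ∈ range W, f (e i) := fun e =>
    sum_image_le_of_nonneg fun g _ => hf g
  refine (hu _ _).trans (add_le_add ((hu _ _).trans (add_le_add (hi _) (hi _))) (hi _))

theorem phiGap_le (hd0 : 0 < d) (hd1 : d < 1) (n W N : ℕ) :
    phiGap d n W N ≤ 9 * W / (((2 * n + 2 : ℕ) : ℝ) * (1 - d)) +
      18 / (Real.sqrt d * (1 - d)) *
        (1 / Real.sqrt ((n : ℝ) + 1) + 2 * Real.sqrt ((W : ℝ) / ((2 * n + 2 : ℕ) : ℝ))) := by
  set P := 2 * n + 2 with hP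
  have hP0 : 0 < P := by omega
  have hp : 0 < 1 - d := by linarith
  have hsd : 0 < Real.sqrt d := Real.sqrt_pos.mpr hd0
  set a := 1 / ((P : ℝ) * (1 - d)) with ha
  set b := 6 / (Real.sqrt d * (1 - d)) with hb
  have ha0 : 0 ≤ a := by positivity
  have hb0 : 0 ≤ b := by positivity
  have hb1 : ∀ c j, 0 ≤ bp d c j := fun c j => bp_nonneg hd0.le hd1.le c j
  have hpsi : ∀ j, psiGap d n W j ≤ 3 * a + 6 / Real.sqrt (d * (1 - d) * ((j : ℝ) + 1)) := by
    intro j
    refine (sum_gapLens_le _ (fun g => hb1 g j) n W).trans ?_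
    have l1 := sum_bp_lattice hd0 hd1 j n W hP0
    have l2 := sum_bp_lattice hd0 hd1 j (n + 1) W hP0
    have l3 := sum_bp_lattice hd0 hd1 j (2 * n + 1) W hP0
    rw [hP] at l1 l2 l3 ha
    refine (add_le_add (add_le_add l1 l2) l3).trans (le_of_eq ?_)
    rw [ha]; ring
  have hinner : ∀ g, ∑ j ∈ range (N + 1), bp d g j * psiGap d n W j ≤
      3 * a + b * (1 / Real.sqrt ((g : ℝ) + 1)) := by
    intro g
    have e : ∀ j : ℕ, bp d g j * (6 / Real.sqrt (d * (1 - d) * ((j : ℝ) + 1))) =
        6 / Real.sqrt (d * (1 - d)) * (bp d g j / Real.sqrt ((j : ℝ) + 1)) := fun j => by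
      rw [Real.sqrt_mul (by positivity) ((j : ℝ) + 1)]; field_simp
    refine (sum_le_sum fun j _ => mul_le_mul_of_nonneg_left (hpsi j) (hb1 g j)).trans ?_
    have e' : ∀ j : ℕ, bp d g j * (3 * a + 6 / Real.sqrt (d * (1 - d) * ((j : ℝ) + 1))) =
        bp d g j * (3 * a) + 6 / Real.sqrt (d * (1 - d)) * (bp d g j / Real.sqrt ((j : ℝ) + 1)) :=
      fun j => by rw [← e j]; exact mul_add (bp d g j) _ _
    rw [sum_congr rfl fun j _ => e' j, sum_add_distrib, ← sum_mul, ← mul_sum]
    refine add_le_add (mul_le_of_le_one_left (by positivity) (sum_bp_le hd0.le hd1.le g _)) ?_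
    refine (mul_le_mul_of_nonneg_left (sum_bp_div_sqrt hd0.le hd1 g (N + 1)) (by positivity)).trans
      (le_of_eq ?_)
    rw [hb, Real.sqrt_mul hd0.le, Real.sqrt_mul hp.le]
    have := Real.mul_self_sqrt hp.le
    field_simp
    rw [Real.sq_sqrt hp.le]
  have hrow : ∀ o, n ≤ o → ∑ i ∈ range W, (3 * a + b * (1 / Real.sqrt (((o + i * P : ℕ) : ℝ) + 1))) ≤
      3 * W * a + b * (1 / Real.sqrt ((n : ℝ) + 1) + 2 * Real.sqrt ((W : ℝ) / P)) := by
    intro o ho
    rw [sum_add_distrib, sum_const, card_range, nsmul_eq_mul, ← mul_sum]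
    refine add_le_add (le_of_eq (by ring)) (mul_le_mul_of_nonneg_left ?_ hb0)
    refine (sum_inv_sqrt_lattice o W hP0).trans (add_le_add ?_ le_rfl)
    refine div_le_div_of_nonneg_left zero_le_one (Real.sqrt_pos.mpr (by positivity))
      (Real.sqrt_le_sqrt ?_)
    have : (n : ℝ) ≤ o := by exact_mod_cast ho
    linarith
  refine (sum_le_sum fun g _ => hinner g).trans ?_
  refine (sum_gapLens_le (fun g => 3 * a + b * (1 / Real.sqrt ((g : ℝ) + 1)))
    (fun g => by positivity) n W).trans ?_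
  refine (add_le_add (add_le_add (hrow n le_rfl) (hrow (n + 1) (by omega)))
    (hrow (2 * n + 1) (by omega))).trans (le_of_eq ?_)
  rw [ha, hb]
  ring

/-- Squares of the marked coefficients at a fixed length. -/
theorem sum_sq_coef_le (hd0 : 0 < d) (hd1 : d < 1) (n W k R : ℕ) :
    ∑ D ∈ (gbox (W * (2 * n + 2)) k).filter (fun D => (∑ l, D l) + k = R),
        (∑ S ∈ (latU n W).powersetCard k, bpProd d (gapsOf (W * (2 * n + 2)) k S) D) ^ 2 ≤
      ((k : ℝ) + 1) ^ 3 / (d * (1 - d) * (((W * (2 * n + 2) : ℕ) : ℝ) + 1)) *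
        phiGap d n W (W * (2 * n + 2)) ^ k := by
  classical
  set N := W * (2 * n + 2) with hN
  set 𝒮 := (latU n W).powersetCard k with h𝒮
  set G := fun S => gapsOf N k S with hG
  set Φ := phiGap d n W N
  have hp : 0 < 1 - d := by linarith
  have hb : ∀ c j, 0 ≤ bp d c j := fun c j => bp_nonneg hd0.le hd1.le c j
  have hF : ∀ S D, 0 ≤ bpProd d (G S) D := fun S D => prod_nonneg fun l _ => hb _ _
  set M := Real.sqrt (((k : ℝ) + 1) / (d * (1 - d) * ((N : ℝ) + 1))) with hM
  have hM0 : 0 ≤ M := Real.sqrt_nonneg _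
  have hM2 : M ^ 2 = ((k : ℝ) + 1) / (d * (1 - d) * ((N : ℝ) + 1)) :=
    Real.sq_sqrt (by positivity)
  have hψ := psiGap_nonneg hd0.le hd1.le n W
  have hφ : ∀ g, 0 ≤ ∑ j ∈ range (N + 1), bp d g j * psiGap d n W j := fun g =>
    sum_nonneg fun j _ => mul_nonneg (hb g j) (hψ j)
  -- the bound for one sink
  have key : ∀ s : Fin (k + 1),
      ∑ D ∈ (gbox N k).filter (fun D => (∑ l, D l) + k = R),
        (∑ S ∈ 𝒮.filter (fun S => sinkOf (G S) = s), bpProd d (G S) D) ^ 2 ≤ M ^ 2 * Φ ^ k := by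
    intro s
    set T := 𝒮.filter (fun S => sinkOf (G S) = s) with hT
    set A := univ.erase s with hA
    set bx : Fin (k + 1) → Finset ℕ := fun l => if l ∈ A then gapLens n W else {0} with hbx
    have hcardA : A.card = k := by simp [hA]
    have hpl : ∀ S ∈ T, ∀ D, bpProd d (G S) D ≤ M * ∏ l ∈ A, bp d (G S l) (D l) := by
      intro S hS D
      rw [bpProd, ← mul_prod_erase univ _ (mem_univ s)]
      refine mul_le_mul_of_nonneg_right ?_ (prod_nonneg fun l _ => hb _ _)
      refine (bp_le_inv_sqrt hd0 hd1 _ _).trans ?_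
      rw [mem_filter] at hS
      have hle : ∑ l, (G S l + 1) ≤ (k + 1) * (G S s + 1) := by
        refine (sum_le_card_nsmul univ _ (G S s + 1) fun l _ => ?_).trans (le_of_eq (by simp))
        have := le_sinkOf (G S) l
        rw [hS.2] at this
        omega
      have htot := gapsOf_le hS.1
      rw [← hN] at htot
      simp only [sum_add_distrib, sum_const, card_univ, Fintype.card_fin, smul_eq_mul, mul_one] at hle
      have hle' : N + 1 ≤ (k + 1) * (G S s + 1) := by simp only [hG] at hle ⊢; omega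
      have hler : ((N : ℝ) + 1) ≤ ((k : ℝ) + 1) * ((G S s : ℝ) + 1) := by exact_mod_cast hle'
      rw [hM, show 1 / Real.sqrt (d * (1 - d) * ((G S s : ℝ) + 1)) =
          Real.sqrt (1 / (d * (1 - d) * ((G S s : ℝ) + 1))) by
        rw [Real.sqrt_div' _ (by positivity), Real.sqrt_one]]
      refine Real.sqrt_le_sqrt ?_
      rw [div_le_div_iff₀ (by positivity) (by positivity), one_mul]
      have hdp : 0 ≤ d * (1 - d) := by positivity
      calc d * (1 - d) * ((N : ℝ) + 1) ≤ d * (1 - d) * (((k : ℝ) + 1) * ((G S s : ℝ) + 1)) :=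
            mul_le_mul_of_nonneg_left hler hdp
        _ = ((k : ℝ) + 1) * (d * (1 - d) * ((G S s : ℝ) + 1)) := by ring
    have hinj : ∀ S ∈ T, ∀ S' ∈ T,
        (fun l => if l ∈ A then G S l else 0) = (fun l => if l ∈ A then G S' l else 0) →
          S = S' := by
      intro S hS S' hS' h
      have hS1 := (mem_filter.mp hS).1
      have hS1' := (mem_filter.mp hS').1
      have hne : ∀ l ∈ A, G S l = G S' l := fun l hl => by simpa [hl] using congrFun h l
      have hs : G S s = G S' s := by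
        have e1 := gapsOf_le hS1
        have e2 := gapsOf_le hS1'
        rw [← hN, ← add_sum_erase univ _ (mem_univ s), ← hA] at e1 e2
        have := sum_congr rfl hne
        simp only [hG] at this ⊢
        omega
      have hall : G S = G S' := funext fun l => by
        rcases eq_or_ne l s with rfl | hl
        · exact hs
        · exact hne l (mem_erase.mpr ⟨hl, mem_univ l⟩)
      obtain ⟨-, hk⟩ := mem_powersetCard.mp hS1
      obtain ⟨-, hk'⟩ := mem_powersetCard.mp hS1'
      simp only [hG, gapsOf, dif_pos hk, dif_pos hk'] at hall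
      have ht := gaps_inj (S.orderEmbOfFin hk).strictMono (S'.orderEmbOfFin hk').strictMono hall
      rw [← image_orderEmbOfFin_univ S hk, ← image_orderEmbOfFin_univ S' hk', ht]
    have hmem : ∀ S ∈ T, (fun l => if l ∈ A then G S l else 0) ∈ Fintype.piFinset bx := by
      intro S hS
      refine Fintype.mem_piFinset.mpr fun l => ?_
      by_cases hl : l ∈ A
      · obtain ⟨hsub, hk⟩ := mem_powersetCard.mp (mem_filter.mp hS).1
        have hk1 : 1 ≤ k := by rw [← hcardA]; exact card_pos.mpr ⟨l, hl⟩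
        simp only [hbx, hl, if_true, hG, gapsOf, dif_pos hk]
        exact gaps_mem hk1 (S.orderEmbOfFin hk).strictMono
          (fun i => hsub (orderEmbOfFin_mem S hk i)) l
      · simp [hbx, hl]
    have hsumT : ∀ f : ℕ → Fin (k + 1) → ℝ, (∀ g l, 0 ≤ f g l) →
        ∑ S ∈ T, ∏ l ∈ A, f (G S l) l ≤ ∏ l ∈ A, ∑ g ∈ gapLens n W, f g l := by
      intro f hf
      set h' : (Fin (k + 1) → ℕ) → ℝ := fun H => ∏ l, if l ∈ A then f (H l) l else 1 with hh'
      have e : ∀ S ∈ T, ∏ l ∈ A, f (G S l) l = h' (fun l => if l ∈ A then G S l else 0) := by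
        intro S _
        simp only [hh']
        rw [prod_ite_mem, univ_inter]
        exact prod_congr rfl fun l hl => by rw [if_pos hl]
      rw [sum_congr rfl e, ← sum_image hinj (f := h')]
      simp only [hh']
      refine (sum_le_sum_of_subset_of_nonneg (image_subset_iff.mpr hmem) fun H _ _ =>
        prod_nonneg fun l _ => by split_ifs; exacts [hf _ _, zero_le_one]).trans (le_of_eq ?_)
      rw [← prod_univ_sum bx fun l g => if l ∈ A then f g l else 1,
        ← mul_prod_erase univ _ (mem_univ s), ← hA]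
      have hsA : s ∉ A := by simp [hA]
      simp only [hbx, hsA, if_false, sum_singleton, one_mul]
      exact prod_congr rfl fun l hl => by simp [hl]
    have hA1 : ∀ D : Fin (k + 1) → ℕ, ∑ S ∈ T, bpProd d (G S) D ≤ M * ∏ l ∈ A, psiGap d n W (D l) := by
      intro D
      refine (sum_le_sum fun S hS => hpl S hS D).trans ?_
      rw [← mul_sum]
      exact mul_le_mul_of_nonneg_left (hsumT (fun g l => bp d g (D l)) fun g l => hb g _) hM0
    set Box := (gbox N k).filter (fun D => (∑ l, D l) + k = R) with hBox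
    calc ∑ D ∈ Box, (∑ S ∈ T, bpProd d (G S) D) ^ 2
        ≤ ∑ D ∈ Box, (∑ S ∈ T, M * ∏ l ∈ A, bp d (G S l) (D l)) *
            (M * ∏ l ∈ A, psiGap d n W (D l)) := by
          refine sum_le_sum fun D _ => ?_
          rw [sq]
          exact mul_le_mul (sum_le_sum fun S hS => hpl S hS D) (hA1 D)
            (sum_nonneg fun S _ => hF S D)
            (sum_nonneg fun S _ => mul_nonneg hM0 (prod_nonneg fun l _ => hb _ _))
      _ = M ^ 2 * ∑ S ∈ T, ∑ D ∈ Box, ∏ l ∈ A, bp d (G S l) (D l) * psiGap d n W (D l) := by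
          rw [sum_comm (s := T), mul_sum]
          refine sum_congr rfl fun D _ => ?_
          rw [mul_sum, sum_mul]
          refine sum_congr rfl fun S _ => ?_
          rw [prod_mul_distrib]
          ring
      _ ≤ M ^ 2 * ∑ S ∈ T, ∏ l ∈ A, ∑ j ∈ range (N + 1), bp d (G S l) j * psiGap d n W j := by
          refine mul_le_mul_of_nonneg_left (sum_le_sum fun S _ => ?_) (sq_nonneg M)
          set bx' : Fin (k + 1) → Finset ℕ := fun l => if l ∈ A then range (N + 1) else {0}
            with hbx'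
          set h' : (Fin (k + 1) → ℕ) → ℝ := fun H =>
            ∏ l, if l ∈ A then bp d (G S l) (H l) * psiGap d n W (H l) else 1 with hh'
          have hinjD : ∀ D ∈ Box, ∀ D' ∈ Box,
              (fun l => if l ∈ A then D l else 0) = (fun l => if l ∈ A then D' l else 0) →
                D = D' := by
            intro D hD D' hD' h
            have hne : ∀ l ∈ A, D l = D' l := fun l hl => by simpa [hl] using congrFun h l
            have e1 := (mem_filter.mp hD).2
            have e2 := (mem_filter.mp hD').2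
            rw [← add_sum_erase univ _ (mem_univ s), ← hA] at e1 e2
            have hsum : ∑ l ∈ A, D l = ∑ l ∈ A, D' l := sum_congr rfl hne
            funext l
            rcases eq_or_ne l s with rfl | hl
            · omega
            · exact hne l (mem_erase.mpr ⟨hl, mem_univ l⟩)
          have e : ∀ D ∈ Box, ∏ l ∈ A, bp d (G S l) (D l) * psiGap d n W (D l) =
              h' (fun l => if l ∈ A then D l else 0) := by
            intro D _
            simp only [hh']
            rw [prod_ite_mem, univ_inter]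
            exact prod_congr rfl fun l hl => by rw [if_pos hl]
          rw [sum_congr rfl e, ← sum_image hinjD]
          have hsub : Box.image (fun D l => if l ∈ A then D l else 0) ⊆ Fintype.piFinset bx' := by
            refine image_subset_iff.mpr fun D hD => Fintype.mem_piFinset.mpr fun l => ?_
            by_cases hl : l ∈ A
            · simpa [hbx', hl] using Fintype.mem_piFinset.mp (mem_filter.mp hD).1 l
            · simp [hbx', hl]
          refine (sum_le_sum_of_subset_of_nonneg hsub fun H _ _ => prod_nonneg fun l _ => by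
            split_ifs; exacts [mul_nonneg (hb _ _) (hψ _), zero_le_one]).trans (le_of_eq ?_)
          simp only [hh']
          rw [← prod_univ_sum bx' fun l j => if l ∈ A then bp d (G S l) j * psiGap d n W j else 1,
            ← mul_prod_erase univ _ (mem_univ s), ← hA]
          have hsA : s ∉ A := by simp [hA]
          simp only [hbx', hsA, if_false, sum_singleton, one_mul]
          exact prod_congr rfl fun l hl => by simp [hl]
      _ ≤ M ^ 2 * Φ ^ k := by
          refine mul_le_mul_of_nonneg_left ((hsumT _ fun g _ => hφ g).trans (le_of_eq ?_))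
            (sq_nonneg M)
          rw [prod_const, hcardA]
          rfl
  have hcs : ∀ D, (∑ S ∈ 𝒮, bpProd d (G S) D) ^ 2 ≤ ((k : ℝ) + 1) *
      ∑ s, (∑ S ∈ 𝒮.filter (fun S => sinkOf (G S) = s), bpProd d (G S) D) ^ 2 := by
    intro D
    rw [← sum_fiberwise 𝒮 (fun S => sinkOf (G S))]
    refine (sq_sum_le_card_mul_sum_sq).trans (le_of_eq ?_)
    simp
  refine (sum_le_sum fun D _ => hcs D).trans ?_
  rw [← mul_sum, sum_comm]
  refine (mul_le_mul_of_nonneg_left (sum_le_sum fun s _ => key s) (by positivity)).trans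
    (le_of_eq ?_)
  rw [sum_const, card_univ, Fintype.card_fin, nsmul_eq_mul, hM2]
  push_cast
  ring

/-- Weighted square sums of the homogeneous parts are of order `1 / N`. -/
theorem slip_wsq {d : ℝ} (hd0 : 0 < d) (hd1 : d < 1) {K : ℝ} (hK : 0 ≤ K) :
    ∃ dl > 0, ∃ C > 0, ∀ n W : ℕ, 1 ≤ W → 1 / dl ≤ (n : ℝ) → (W : ℝ) ≤ dl * n → ∀ R : ℕ,
      wsq K (homPart R (cW d n W)) ≤ C / ((W * (2 * n + 2) : ℕ) : ℝ) := by
  classical
  have hp : 0 < 1 - d := by linarith
  have hsd : 0 < Real.sqrt d := Real.sqrt_pos.mpr hd0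
  set cc := 9 / (1 - d) + 54 / (Real.sqrt d * (1 - d)) with hcc
  have hcc0 : 0 < cc := by positivity
  set s := 1 / (16 * K * cc + 1) with hs
  have hs0 : 0 < s := by positivity
  have hs1 : s ≤ 1 := by
    rw [hs, div_le_one (by positivity)]
    exact le_add_of_nonneg_left (by positivity)
  refine ⟨s ^ 2, by positivity, 2 / (d * (1 - d)), by positivity, fun n W hW hn hWn R => ?_⟩
  set N := W * (2 * n + 2) with hN
  set Φ := phiGap d n W N with hΦ
  have hΦ0 : 0 ≤ Φ := sum_nonneg fun g _ => sum_nonneg fun j _ =>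
    mul_nonneg (bp_nonneg hd0.le hd1.le g j) (psiGap_nonneg hd0.le hd1.le n W j)
  have hnpos : (0 : ℝ) < n := lt_of_lt_of_le (by positivity) hn
  have hPn : (0 : ℝ) < ((2 * n + 2 : ℕ) : ℝ) := by positivity
  have hΦs : Φ ≤ cc * s := by
    refine (phiGap_le hd0 hd1 n W N).trans ?_
    have h1 : (W : ℝ) / ((2 * n + 2 : ℕ) : ℝ) ≤ s ^ 2 := by
      rw [div_le_iff₀ hPn]
      push_cast
      nlinarith
    have h2 : Real.sqrt ((W : ℝ) / ((2 * n + 2 : ℕ) : ℝ)) ≤ s := by
      rw [Real.sqrt_le_left hs0.le]; exact h1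
    have h3 : 1 / Real.sqrt ((n : ℝ) + 1) ≤ s := by
      rw [div_le_iff₀ (Real.sqrt_pos.mpr (by positivity))]
      have h4 : 1 ≤ s ^ 2 * ((n : ℝ) + 1) := by
        rw [div_le_iff₀ (by positivity)] at hn
        nlinarith
      have h5 := Real.sqrt_le_sqrt h4
      rwa [Real.sqrt_one, Real.sqrt_mul (by positivity), Real.sqrt_sq hs0.le] at h5
    have h6 : 9 * (W : ℝ) / (((2 * n + 2 : ℕ) : ℝ) * (1 - d)) ≤ 9 / (1 - d) * s := by
      rw [show 9 * (W : ℝ) / (((2 * n + 2 : ℕ) : ℝ) * (1 - d)) =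
        9 / (1 - d) * ((W : ℝ) / ((2 * n + 2 : ℕ) : ℝ)) by field_simp]
      refine mul_le_mul_of_nonneg_left (h1.trans ?_) (by positivity)
      rw [sq]; exact mul_le_of_le_one_left hs0.le hs1
    have h7 := mul_le_mul_of_nonneg_left (show 1 / Real.sqrt ((n : ℝ) + 1) +
        2 * Real.sqrt ((W : ℝ) / ((2 * n + 2 : ℕ) : ℝ)) ≤ 3 * s by linarith)
      (show 0 ≤ 18 / (Real.sqrt d * (1 - d)) by positivity)
    refine (add_le_add h6 h7).trans (le_of_eq ?_)
    rw [hcc]; ring
  -- coefficients by number of marks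
  let I := (range (W + 1)).sigma fun k => (gbox N k).filter fun D => (∑ l, D l) + k = R
  let wordOf : (Σ k : ℕ, Fin (k + 1) → ℕ) → FreeMonoid Bool := fun p => gw p.1 p.2
  have hinj : Set.InjOn wordOf (I : Set (Σ k : ℕ, Fin (k + 1) → ℕ)) := by
    rintro ⟨k, D⟩ _ ⟨k', D'⟩ _ h
    have hk : k = k' := by
      have := congrArg cnt h
      rwa [gw_cnt, gw_cnt] at this
    subst hk
    rw [gw_inj k D D' h]
  have hsub : supp (homPart R (cW d n W)) ⊆ I.image wordOf := by
    intro w hw
    rw [mem_supp, cf_homPart] at hw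
    split at hw
    · rename_i hlen
      obtain ⟨k, hk, D, hD, rfl, -⟩ := cW_exists hw
      rw [gw_len] at hlen
      exact mem_image.mpr ⟨⟨k, D⟩, mem_sigma.mpr
        ⟨mem_range.mpr (Nat.lt_succ_of_le hk), mem_filter.mpr ⟨hD, hlen⟩⟩, rfl⟩
    · exact absurd rfl hw
  rw [wsq_eq K _ hsub, sum_image hinj, sum_sigma]
  have hk : ∀ k ∈ range (W + 1),
      ∑ D ∈ (gbox N k).filter (fun D => (∑ l, D l) + k = R),
        K ^ cnt (wordOf ⟨k, D⟩) * cf (homPart R (cW d n W)) (wordOf ⟨k, D⟩) ^ 2 ≤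
      (1 / 2) ^ k / (d * (1 - d) * ((N : ℝ) + 1)) := by
    intro k hk
    have e : ∀ D ∈ (gbox N k).filter (fun D => (∑ l, D l) + k = R),
        K ^ cnt (wordOf ⟨k, D⟩) * cf (homPart R (cW d n W)) (wordOf ⟨k, D⟩) ^ 2 =
        (K * (1 - d) ^ 2) ^ k *
          (∑ S ∈ (latU n W).powersetCard k, bpProd d (gapsOf N k S) D) ^ 2 := by
      intro D hD
      rw [mem_filter] at hD
      simp only [wordOf, cf_homPart, gw_cnt, gw_len, hD.2, if_true]
      rw [cf_cW d n W (Nat.le_of_lt_succ (mem_range.mp hk)) hD.1, cwCoef, ← hN, mul_pow, mul_pow,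
        ← pow_mul (1 - d) 2 k, Nat.mul_comm 2 k, pow_mul]
      ring
    rw [sum_congr rfl e, ← mul_sum]
    refine (mul_le_mul_of_nonneg_left (sum_sq_coef_le hd0 hd1 n W k R)
      (pow_nonneg (mul_nonneg hK (sq_nonneg _)) k)).trans ?_
    rw [← hN, ← hΦ]
    have h8 : ((k : ℝ) + 1) ^ 3 ≤ 8 ^ k := by
      have h2 : ((k : ℝ) + 1) ≤ 2 ^ k := by exact_mod_cast Nat.lt_two_pow_self
      calc ((k : ℝ) + 1) ^ 3 ≤ ((2 : ℝ) ^ k) ^ 3 := pow_le_pow_left₀ (by positivity) h2 3
        _ = 8 ^ k := by rw [← pow_mul, mul_comm, pow_mul]; norm_num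
    have hx : 8 * (K * (1 - d) ^ 2) * Φ ≤ 1 / 2 := by
      have hd2 : (1 - d) ^ 2 ≤ 1 := pow_le_one₀ hp.le (by linarith)
      have h9 : K * (1 - d) ^ 2 * Φ ≤ K * (cc * s) :=
        mul_le_mul (mul_le_of_le_one_right hK hd2) hΦs hΦ0 hK
      have h10 : 16 * K * cc * s ≤ 1 := by
        rw [hs, ← mul_div_assoc, div_le_one (by positivity)]
        linarith
      linarith
    have hxk := pow_le_pow_left₀ (by positivity) hx k
    rw [mul_pow, mul_pow] at hxk
    calc (K * (1 - d) ^ 2) ^ k * (((k : ℝ) + 1) ^ 3 / (d * (1 - d) * ((N : ℝ) + 1)) * Φ ^ k)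
        ≤ (K * (1 - d) ^ 2) ^ k * (8 ^ k / (d * (1 - d) * ((N : ℝ) + 1)) * Φ ^ k) := by
          gcongr
      _ = 8 ^ k * (K * (1 - d) ^ 2) ^ k * Φ ^ k / (d * (1 - d) * ((N : ℝ) + 1)) := by ring
      _ ≤ _ := div_le_div_of_nonneg_right hxk (by positivity)
  refine (sum_le_sum hk).trans ?_
  rw [← sum_div, div_div]
  refine (div_le_div_of_nonneg_right (sum_geometric_two_le (W + 1)) (by positivity)).trans ?_
  have hN0 : (0 : ℝ) < (N : ℝ) := by
    have : 0 < N := Nat.mul_pos (by omega) (by omega)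
    exact_mod_cast this
  exact div_le_div_of_nonneg_left (by norm_num) (by positivity)
    (mul_le_mul_of_nonneg_left (by linarith) (by positivity))

end Vale.Agent.P321
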