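import Vale.Agent.P321.Moment

/-!
The moment bound for images of coefficient vectors.
-/

noncomputable section

open Finset

namespace Vale.Agent.P321

variable {σ : Type}

/-- `z` has density with respect to `P` whose `2p`-th moment is at most `A ^ p`. -/
def Mom (z P : Alg σ) (p : ℕ) (A : ℝ) : Prop :=
  ∃ g : FreeMonoid σ → ℝ, (∀ w, cf z w = cf P w * g w) ∧
    ∑ w ∈ supp P, cf P w * g w ^ (2 * p) ≤ A ^ p

theorem Mom.mono {z P : Alg σ} {p : ℕ} {A A' : ℝ} (h : Mom z P p A) (hA : 0 ≤ A) (h' : A ≤ A') :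
    Mom z P p A' := by
  obtain ⟨g, h1, h2⟩ := h
  exact ⟨g, h1, h2.trans (pow_le_pow_left₀ hA h' p)⟩

open scoped Classical in
theorem mom_step {a : Alg σ} (ha : IsProb a) {f : FreeMonoid σ → ℝ} {r : ℝ}
    (hf : ∀ u ∈ supp a, |f u| ≤ r) (h0 : ∑ u ∈ supp a, cf a u * f u = 0) {b : Alg σ}
    (hb : ∀ u, cf b u = cf a u * f u) {p : ℕ} (hp : 1 ≤ p) {P z0 z1 : Alg σ} (hP : Pos P)
    {A0 A1 : ℝ} (hA0 : 0 ≤ A0) (hA1 : 0 ≤ A1) (h0m : Mom z0 P p A0) (h1m : Mom z1 P p A1) :
    Mom (a * z0 + b * z1) (a * P) p (A0 + kap p * r ^ 2 * A1) := by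
  obtain ⟨g0, hg0, hs0⟩ := h0m
  obtain ⟨g1, hg1, hs1⟩ := h1m
  set S := supp a
  set T := supp P
  have hSb : supp b ⊆ S := fun u hu => by
    rw [mem_supp, hb] at hu
    exact mem_supp.mpr (left_ne_zero_of_mul hu)
  have hT : ∀ {z : Alg σ} {g : FreeMonoid σ → ℝ}, (∀ w, cf z w = cf P w * g w) → supp z ⊆ T := by
    intro z g hg w hw
    rw [mem_supp, hg] at hw
    exact mem_supp.mpr (left_ne_zero_of_mul hw)
  let fib : FreeMonoid σ → Finset (FreeMonoid σ × FreeMonoid σ) := fun w =>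
    (S ×ˢ T).filter fun uv => uv.1 * uv.2 = w
  let W : FreeMonoid σ × FreeMonoid σ → ℝ := fun uv => cf a uv.1 * cf P uv.2
  let X : FreeMonoid σ × FreeMonoid σ → ℝ := fun uv => g0 uv.2 + f uv.1 * g1 uv.2
  let num : FreeMonoid σ → ℝ := fun w => ∑ uv ∈ fib w, W uv * X uv
  have hW : ∀ uv, 0 ≤ W uv := fun uv => mul_nonneg (ha.1 _) (hP _)
  have hz : ∀ w, cf (a * z0 + b * z1) w = num w := by
    intro w
    rw [cf_add, cf_mul a z0 (S := S) (T := T) subset_rfl (hT hg0),
      cf_mul b z1 (S := S) (T := T) hSb (hT hg1), ← sum_add_distrib]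
    refine sum_congr rfl fun uv _ => ?_
    rw [hg0, hb, hg1]
    simp only [W, X]; ring
  have hPw : ∀ w, cf (a * P) w = ∑ uv ∈ fib w, W uv := fun w =>
    cf_mul a P subset_rfl subset_rfl w
  refine ⟨fun w => num w / cf (a * P) w, fun w => ?_, ?_⟩
  · rw [hz]
    rcases eq_or_ne (cf (a * P) w) 0 with h | h
    · rw [h, zero_mul]
      rw [hPw] at h
      have hz' := (sum_eq_zero_iff_of_nonneg fun uv _ => hW uv).mp h
      exact sum_eq_zero fun uv huv => by rw [hz' uv huv, zero_mul]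
    · rw [mul_div_cancel₀ _ h]
  have hjen : ∀ w ∈ supp (a * P), cf (a * P) w * (num w / cf (a * P) w) ^ (2 * p) ≤
      ∑ uv ∈ fib w, W uv * X uv ^ (2 * p) := by
    intro w hw
    have hs : 0 < cf (a * P) w := lt_of_le_of_ne ((ha.1.mul hP) w) (Ne.symm (mem_supp.mp hw))
    set s := cf (a * P) w with hsd
    have := Real.pow_arith_mean_le_arith_mean_pow_of_even (fib w) (fun uv => W uv / s) X
      (fun uv _ => div_nonneg (hW uv) hs.le)
      (by rw [← sum_div, ← hPw, div_self hs.ne']) (n := 2 * p) (even_two_mul p)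
    have e1 : ∑ uv ∈ fib w, W uv / s * X uv = num w / s := by
      rw [sum_div]; exact sum_congr rfl fun uv _ => div_mul_eq_mul_div _ _ _
    have e2 : ∑ uv ∈ fib w, W uv / s * X uv ^ (2 * p) =
        (∑ uv ∈ fib w, W uv * X uv ^ (2 * p)) / s := by
      rw [sum_div]; exact sum_congr rfl fun uv _ => div_mul_eq_mul_div _ _ _
    rw [e1, e2, le_div_iff₀ hs] at this
    linarith
  have hXn : ∀ uv, 0 ≤ W uv * X uv ^ (2 * p) := fun uv =>
    mul_nonneg (hW uv) ((even_two_mul p).pow_nonneg _)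
  refine (sum_le_sum hjen).trans ?_
  have hfib : ∑ w ∈ supp (a * P), ∑ uv ∈ fib w, W uv * X uv ^ (2 * p) ≤
      ∑ uv ∈ S ×ˢ T, W uv * X uv ^ (2 * p) := by
    rw [← sum_fiberwise_of_maps_to (s := S ×ˢ T) (t := (S ×ˢ T).image fun uv => uv.1 * uv.2)
      (g := fun uv => uv.1 * uv.2) (fun uv h => mem_image_of_mem _ h)]
    exact sum_le_sum_of_subset_of_nonneg (supp_mul a P) fun w _ _ => sum_nonneg fun uv _ => hXn uv
  refine hfib.trans ?_
  rw [sum_product, sum_comm]
  have ha1 : ∑ u ∈ S, cf a u = 1 := ha.2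
  have hin : ∀ v ∈ T, ∑ u ∈ S, W (u, v) * X (u, v) ^ (2 * p) ≤
      cf P v * (g0 v ^ 2 + kap p * r ^ 2 * g1 v ^ 2) ^ p := by
    intro v _
    have hu : ∀ u ∈ S, W (u, v) * X (u, v) ^ (2 * p) ≤
        cf a u * (cf P v * (g0 v ^ 2 + kap p * r ^ 2 * g1 v ^ 2) ^ p) +
        cf P v * (2 * p * g0 v ^ (2 * p - 1) * g1 v) * (cf a u * f u) := by
      intro u hu
      have h := pow_ineq hp (g0 v) (f u * g1 v)
      have hy : kap p * (f u * g1 v) ^ 2 ≤ kap p * r ^ 2 * g1 v ^ 2 := by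
        rw [mul_pow, ← mul_assoc]
        refine mul_le_mul_of_nonneg_right (mul_le_mul_of_nonneg_left ?_ (kap_pos p).le) (sq_nonneg _)
        rw [← sq_abs]
        exact pow_le_pow_left₀ (abs_nonneg _) (hf u hu) 2
      have hmon : (g0 v ^ 2 + kap p * (f u * g1 v) ^ 2) ^ p ≤
          (g0 v ^ 2 + kap p * r ^ 2 * g1 v ^ 2) ^ p :=
        pow_le_pow_left₀ (add_nonneg (sq_nonneg _) (mul_nonneg (kap_pos p).le (sq_nonneg _)))
          (by linarith) p
      have := mul_le_mul_of_nonneg_left (h.trans (add_le_add hmon le_rfl)) (hW (u, v))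
      simp only [X, W] at this ⊢
      exact this.trans (le_of_eq (by ring))
    refine (sum_le_sum hu).trans (le_of_eq ?_)
    rw [sum_add_distrib, ← sum_mul, ha1, ← mul_sum, h0, one_mul, mul_zero, add_zero]
  refine (sum_le_sum hin).trans ?_
  refine mink T (fun v => cf P v) (fun v => g0 v ^ 2) (fun v => kap p * r ^ 2 * g1 v ^ 2) p
    (fun v _ => hP v) (fun v _ => sq_nonneg _)
    (fun v _ => by have := kap_pos p; positivity) hA0
    (by have := kap_pos p; positivity) hp ?_ ?_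
  · refine le_trans (le_of_eq (sum_congr rfl fun v _ => ?_)) hs0
    rw [pow_mul]
  · rw [mul_pow]
    refine le_trans (le_of_eq ?_) (mul_le_mul_of_nonneg_left hs1
      (by have := kap_pos p; positivity : (0:ℝ) ≤ (kap p * r ^ 2) ^ p))
    rw [mul_sum]
    refine sum_congr rfl fun v _ => ?_
    rw [mul_pow, pow_mul (g1 v)]; ring

theorem moment_bound {a : Alg σ} (ha : IsProb a) {f : FreeMonoid σ → ℝ} {r : ℝ}
    (hf : ∀ u ∈ supp a, |f u| ≤ r) (h0 : ∑ u ∈ supp a, cf a u * f u = 0) {b : Alg σ}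
    (hb : ∀ u, cf b u = cf a u * f u) {p : ℕ} (hp : 1 ≤ p) (N : ℕ) (c : Alg Bool)
    (hc : Homog N c) : Mom (psi a b c) (a ^ N) p (wsq (kap p * r ^ 2) c) := by
  classical
  induction N generalizing c with
  | zero =>
    have hsub : supp c ⊆ {1} := by
      intro w hw
      have := hc w (mem_supp.mp hw)
      rw [mem_singleton]
      exact FreeMonoid.toList.injective (by
        simpa [len] using List.eq_nil_of_length_eq_zero this)
    have hc1 : c = pt 1 (cf c 1) := by
      conv_lhs => rw [← sum_pt c hsub, sum_singleton]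
    have hz : psi a b c = pt 1 (cf c 1) := by
      conv_lhs => rw [hc1, psi_pt, map_one, one_eq_pt]
      exact ext_cf fun w => by rw [cf_smul, cf_pt, cf_pt]; split <;> simp
    have h1 : supp (1 : Alg σ) ⊆ {1} := by
      intro w hw
      rw [mem_supp, one_eq_pt, cf_pt] at hw
      rw [mem_singleton]
      by_contra h
      exact hw (by rw [if_neg (Ne.symm h)])
    refine ⟨fun _ => cf c 1, fun w => ?_, ?_⟩
    · rw [hz, pow_zero, one_eq_pt, cf_pt, cf_pt]; split <;> simp
    · rw [pow_zero, ← sum_mul, ← mass_eq (1 : Alg σ) subset_rfl, IsProb.one.2, one_mul,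
        wsq_eq _ c hsub, sum_singleton, show cnt 1 = 0 by simp [cnt], pow_zero, one_mul, pow_mul]
  | succ N ih =>
    have hd := congrArg (psi a b) (peel_decomp hc)
    rw [map_add, map_mul, map_mul, psi_pt, psi_pt, psiM_of, psiM_of, one_smul, one_smul] at hd
    rw [hd, pow_succ', wsq_peel hc]
    exact mom_step ha hf h0 hb hp (ha.1.pow N)
      (wsq_nonneg (by have := kap_pos p; positivity) _)
      (wsq_nonneg (by have := kap_pos p; positivity) _)
      (ih _ (homog_peel hc false)) (ih _ (homog_peel hc true))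

theorem Mom.nrm_le {z P : Alg σ} {A : ℝ} (hP : IsProb P) (h : Mom z P 1 A) :
    nrm z ≤ Real.sqrt A := by
  classical
  obtain ⟨g, hg, hs⟩ := h
  rw [pow_one] at hs
  have hsub : supp z ⊆ supp P := fun w hw => by
    rw [mem_supp, hg] at hw
    exact mem_supp.mpr (left_ne_zero_of_mul hw)
  rw [nrm_eq z hsub]
  apply Real.le_sqrt_of_sq_le
  refine le_trans (sum_sq_le_sum_mul_sum_of_sq_le_mul (supp P) (fun w _ => hP.1 w)
    (fun w _ => mul_nonneg (hP.1 w) (sq_nonneg (g w))) ?_) ?_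
  · intro w _
    rw [hg, sq_abs]
    exact le_of_eq (by ring)
  · have hm : ∑ w ∈ supp P, cf P w = 1 := hP.2
    rw [hm, one_mul]
    exact le_trans (le_of_eq (sum_congr rfl fun w _ => by norm_num)) hs

theorem Mom.tail {z P : Alg σ} {p : ℕ} {A : ℝ} (hP : Pos P) (hp : 1 ≤ p) (h : Mom z P p A)
    {eps : ℝ} (he : 0 < eps) (S : Finset (FreeMonoid σ)) :
    ∑ w ∈ S, max (|cf z w| - eps * cf P w) 0 ≤ A ^ p / eps ^ (2 * p - 1) := by
  classical
  obtain ⟨g, hg, hs⟩ := h
  obtain ⟨q, rfl⟩ : ∃ q, p = q + 1 := ⟨p - 1, by omega⟩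
  have hev : ∀ t : ℝ, 0 ≤ t ^ (2 * (q + 1)) := fun t => (even_two_mul _).pow_nonneg t
  have hterm : ∀ w, max (|cf z w| - eps * cf P w) 0 ≤
      cf P w * g w ^ (2 * (q + 1)) / eps ^ (2 * (q + 1) - 1) := by
    intro w
    refine max_le ?_ (div_nonneg (mul_nonneg (hP w) (hev _)) (by positivity))
    rw [hg, abs_mul, abs_of_nonneg (hP w), le_div_iff₀ (by positivity)]
    rcases le_or_gt |g w| eps with h' | h'
    · have : cf P w * |g w| - eps * cf P w ≤ 0 := by nlinarith [hP w]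
      exact le_trans (mul_nonpos_of_nonpos_of_nonneg this (by positivity))
        (mul_nonneg (hP w) (hev _))
    · rw [show 2 * (q + 1) - 1 = 2 * q + 1 by omega, ← (even_two_mul (q + 1)).pow_abs (g w)]
      calc (cf P w * |g w| - eps * cf P w) * eps ^ (2 * q + 1)
          ≤ cf P w * |g w| * eps ^ (2 * q + 1) :=
            mul_le_mul_of_nonneg_right (by nlinarith [hP w]) (by positivity)
        _ ≤ cf P w * |g w| * |g w| ^ (2 * q + 1) :=
            mul_le_mul_of_nonneg_left (pow_le_pow_left₀ he.le h'.le _)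
              (mul_nonneg (hP w) (abs_nonneg _))
        _ = cf P w * |g w| ^ (2 * (q + 1)) := by ring
  refine (sum_le_sum fun w _ => hterm w).trans ?_
  rw [← sum_div]
  refine div_le_div_of_nonneg_right (le_trans ?_ hs) (by positivity)
  calc ∑ w ∈ S, cf P w * g w ^ (2 * (q + 1))
      ≤ ∑ w ∈ S ∪ supp P, cf P w * g w ^ (2 * (q + 1)) :=
        sum_le_sum_of_subset_of_nonneg subset_union_left fun w _ _ => mul_nonneg (hP w) (hev _)
    _ = ∑ w ∈ supp P, cf P w * g w ^ (2 * (q + 1)) :=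
        (sum_subset subset_union_right fun w _ hw => by rw [not_mem_supp hw, zero_mul]).symm

end Vale.Agent.P321
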