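import Vale.Agent.P321.Lattice
import Vale.Agent.P321.SlipDefs
import Vale.Agent.P321.Hyper

/-!
The space of tokens: a token is a word, and words of tokens are flattened by concatenation.
-/

noncomputable section

open Finset

namespace Vale.Agent.P321

variable {σ : Type}

/-- Words of tokens. -/
abbrev Tok (σ : Type) : Type := FreeMonoid σ

/-- Concatenation of the tokens. -/
def flatM : FreeMonoid (Tok σ) →* FreeMonoid σ := FreeMonoid.lift id

@[simp] theorem flatM_of (u : Tok σ) : flatM (FreeMonoid.of u) = u := FreeMonoid.lift_eval_of _ _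

/-- Flattening on measures. -/
def flatA : Alg (Tok σ) →ₐ[ℝ] Alg σ :=
  MonoidAlgebra.lift ℝ (Alg σ) (FreeMonoid (Tok σ))
    ((MonoidAlgebra.of ℝ (FreeMonoid σ)).comp flatM)

theorem flatA_pt (w : FreeMonoid (Tok σ)) (r : ℝ) : flatA (pt w r) = pt (flatM w) r := by
  classical
  refine (MonoidAlgebra.lift_single ..).trans ?_
  refine ext_cf fun v => ?_
  rw [cf_smul]
  show r * cf (pt (flatM w) 1) v = cf (pt (flatM w) r) v
  rw [cf_pt, cf_pt]; split <;> simp

theorem nrm_flatA (z : Alg (Tok σ)) : nrm (flatA z) ≤ nrm z := by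
  classical
  conv_lhs => rw [← sum_pt z subset_rfl]
  rw [map_sum]
  refine (nrm_sum _ _).trans (le_of_eq ?_)
  exact sum_congr rfl fun w _ => by rw [flatA_pt, nrm_pt]

open scoped Classical in
/-- A measure on words, seen on single tokens. -/
def liftT (a : Alg σ) : Alg (Tok σ) := ∑ u ∈ supp a, pt (FreeMonoid.of u) (cf a u)

open scoped Classical in
theorem cf_liftT (a : Alg σ) (u : Tok σ) : cf (liftT a) (FreeMonoid.of u) = cf a u := by
  classical
  rw [liftT, cf_sum]
  simp only [cf_pt, FreeMonoid.of_injective.eq_iff]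
  rw [sum_ite_eq']
  split
  · rfl
  · rename_i h; exact (not_mem_supp h).symm

open scoped Classical in
theorem supp_liftT (a : Alg σ) : supp (liftT a) = (supp a).image FreeMonoid.of := by
  classical
  ext w
  rw [mem_image]
  constructor
  · intro hw
    rw [mem_supp, liftT, cf_sum] at hw
    obtain ⟨u, hu, hne⟩ := exists_ne_zero_of_sum_ne_zero hw
    rw [cf_pt] at hne
    split at hne
    · rename_i h; exact ⟨u, hu, h⟩
    · simp at hne
  · rintro ⟨u, hu, rfl⟩
    rw [mem_supp, cf_liftT]
    exact mem_supp.mp hu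

theorem flatA_liftT (a : Alg σ) : flatA (liftT a) = a := by
  classical
  rw [liftT, map_sum]
  simp only [flatA_pt, flatM_of]
  exact sum_pt a subset_rfl

theorem mass_liftT (a : Alg σ) : mass (liftT a) = mass a := by
  classical
  rw [mass, supp_liftT, sum_image fun u _ v _ h => FreeMonoid.of_injective h]
  exact sum_congr rfl fun u _ => cf_liftT a u

theorem pos_liftT {a : Alg σ} (ha : Pos a) : Pos (liftT a) := by
  classical
  intro w
  rw [liftT, cf_sum]
  refine sum_nonneg fun u _ => ?_
  rw [cf_pt]; split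
  · exact ha u
  · rfl

theorem isProb_liftT {a : Alg σ} (ha : IsProb a) : IsProb (liftT a) :=
  ⟨pos_liftT ha.1, by rw [mass_liftT, ha.2]⟩

theorem isTilt_liftT {a : Alg σ} {f : FreeMonoid σ → ℝ} {r : ℝ} (h : IsTilt a f r) :
    IsTilt (liftT a) (fun w => f (flatM w)) r := by
  classical
  refine ⟨fun w => h.1 _, ?_⟩
  rw [supp_liftT, sum_image fun u _ v _ e => FreeMonoid.of_injective e]
  exact (sum_congr rfl fun u _ => by simp [cf_liftT]).trans h.2

theorem flatA_dlt (a : Alg σ) (f : FreeMonoid σ → ℝ) :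
    flatA (dlt (liftT a) (fun w => f (flatM w))) = dlt a f := by
  classical
  rw [dlt, supp_liftT, sum_image fun u _ v _ e => FreeMonoid.of_injective e, map_sum, dlt]
  exact sum_congr rfl fun u _ => by rw [flatA_pt, flatM_of, cf_liftT]

/-! ### Products with a measure on single tokens -/

theorem tok_cons_inj {u u' : σ} {v v' : FreeMonoid σ}
    (h : FreeMonoid.of u * v = FreeMonoid.of u' * v') : u = u' ∧ v = v' := by
  have := congrArg FreeMonoid.toList h
  simp only [FreeMonoid.toList_mul, FreeMonoid.toList_of, List.singleton_append,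
    List.cons.injEq] at this
  exact ⟨this.1, FreeMonoid.toList.injective this.2⟩

open scoped Classical in
theorem cf_tok_mul {x : Alg σ} (hx : ∀ w, cf x w ≠ 0 → ∃ u, w = FreeMonoid.of u) (y : Alg σ)
    (u : σ) (v : FreeMonoid σ) :
    cf (x * y) (FreeMonoid.of u * v) = cf x (FreeMonoid.of u) * cf y v := by
  classical
  rw [cf_mul x y subset_rfl subset_rfl]
  rw [sum_eq_single (FreeMonoid.of u, v)]
  · rintro ⟨w, v'⟩ huv hne
    rw [mem_filter, mem_product] at huv
    obtain ⟨u', rfl⟩ := hx w (mem_supp.mp huv.1.1)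
    obtain ⟨rfl, rfl⟩ := tok_cons_inj huv.2
    exact absurd rfl hne
  · intro h
    rw [mem_filter, mem_product, not_and_or, not_and_or] at h
    rcases h with (h | h) | h
    · rw [not_mem_supp h, zero_mul]
    · rw [not_mem_supp h, mul_zero]
    · exact absurd rfl h

open scoped Classical in
theorem supp_tok_mul {x : Alg σ} (hx : ∀ w, cf x w ≠ 0 → ∃ u, w = FreeMonoid.of u) (y : Alg σ) :
    supp (x * y) = (supp x ×ˢ supp y).image fun uv => uv.1 * uv.2 := by
  classical
  refine Subset.antisymm (supp_mul x y) ?_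
  intro w hw
  rw [mem_image] at hw
  obtain ⟨⟨u', v⟩, huv, rfl⟩ := hw
  rw [mem_product, mem_supp, mem_supp] at huv
  obtain ⟨u, rfl⟩ := hx u' huv.1
  rw [mem_supp, cf_tok_mul hx]
  exact mul_ne_zero huv.1 huv.2

theorem single_of_supp_liftT {a : Alg σ} {w : FreeMonoid (Tok σ)} (h : cf (liftT a) w ≠ 0) :
    ∃ u, w = FreeMonoid.of u := by
  classical
  have := (supp_liftT a).subset (mem_supp.mpr h)
  rw [mem_image] at this
  obtain ⟨u, -, rfl⟩ := this
  exact ⟨u, rfl⟩

/-- Token length. -/
def tlen (w : FreeMonoid σ) : ℕ := w.toList.length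

theorem tlen_tok_pow {x : Alg σ} (hx : ∀ w, cf x w ≠ 0 → ∃ u, w = FreeMonoid.of u) :
    ∀ (R : ℕ) (w : FreeMonoid σ), w ∈ supp (x ^ R) → tlen w = R
  | 0, w, hw => by
    classical
    rw [mem_supp, pow_zero, one_eq_pt, cf_pt] at hw
    split at hw
    · rename_i h; subst h; rfl
    · simp at hw
  | R + 1, w, hw => by
    classical
    rw [pow_succ', supp_tok_mul hx, mem_image] at hw
    obtain ⟨⟨u', v⟩, huv, rfl⟩ := hw
    rw [mem_product, mem_supp] at huv
    obtain ⟨u, rfl⟩ := hx u' huv.1
    have := tlen_tok_pow hx R v huv.2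
    simp [tlen, FreeMonoid.toList_mul, FreeMonoid.toList_of] at this ⊢
    exact this

/-- The inner product of two images with weight `1 / P`. -/
def ipw (P z z' : Alg σ) : ℝ := ∑ w ∈ supp P, cf z w * cf z' w / cf P w

open scoped Classical in
/-- Lower bound for the inner product of images of nonnegative homogeneous vectors. -/
theorem ip_lower {a : Alg σ} (hta : ∀ w, cf a w ≠ 0 → ∃ u, w = FreeMonoid.of u) (ha : IsProb a)
    {f : FreeMonoid σ → ℝ} {r : ℝ} (hf : IsTilt a f r) : ∀ (R : ℕ) (c c' : Alg Bool),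
    Homog R c → Homog R c' → Pos c → Pos c' →
    cf c (FreeMonoid.of false ^ R) * cf c' (FreeMonoid.of false ^ R) ≤
      ipw (a ^ R) (psi a (dlt a f) c) (psi a (dlt a f) c')
  | 0, c, c', hc, hc', _, _ => by
    classical
    have hz : ∀ c : Alg Bool, Homog 0 c → psi a (dlt a f) c = pt 1 (cf c 1) := by
      intro c hc
      have hsub : supp c ⊆ {1} := by
        intro w hw
        rw [mem_singleton]
        exact FreeMonoid.toList.injective (by
          simpa [len] using List.eq_nil_of_length_eq_zero (hc w (mem_supp.mp hw)))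
      conv_lhs => rw [← sum_pt c hsub, sum_singleton, psi_pt, map_one, one_eq_pt]
      exact ext_cf fun w => by rw [cf_smul, cf_pt, cf_pt]; split <;> simp
    have hs : supp (1 : Alg σ) = {1} := by
      ext w
      rw [mem_supp, one_eq_pt, cf_pt, mem_singleton]
      by_cases h : (1 : FreeMonoid σ) = w
      · subst h; simp
      · rw [if_neg h]; simpa using fun e => h e.symm
    rw [ipw, pow_zero, pow_zero, hs, sum_singleton, hz c hc, hz c' hc', one_eq_pt, cf_pt, cf_pt,
      cf_pt, if_pos rfl, if_pos rfl, if_pos rfl, div_one]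
  | R + 1, c, c', hc, hc', hp, hp' => by
    classical
    have hpp : ∀ {c : Alg Bool}, Pos c → ∀ b, Pos (peel b c) := fun h b w => by
      rw [cf_peel]; exact h _
    have i0 := ip_lower hta ha hf R (peel false c) (peel false c') (homog_peel hc false)
      (homog_peel hc' false) (hpp hp false) (hpp hp' false)
    have i1 := ip_lower hta ha hf R (peel true c) (peel true c') (homog_peel hc true)
      (homog_peel hc' true) (hpp hp true) (hpp hp' true)
    set P := a ^ R with hP
    set z0 := psi a (dlt a f) (peel false c)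
    set z1 := psi a (dlt a f) (peel true c)
    set z0' := psi a (dlt a f) (peel false c')
    set z1' := psi a (dlt a f) (peel true c')
    have hd : ∀ {c : Alg Bool}, Homog (R + 1) c → psi a (dlt a f) c =
        a * psi a (dlt a f) (peel false c) + dlt a f * psi a (dlt a f) (peel true c) := by
      intro c hc
      have hd := congrArg (psi a (dlt a f)) (peel_decomp hc)
      rw [map_add, map_mul, map_mul, psi_pt, psi_pt, psiM_of, psiM_of, one_smul, one_smul] at hd
      simpa using hd
    have htd : ∀ w, cf (dlt a f) w ≠ 0 → ∃ u, w = FreeMonoid.of u := fun w hw =>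
      hta w (by rw [cf_dlt] at hw; exact left_ne_zero_of_mul hw)
    rw [ipw, hd hc, hd hc', pow_succ' a, ← hP, pow_succ', supp_tok_mul hta, sum_image]
    · rw [sum_product]
      have hterm : ∀ w ∈ supp a, ∀ v ∈ supp P,
          cf (a * z0 + dlt a f * z1) (w * v) * cf (a * z0' + dlt a f * z1') (w * v) /
              cf (a * P) (w * v) =
            cf a w * (cf z0 v * cf z0' v / cf P v) +
              cf a w * f w * ((cf z0 v * cf z1' v + cf z1 v * cf z0' v) / cf P v) +
              cf a w * f w ^ 2 * (cf z1 v * cf z1' v / cf P v) := by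
        intro w hw v hv
        obtain ⟨u, rfl⟩ := hta w (mem_supp.mp hw)
        have h1 := mem_supp.mp hw
        have h2 := mem_supp.mp hv
        rw [cf_add, cf_add, cf_tok_mul hta, cf_tok_mul htd, cf_tok_mul hta, cf_tok_mul htd,
          cf_tok_mul hta, cf_dlt]
        field_simp
        ring
      rw [sum_congr rfl fun w hw => sum_congr rfl fun v hv => hterm w hw v hv]
      simp only [sum_add_distrib, ← mul_sum, ← sum_mul]
      rw [show ∑ w ∈ supp a, cf a w = 1 from ha.2, hf.2, one_mul, zero_mul, add_zero]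
      have hsq : 0 ≤ ∑ w ∈ supp a, cf a w * f w ^ 2 :=
        sum_nonneg fun w _ => mul_nonneg (ha.1 w) (sq_nonneg _)
      rw [cf_peel, cf_peel] at i0 i1
      have h11 : 0 ≤ ipw P z1 z1' := le_trans (mul_nonneg (hp _) (hp' _)) i1
      exact le_trans i0 (le_add_of_nonneg_right (mul_nonneg hsq h11))
    · rintro ⟨w, v⟩ hwv ⟨w', v'⟩ hwv' e
      simp only [coe_product, Set.mem_prod, mem_coe, mem_supp] at hwv hwv'
      obtain ⟨u, rfl⟩ := hta w hwv.1
      obtain ⟨u', rfl⟩ := hta w' hwv'.1
      obtain ⟨rfl, rfl⟩ := tok_cons_inj e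
      rfl

theorem sum_homPart {N : ℕ} {c : Alg Bool} (hc : ∀ w, cf c w ≠ 0 → len w ≤ N) :
    ∑ R ∈ range (N + 1), homPart R c = c := by
  classical
  refine ext_cf fun w => ?_
  rw [cf_sum]
  simp only [cf_homPart]
  rw [sum_ite_eq]
  split
  · rfl
  · rename_i h
    by_contra hne
    exact h (mem_range.mpr (Nat.lt_succ_of_le (hc w (Ne.symm hne))))

open scoped Classical in
/-- On words of `R` tokens only the component of degree `R` is seen. -/
theorem cf_psi_component {a : Alg σ} (hta : ∀ w, cf a w ≠ 0 → ∃ u, w = FreeMonoid.of u)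
    (ha : IsProb a) {f : FreeMonoid σ → ℝ} {r : ℝ} (hf : IsTilt a f r) {N : ℕ} {c : Alg Bool}
    (hc : ∀ w, cf c w ≠ 0 → len w ≤ N) {R : ℕ} {w : FreeMonoid σ} (hw : w ∈ supp (a ^ R)) :
    cf (psi a (dlt a f) c) w = cf (psi a (dlt a f) (homPart R c)) w := by
  classical
  have hzero : ∀ R', tlen w ≠ R' → cf (psi a (dlt a f) (homPart R' c)) w = 0 := by
    intro R' hne
    obtain ⟨g, hg, -⟩ := moment_bound ha (fun u _ => hf.1 u) hf.2 (cf_dlt a f) (p := 1) le_rfl R'
      (homPart R' c) (homog_homPart R' c)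
    rw [hg]
    by_cases h : w ∈ supp (a ^ R')
    · exact absurd (tlen_tok_pow hta R' w h) hne
    · rw [not_mem_supp h, zero_mul]
  have hlen := tlen_tok_pow hta R w hw
  conv_lhs => rw [← sum_homPart hc, map_sum, cf_sum]
  rw [sum_eq_single R]
  · intro R' _ hne
    exact hzero R' (by omega)
  · intro h
    have : homPart R c = 0 := by
      refine ext_cf fun v => ?_
      rw [cf_homPart, cf_zero]
      split
      · rename_i hv
        by_contra hne
        exact h (mem_range.mpr (Nat.lt_succ_of_le (hv ▸ hc v hne)))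
      · rfl
    rw [this, map_zero, cf_zero]

end Vale.Agent.P321
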