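import Vale.Agent.P321.Base
import Vale.Agent.P321.SlipToken
import Vale.Agent.P321.SlipCoef

/-!
Smoothness of the powers of the base string.
-/

noncomputable section

open Finset

namespace Vale.Agent.P321

/-- The window around the mean of a binomial law. -/
def win (d : ℝ) (N : ℕ) : Finset ℕ :=
  (range (N + 1)).filter fun R => |(R : ℝ) - (1 - d) * N| ≤ 2 * Real.sqrt N

theorem card_win (d : ℝ) {N : ℕ} (hN : 1 ≤ N) : ((win d N).card : ℝ) ≤ 5 * Real.sqrt N := by
  have hs : (1 : ℝ) ≤ Real.sqrt N := by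
    rw [Real.one_le_sqrt]; exact_mod_cast hN
  set lo := (1 - d) * (N : ℝ) - 2 * Real.sqrt N with hlo
  have hsub : win d N ⊆ Finset.Icc ⌈lo⌉₊ (⌈lo⌉₊ + ⌊4 * Real.sqrt N⌋₊) := by
    intro R hR
    rw [win, mem_filter, abs_le] at hR
    rw [Finset.mem_Icc]
    have h1 : ⌈lo⌉₊ ≤ R := Nat.ceil_le.mpr (by linarith [hR.2.1])
    refine ⟨h1, ?_⟩
    have h2 : ((R - ⌈lo⌉₊ : ℕ) : ℝ) ≤ 4 * Real.sqrt N := by
      rw [Nat.cast_sub h1]
      have := Nat.le_ceil lo
      linarith [hR.2.2]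
    have := Nat.le_floor h2
    omega
  have hc := card_le_card hsub
  rw [Nat.card_Icc] at hc
  have hf := Nat.floor_le (show 0 ≤ 4 * Real.sqrt (N : ℝ) by positivity)
  have : ((win d N).card : ℝ) ≤ (⌊4 * Real.sqrt N⌋₊ : ℝ) + 1 := by
    exact_mod_cast (show (win d N).card ≤ ⌊4 * Real.sqrt N⌋₊ + 1 by omega)
  linarith

theorem bp_window_mass {d : ℝ} (h0 : 0 < d) (h1 : d < 1) {N : ℕ} (hN : 1 ≤ N) :
    3 / 4 ≤ ∑ R ∈ win d N, bp d N R := by
  obtain ⟨c, rfl⟩ : ∃ c, N = c + 1 := ⟨N - 1, by omega⟩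
  have hb : ∀ R, 0 ≤ bp d (c + 1) R := fun R => bp_nonneg h0.le h1.le _ _
  set mu : ℝ := ((c : ℝ) + 1) * (1 - d) with hmu
  have hv : ∑ j ∈ range (c + 1 + 1), bp d (c + 1) j * ((j : ℝ) - mu) ^ 2 =
      ((c : ℝ) + 1) * d * (1 - d) := by
    have : ∀ j : ℕ, bp d (c + 1) j * ((j : ℝ) - mu) ^ 2 =
        (j : ℝ) * ((j : ℝ) - 1) * bp d (c + 1) j +
          (1 - 2 * mu) * ((j : ℝ) * bp d (c + 1) j) + mu ^ 2 * bp d (c + 1) j := fun j => by ring
    rw [sum_congr rfl (fun j _ => this j), sum_add_distrib, sum_add_distrib, ← mul_sum, ← mul_sum,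
      sum_fac_bp d c _ (by omega), sum_mul_bp d c _ (by omega), sum_bp (c + 1) (by omega), hmu]
    ring
  set I := win d (c + 1) with hI
  have hsub : I ⊆ range (c + 1 + 1) := filter_subset _ _
  have htot := sum_sdiff (f := fun j => bp d (c + 1) j) hsub
  rw [sum_bp (c + 1) (by omega)] at htot
  have hout : ∑ j ∈ range (c + 1 + 1) \ I, bp d (c + 1) j ≤
      (((c : ℝ) + 1) * d * (1 - d)) / (4 * ((c : ℝ) + 1)) := by
    rw [← hv, sum_div]
    refine le_trans (sum_le_sum fun j hj => ?_)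
      (sum_le_sum_of_subset_of_nonneg sdiff_subset fun j _ _ =>
        div_nonneg (mul_nonneg (hb j) (sq_nonneg _)) (by positivity))
    rw [mem_sdiff, hI, win, mem_filter, not_and, not_le] at hj
    have hj' := hj.2 hj.1
    push_cast at hj'
    rw [mul_comm (1 - d), ← hmu] at hj'
    have hsq : 4 * ((c : ℝ) + 1) ≤ ((j : ℝ) - mu) ^ 2 := by
      rw [← sq_abs]
      have := pow_le_pow_left₀ (by positivity) hj'.le 2
      rw [mul_pow, Real.sq_sqrt (by positivity)] at this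
      linarith
    rw [le_div_iff₀ (by positivity)]
    exact mul_le_mul_of_nonneg_left hsq (hb j)
  have : ((c : ℝ) + 1) * d * (1 - d) / (4 * ((c : ℝ) + 1)) ≤ 1 / 4 := by
    rw [div_le_div_iff₀ (by positivity) (by norm_num)]
    have : d * (1 - d) ≤ 1 := by nlinarith
    nlinarith [show (0 : ℝ) ≤ (c : ℝ) + 1 by positivity]
  linarith

/-- One period later the binomial law is still comparable on the window. -/
theorem bp_shift_lower {d : ℝ} (h0 : 0 < d) (h1 : d < 1) {N P : ℕ} (hN : 1 ≤ N) {R : ℕ}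
    (hR : R ∈ win d N) :
    Real.exp (-((2 * Real.sqrt N + P) * P / (d * N))) * bp d N R ≤ bp d (N + P) R := by
  rw [win, mem_filter, mem_range, abs_le] at hR
  set s := 2 * Real.sqrt (N : ℝ) + P with hs
  have hs0 : 0 ≤ s := by positivity
  have hNr : (1 : ℝ) ≤ N := by exact_mod_cast hN
  have hb : ∀ c, 0 ≤ bp d c R := fun c => bp_nonneg h0.le h1.le _ _
  have key : ∀ i, i ≤ P → Real.exp (-(s * i / (d * N))) * bp d N R ≤ bp d (N + i) R := by
    intro i
    induction i with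
    | zero => simp
    | succ i ih =>
      intro hi
      have ih := ih (by omega)
      have hst := bp_th d (N + i) R
      rw [Nat.add_assoc] at hst
      push_cast at hst
      have hiP : (i : ℝ) + 1 ≤ P := by exact_mod_cast hi
      have hR1 : (R : ℝ) ≤ N := by exact_mod_cast (show R ≤ N by omega)
      have hgap : (N : ℝ) + i + 1 - R ≤ d * N + s := by
        rw [hs]; linarith [hR.2.1]
      have hgap0 : 0 < (N : ℝ) + i + 1 - R := by
        linarith [(Nat.cast_nonneg i : (0 : ℝ) ≤ i)]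
      have hstep : Real.exp (-(s / (d * N))) * bp d (N + i) R ≤ bp d (N + (i + 1)) R := by
        have he : Real.exp (-(s / (d * N))) ≤ (d * N) / (d * N + s) := by
          rw [Real.exp_neg, ← inv_div (d * (N : ℝ) + s) (d * N)]
          refine inv_anti₀ (show (0 : ℝ) < (d * N + s) / (d * N) by positivity) ?_
          have := Real.add_one_le_exp (s / (d * N))
          refine le_trans (le_of_eq ?_) this
          field_simp
          ring
        refine (mul_le_mul_of_nonneg_right he (hb _)).trans ?_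
        rw [div_mul_eq_mul_div, div_le_iff₀ (by positivity)]
        have hle : d * N * bp d (N + i) R ≤ ((N : ℝ) + i + 1) * (d * bp d (N + i) R) := by
          rw [show ((N : ℝ) + i + 1) * (d * bp d (N + i) R) =
            d * bp d (N + i) R * ((N : ℝ) + i + 1) by ring, mul_right_comm]
          exact mul_le_mul_of_nonneg_left (by linarith [(Nat.cast_nonneg i : (0 : ℝ) ≤ i)])
            (mul_nonneg h0.le (hb _))
        refine (hle.trans (le_of_eq hst)).trans ?_
        rw [mul_comm (bp d (N + (i + 1)) R)]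
        exact mul_le_mul_of_nonneg_right hgap (hb _)
      refine le_trans (le_of_eq ?_) (le_trans
        (mul_le_mul_of_nonneg_left ih (Real.exp_nonneg (-(s / (d * N))))) hstep)
      rw [← mul_assoc, ← Real.exp_add]
      congr 2
      push_cast
      ring
  have := key P le_rfl
  exact this

theorem cube_tail {σ : Type} {z : Alg σ} {T : Alg σ} {A : ℝ} (hT : IsProb T)
    (hA : 0 < A) (hm : Mom z T 2 A) :
    ∑ w ∈ supp T, cf z w ^ 3 / cf T w ^ 2 ≤ A * Real.sqrt A := by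
  obtain ⟨g, hg, hs⟩ := hm
  set s := Real.sqrt A with hsd
  have hs0 : 0 < s := Real.sqrt_pos.mpr hA
  have hss : s * s = A := Real.mul_self_sqrt hA.le
  have hterm : ∀ w ∈ supp T, cf z w ^ 3 / cf T w ^ 2 ≤
      cf T w * (s ^ 3 / 4) + cf T w * g w ^ (2 * 2) * (3 / (4 * s)) := by
    intro w hw
    have hne := mem_supp.mp hw
    have h4 : g w ^ 3 ≤ s ^ 3 / 4 + g w ^ (2 * 2) * (3 / (4 * s)) := by
      rw [show s ^ 3 / 4 + g w ^ (2 * 2) * (3 / (4 * s)) =
        (s ^ 4 + 3 * g w ^ 4) / (4 * s) by field_simp; ring, le_div_iff₀ (by positivity)]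
      nlinarith [mul_nonneg (sq_nonneg (s - g w))
        (show 0 ≤ 3 * g w ^ 2 + 2 * g w * s + s ^ 2 by
          nlinarith [sq_nonneg (g w + s), sq_nonneg (g w)])]
    rw [hg, show (cf T w * g w) ^ 3 / cf T w ^ 2 = cf T w * g w ^ 3 by field_simp]
    refine (mul_le_mul_of_nonneg_left h4 (hT.1 w)).trans (le_of_eq ?_)
    ring
  refine (sum_le_sum hterm).trans ?_
  rw [sum_add_distrib, ← sum_mul, ← sum_mul, show ∑ w ∈ supp T, cf T w = 1 from hT.2, one_mul]
  refine (add_le_add le_rfl (mul_le_mul_of_nonneg_right hs (by positivity))).trans (le_of_eq ?_)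
  rw [← hss]
  field_simp
  ring

open scoped Classical in
/-- The overlap of the images of two coefficient vectors. -/
theorem overlap_lower {σ : Type} {a : Alg σ} (hta : ∀ w, cf a w ≠ 0 → ∃ u, w = FreeMonoid.of u)
    (ha : IsProb a) {f : FreeMonoid σ → ℝ} {r : ℝ} (hf : IsTilt a f r) {c c' : Alg Bool}
    (hc : Pos c) (hc' : Pos c') {N N' : ℕ} (hN : ∀ w, cf c w ≠ 0 → len w ≤ N)
    (hN' : ∀ w, cf c' w ≠ 0 → len w ≤ N') (hQ : IsProb (psi a (dlt a f) c))
    (hQ' : IsProb (psi a (dlt a f) c')) (I : Finset ℕ) {A : ℝ} (hA : 0 < A)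
    (hw : ∀ R ∈ I, wsq (kap 2 * r ^ 2) (homPart R c) ≤ A)
    (hw' : ∀ R ∈ I, wsq (kap 2 * r ^ 2) (homPart R c') ≤ A) :
    (∑ R ∈ I, cf c (FreeMonoid.of false ^ R) * cf c' (FreeMonoid.of false ^ R)) ^ 2 ≤
      (1 - nrm (psi a (dlt a f) c - psi a (dlt a f) c') / 2) *
        ((I.card : ℝ) * (2 * (A * Real.sqrt A))) := by
  set Q := psi a (dlt a f) c with hQd
  set Q' := psi a (dlt a f) c' with hQd'
  set S := I.biUnion fun R => supp (a ^ R) with hS
  have hdisj : (I : Set ℕ).PairwiseDisjoint fun R => supp (a ^ R) := by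
    intro R _ R' _ hne
    rw [Function.onFun, disjoint_left]
    intro w h h'
    exact hne ((tlen_tok_pow hta R w h).symm.trans (tlen_tok_pow hta R' w h'))
  let T : FreeMonoid σ → ℝ := fun w => cf (a ^ tlen w) w
  have hTeq : ∀ R, ∀ w ∈ supp (a ^ R), T w = cf (a ^ R) w := fun R w hw => by
    simp only [T, tlen_tok_pow hta R w hw]
  have hk : 0 ≤ kap 2 * r ^ 2 := mul_nonneg (kap_pos 2).le (sq_nonneg r)
  have hmom : ∀ c : Alg Bool, ∀ R, wsq (kap 2 * r ^ 2) (homPart R c) ≤ A →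
      Mom (psi a (dlt a f) (homPart R c)) (a ^ R) 2 A := fun c R h =>
    (moment_bound ha (fun u _ => hf.1 u) hf.2 (cf_dlt a f) (by norm_num) R _
      (homog_homPart R c)).mono (wsq_nonneg hk _) h
  have hcomp : ∀ R, ∀ w ∈ supp (a ^ R), cf Q w = cf (psi a (dlt a f) (homPart R c)) w :=
    fun R w hw => cf_psi_component hta ha hf hN hw
  have hcomp' : ∀ R, ∀ w ∈ supp (a ^ R), cf Q' w = cf (psi a (dlt a f) (homPart R c')) w :=
    fun R w hw => cf_psi_component hta ha hf hN' hw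
  have hpp : ∀ {c : Alg Bool}, Pos c → ∀ R, Pos (homPart R c) := fun h R w => by
    rw [cf_homPart]; split
    · exact h w
    · rfl
  have hlow : ∑ R ∈ I, cf c (FreeMonoid.of false ^ R) * cf c' (FreeMonoid.of false ^ R) ≤
      ∑ w ∈ S, min (cf Q w) (cf Q' w) * (max (cf Q w) (cf Q' w) / T w) := by
    rw [hS, sum_biUnion hdisj]
    refine sum_le_sum fun R _ => ?_
    have h := ip_lower hta ha hf R _ _ (homog_homPart R c) (homog_homPart R c') (hpp hc R)
      (hpp hc' R)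
    rw [cf_homPart, cf_homPart, if_pos (by simp [len, toList_rep]),
      if_pos (by simp [len, toList_rep])] at h
    refine h.trans (le_of_eq (sum_congr rfl fun w hw => ?_))
    rw [hTeq R w hw, ← hcomp R w hw, ← hcomp' R w hw, ← mul_div_assoc, min_mul_max]
  have hnn : 0 ≤ ∑ R ∈ I, cf c (FreeMonoid.of false ^ R) * cf c' (FreeMonoid.of false ^ R) :=
    sum_nonneg fun R _ => mul_nonneg (hc _) (hc' _)
  have hTpos : ∀ w ∈ S, 0 < T w := by
    intro w hw
    obtain ⟨R, -, hw⟩ := mem_biUnion.mp hw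
    rw [hTeq R w hw]
    exact lt_of_le_of_ne ((ha.1.pow R) w) (Ne.symm (mem_supp.mp hw))
  have hmin0 : ∀ w, 0 ≤ min (cf Q w) (cf Q' w) := fun w => le_min (hQ.1 w) (hQ'.1 w)
  have hmax0 : ∀ w, 0 ≤ max (cf Q w) (cf Q' w) := fun w => le_trans (hQ.1 w) (le_max_left _ _)
  refine (pow_le_pow_left₀ hnn hlow 2).trans ?_
  refine (sum_sq_le_sum_mul_sum_of_sq_le_mul S (fun w _ => hmin0 w)
    (g := fun w => (cf Q w ^ 3 + cf Q' w ^ 3) / T w ^ 2) ?_ ?_).trans ?_
  · intro w hw
    exact div_nonneg (add_nonneg (pow_nonneg (hQ.1 w) 3) (pow_nonneg (hQ'.1 w) 3)) (sq_nonneg _)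
  · intro w hw
    rw [mul_pow, div_pow, sq (min _ _), mul_assoc, ← mul_div_assoc]
    refine mul_le_mul_of_nonneg_left (div_le_div_of_nonneg_right ?_ (sq_nonneg _)) (hmin0 w)
    have h3 : max (cf Q w) (cf Q' w) ^ 3 ≤ cf Q w ^ 3 + cf Q' w ^ 3 := by
      rcases max_choice (cf Q w) (cf Q' w) with h | h <;> rw [h]
      · linarith [pow_nonneg (hQ'.1 w) 3]
      · linarith [pow_nonneg (hQ.1 w) 3]
    refine le_trans ?_ h3
    rw [pow_succ' _ 2]
    exact mul_le_mul_of_nonneg_right min_le_max (sq_nonneg _)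
  have hm : ∑ w ∈ S, min (cf Q w) (cf Q' w) ≤ 1 - nrm (Q - Q') / 2 := by
    rw [← mass_amin hQ hQ']
    have hpos : Pos (amin Q Q') := fun w => by rw [cf_amin hQ'.1]; exact hmin0 w
    rw [mass_eq (amin Q Q') (subset_union_right (s₁ := S))]
    refine le_trans (le_of_eq (sum_congr rfl fun w _ => (cf_amin hQ'.1 w).symm))
      (sum_le_sum_of_subset_of_nonneg subset_union_left fun w _ _ => hpos w)
  have hcube : ∑ w ∈ S, (cf Q w ^ 3 + cf Q' w ^ 3) / T w ^ 2 ≤
      (I.card : ℝ) * (2 * (A * Real.sqrt A)) := by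
    rw [hS, sum_biUnion hdisj, ← nsmul_eq_mul, ← sum_const]
    refine sum_le_sum fun R hR => ?_
    have e : ∀ w ∈ supp (a ^ R), (cf Q w ^ 3 + cf Q' w ^ 3) / T w ^ 2 =
        cf (psi a (dlt a f) (homPart R c)) w ^ 3 / cf (a ^ R) w ^ 2 +
          cf (psi a (dlt a f) (homPart R c')) w ^ 3 / cf (a ^ R) w ^ 2 := fun w hw => by
      rw [hTeq R w hw, hcomp R w hw, hcomp' R w hw, add_div]
    rw [sum_congr rfl e, sum_add_distrib, two_mul]
    exact add_le_add
      (cube_tail (ha.pow R) hA (hmom c R (hw R hR)))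
      (cube_tail (ha.pow R) hA (hmom c' R (hw' R hR)))
  exact mul_le_mul hm hcube (sum_nonneg fun w _ => div_nonneg
    (add_nonneg (pow_nonneg (hQ.1 w) 3) (pow_nonneg (hQ'.1 w) 3)) (sq_nonneg _))
    (le_trans (sum_nonneg fun w _ => hmin0 w) hm)

theorem map_wd {σ σ' : Type} (φ : Alg σ →ₐ[ℝ] Alg σ') (a b : Alg σ) (U : Finset ℕ) :
    ∀ N, φ (wd a b U N) = wd (φ a) (φ b) U N
  | 0 => map_one φ
  | N + 1 => by
    rw [wd_succ, map_mul, map_wd φ a b U N, wd_succ]
    split <;> rfl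

/-- The marks of `W` periods give the `W`-th power of one period. -/
theorem wd_latU {σ : Type} (a b : Alg σ) (n : ℕ) :
    ∀ W, wd a b (latU n W) (W * (2 * n + 2)) = (a ^ n * b * a ^ (n + 1)) ^ W
  | 0 => by simp
  | W + 1 => by
    classical
    have hlast : wd a b ({n} : Finset ℕ) (2 * n + 2) = a ^ n * b * a ^ (n + 1) := by
      have h := wd_pad a b ({0} : Finset ℕ) n 1 (n + 1) (by simp)
      rw [wd_succ, wd_zero, if_pos (mem_singleton_self 0), one_mul, image_singleton,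
        Nat.add_zero, show n + 1 + (n + 1) = 2 * n + 2 by omega] at h
      exact h
    rw [add_mul, one_mul, wd_add a b (W * (2 * n + 2)) (U := latU n W) (V := {n}), wd_latU a b n W,
      hlast, ← pow_succ]
    · intro i hi
      simp only [latU, mem_image, mem_range]
      constructor
      · rintro ⟨j, hj, e⟩
        refine ⟨j, ?_, e⟩
        by_contra hh
        have : W * (2 * n + 2) ≤ j * (2 * n + 2) := Nat.mul_le_mul_right _ (not_lt.mp hh)
        omega
      · rintro ⟨j, hj, e⟩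
        exact ⟨j, by omega, e⟩
    · intro i hi
      simp only [latU, mem_image, mem_range, mem_singleton]
      constructor
      · rintro ⟨j, hj, e⟩
        rcases Nat.lt_or_ge j W with h | h
        · have h2 : (j + 1) * (2 * n + 2) ≤ W * (2 * n + 2) := Nat.mul_le_mul_right _ h
          rw [add_mul, one_mul] at h2
          omega
        · obtain rfl : j = W := by omega
          omega
      · intro e
        exact ⟨W, by omega, by omega⟩

/-- The base string in the space of tokens. -/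
theorem token_setup {q : ℝ} (hq0 : 0 < q) (hq1 : q < 1) {d : ℝ} (hd : d = q ^ 2 / 2) (hd0 : 0 < d)
    (hd1 : d < 1) :
    ∃ (a : Alg (Tok Bool)) (g : FreeMonoid (Tok Bool) → ℝ) (r : ℝ),
      (∀ w, cf a w ≠ 0 → ∃ u, w = FreeMonoid.of u) ∧ IsProb a ∧ IsTilt a g r ∧
      ∀ n V, IsProb (psi a (dlt a g) (cW d n V)) ∧
        flatA (psi a (dlt a g) (cW d n V)) = tr q (baseA n) ^ V := by
  classical
  set a0 := tr q [false, true] with ha0
  set b0 := tr q [false] with hb0
  have hp' : 0 < 1 - d := by linarith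
  set t : Alg Bool := (1 - d)⁻¹ • (a0 - d • 1) with ht
  set tb : Alg Bool := (1 - d)⁻¹ • (b0 - d • 1) with htb
  have ea : d • 1 + (1 - d) • t = a0 := by
    rw [ht, smul_inv_smul₀ hp'.ne']; abel
  have eb : d • 1 + (1 - d) • tb = b0 := by
    rw [htb, smul_inv_smul₀ hp'.ne']; abel
  have hq := cf_trFT q
  have hshift : ∀ (x : Alg Bool) w, cf ((1 - d)⁻¹ • (x - d • 1)) w =
      (1 - d)⁻¹ * (cf x w - if w = 1 then d else 0) := by
    intro x w
    rw [cf_smul, cf_sub, cf_smul, one_eq_pt, cf_pt]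
    by_cases h : w = 1 <;> simp [h, eq_comm]
  have hprob : ∀ (x : Alg Bool), IsProb x → d ≤ cf x 1 →
      IsProb ((1 - d)⁻¹ • (x - d • 1)) := by
    intro x hx hle
    refine ⟨fun w => ?_, ?_⟩
    · rw [hshift]
      refine mul_nonneg (by positivity) ?_
      split
      · rename_i h; subst h; linarith
      · linarith [hx.1 w]
    · rw [mass_smul, show x - d • (1 : Alg Bool) = x + (-d) • 1 by rw [neg_smul]; abel, mass_add,
        mass_smul, hx.2, IsProb.one.2, mul_one, ← sub_eq_add_neg, inv_mul_cancel₀ hp'.ne']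
  have e1 : cf a0 1 = q * q := hq.1
  have e2 : cf a0 (FreeMonoid.of false) = q * (1 - q) := hq.2
  have htP : IsProb t := hprob a0 (isProb_tr hq0.le hq1.le _) (by rw [e1, hd]; nlinarith)
  have htbP : IsProb tb := hprob b0 (isProb_tr hq0.le hq1.le _) (by
    rw [hb0, cf_trF, if_pos rfl, if_neg word_ne_aux.2.1, hd]; nlinarith)
  have hab : ∀ w, cf t w = 0 → cf tb w = 0 := by
    intro w hw
    rw [ht, hshift] at hw
    have hw1 : w ≠ 1 := fun h => by
      subst h
      rw [if_pos rfl, e1, mul_eq_zero, hd] at hw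
      rcases hw with h | h
      · exact absurd h (inv_ne_zero (hd ▸ hp'.ne'))
      · nlinarith
    have hw2 : w ≠ FreeMonoid.of false := fun h => by
      subst h
      rw [if_neg word_ne_aux.2.1.symm, e2, sub_zero, mul_eq_zero] at hw
      rcases hw with h | h
      · exact absurd h (inv_ne_zero hp'.ne')
      · nlinarith
    rw [htb, hshift, if_neg hw1, hb0, cf_trF, if_neg hw1, if_neg hw2]
    ring
  set f : FreeMonoid Bool → ℝ := fun w => (cf tb w - cf t w) / cf t w with hf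
  have hmul : ∀ w, cf t w * f w = cf tb w - cf t w := by
    intro w
    rcases eq_or_ne (cf t w) 0 with h | h
    · rw [h, hab w h]; simp
    · rw [hf]; field_simp
  set r : ℝ := ∑ u ∈ supp t, |f u| with hr
  have htilt : IsTilt t f r := by
    refine ⟨fun u => ?_, ?_⟩
    · by_cases hu : u ∈ supp t
      · exact single_le_sum (f := fun u => |f u|) (fun _ _ => abs_nonneg _) hu
      · rw [hf]
        simp only [not_mem_supp hu, div_zero, abs_zero]
        exact sum_nonneg fun _ _ => abs_nonneg _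
    · rw [sum_congr rfl fun u _ => hmul u, sum_sub_distrib]
      have hs : supp tb ⊆ supp t := fun w hw =>
        mem_supp.mpr fun h => mem_supp.mp hw (hab w h)
      rw [← mass_eq tb hs, htbP.2, show ∑ w ∈ supp t, cf t w = 1 from htP.2, sub_self]
  have etb : t + dlt t f = tb := ext_cf fun w => by rw [cf_add, cf_dlt, hmul]; ring
  set a := liftT t with ha
  set g : FreeMonoid (Tok Bool) → ℝ := fun w => f (flatM w) with hg
  have haP : IsProb a := isProb_liftT htP
  have hgt : IsTilt a g r := isTilt_liftT htilt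
  have hta : ∀ w, cf a w ≠ 0 → ∃ u, w = FreeMonoid.of u := fun w h => single_of_supp_liftT h
  set ψ := psi a (dlt a g) with hψ
  have hU : ψ (eU d) = d • 1 + (1 - d) • a := by
    rw [eU, map_add, map_smul, map_one, map_smul, hψ, psi_pt, psiM_of, one_smul]; simp
  have hM : ψ (eU d + phiU d) = d • 1 + (1 - d) • (a + dlt a g) := by
    rw [map_add, hU, phiU, map_smul, hψ, psi_pt, psiM_of, one_smul, smul_add]
    simp only [if_true]
    abel
  have hXa : IsProb (d • 1 + (1 - d) • a) :=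
    ⟨(Pos.one.smul hd0.le).add (haP.1.smul hp'.le), by
      rw [mass_add, mass_smul, mass_smul, IsProb.one.2, haP.2]; ring⟩
  have hposb : Pos (a + dlt a g) := by
    intro w
    rw [cf_add, cf_dlt]
    by_cases hw : w ∈ supp a
    · obtain ⟨u, rfl⟩ := hta w (mem_supp.mp hw)
      rw [ha, cf_liftT, hg]
      simp only [flatM_of]
      rw [hmul]; linarith [htbP.1 u]
    · rw [not_mem_supp hw]; simp
  have hXb : IsProb (d • 1 + (1 - d) • (a + dlt a g)) :=
    ⟨(Pos.one.smul hd0.le).add (hposb.smul hp'.le), by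
      rw [mass_add, mass_smul, mass_smul, IsProb.one.2, mass_add, haP.2, mass_dlt hgt]; ring⟩
  refine ⟨a, g, r, hta, haP, hgt, fun n => ?_⟩
  have himg : ∀ V, flatA (ψ (cW d n V)) = tr q (baseA n) ^ V := by
    intro V
    rw [cW, map_wd, hU, hM, map_wd, map_add, map_add, map_smul, map_smul, map_smul, map_one,
      map_add, ha, flatA_liftT, hg, flatA_dlt, etb, ea, eb, wd_latU, tr_baseA]
  have hQ : ∀ V, IsProb (ψ (cW d n V)) := fun V => by
    rw [cW, map_wd, hU, hM]; exact isProb_wd hXa hXb _ _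
  exact fun V => ⟨hQ V, himg V⟩

/-- The overlap of two consecutive powers in the space of tokens is bounded below. -/
theorem close_num {σ : Type} {d : ℝ} (hd0 : 0 < d) (hd1 : d < 1) {eps C0 : ℝ} (heps0 : 0 < eps)
    (hC0 : 0 < C0) {N P W : ℕ} (hN1 : 1 ≤ N) {Kc : ℝ}
    (hKc : Kc = Real.exp ((2 * Real.sqrt (4 / eps) + 4 / eps) / d))
    (hP4 : (P : ℝ) * eps ≤ 4 * W) (hN : N = W * P) {a : Alg σ}
    (hta : ∀ w, cf a w ≠ 0 → ∃ u, w = FreeMonoid.of u)
    (haP : IsProb a) {g : FreeMonoid σ → ℝ} {r : ℝ} (hgt : IsTilt a g r) {c c' : Alg Bool}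
    (hpc : Pos c) (hpc' : Pos c') {M M' : ℕ} (hsc : ∀ w, cf c w ≠ 0 → len w ≤ M)
    (hsc' : ∀ w, cf c' w ≠ 0 → len w ≤ M')
    (hQc : IsProb (psi a (dlt a g) c)) (hQc' : IsProb (psi a (dlt a g) c'))
    (hw : ∀ R, wsq (kap 2 * r ^ 2) (homPart R c) ≤ C0 / (N : ℝ))
    (hw' : ∀ R, wsq (kap 2 * r ^ 2) (homPart R c') ≤ C0 / (N : ℝ))
    (hz : ∀ R, cf c (FreeMonoid.of false ^ R) = bp d N R)
    (hz' : ∀ R, cf c' (FreeMonoid.of false ^ R) = bp d (N + P) R) :
    81 / (64000 * Kc ^ 2 * (C0 * Real.sqrt C0)) ≤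
      1 - nrm (psi a (dlt a g) c - psi a (dlt a g) c') / 2 := by
  have hNr : (0 : ℝ) < N := by exact_mod_cast hN1
  have hKc0 : 0 < Kc := by rw [hKc]; exact Real.exp_pos _
  set A := C0 / (N : ℝ) with hA
  set I := win d N with hI
  set b : ℕ → ℝ := fun R => bp d N R with hb
  set S2 := ∑ R ∈ I, cf c (FreeMonoid.of false ^ R) * cf c' (FreeMonoid.of false ^ R) with hS2
  set s := Real.sqrt (N : ℝ) with hs
  have hs0 : 0 < s := Real.sqrt_pos.mpr hNr
  have hss : s * s = N := Real.mul_self_sqrt hNr.le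
  have hexp : (2 * s + P) * P / (d * N) ≤ (2 * Real.sqrt (4 / eps) + 4 / eps) / d := by
    have hPN : (P : ℝ) ^ 2 / N ≤ 4 / eps := by
      rw [div_le_div_iff₀ hNr heps0, hN]
      push_cast
      have hP0 : (0 : ℝ) ≤ P := Nat.cast_nonneg _
      calc (P : ℝ) ^ 2 * eps = (P * eps) * P := by ring
        _ ≤ 4 * W * P := mul_le_mul_of_nonneg_right hP4 hP0
        _ = 4 * ((W : ℝ) * P) := by ring
    have hPs : (P : ℝ) / s ≤ Real.sqrt (4 / eps) := by
      refine Real.le_sqrt_of_sq_le ?_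
      rw [div_pow, sq s, hss]; exact hPN
    rw [← div_div, div_le_iff₀ hNr, div_mul_eq_mul_div, div_le_div_iff_of_pos_right hd0,
      add_mul, add_mul, ← hss]
    rw [div_le_iff₀ hs0] at hPs
    rw [div_le_iff₀ hNr, ← hss] at hPN
    nlinarith
  have hlow : 81 / 256 / (Kc ^ 2 * (5 * s) ^ 2) ≤ S2 ^ 2 := by
    have h1 : ∀ R ∈ I, Kc⁻¹ * b R ^ 2 ≤
        cf c (FreeMonoid.of false ^ R) * cf c' (FreeMonoid.of false ^ R) := by
      intro R hR
      rw [hz, hz']
      have := bp_shift_lower hd0 hd1 hN1 (P := P) hR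
      have h3 : Kc⁻¹ ≤ Real.exp (-((2 * s + P) * P / (d * N))) := by
        rw [Real.exp_neg, hKc]; exact inv_anti₀ (Real.exp_pos _) (Real.exp_le_exp.mpr hexp)
      have hb0' : 0 ≤ bp d N R := bp_nonneg hd0.le hd1.le _ _
      calc Kc⁻¹ * b R ^ 2 = bp d N R * (Kc⁻¹ * bp d N R) := by rw [hb]; ring
        _ ≤ bp d N R * bp d (N + P) R :=
          mul_le_mul_of_nonneg_left ((mul_le_mul_of_nonneg_right h3 hb0').trans this) hb0'
    have h2 : Kc⁻¹ * ∑ R ∈ I, b R ^ 2 ≤ S2 := by rw [mul_sum]; exact sum_le_sum h1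
    have h3 := sq_sum_le_card_mul_sum_sq (s := I) (f := b)
    have h4 := bp_window_mass hd0 hd1 hN1
    have h5 := card_win d hN1
    have h6 : (3 / 4 : ℝ) ^ 2 ≤ 5 * s * ∑ R ∈ I, b R ^ 2 :=
      ((pow_le_pow_left₀ (by norm_num) h4 2).trans h3).trans
        (mul_le_mul_of_nonneg_right h5 (sum_nonneg fun R _ => sq_nonneg _))
    have h7 : (9 / 16 : ℝ) / (Kc * (5 * s)) ≤ S2 := by
      refine le_trans ?_ h2
      rw [div_le_iff₀ (by positivity)]
      have : Kc⁻¹ * (∑ R ∈ I, b R ^ 2) * (Kc * (5 * s)) = 5 * s * ∑ R ∈ I, b R ^ 2 := by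
        field_simp
      linarith
    refine le_trans (le_of_eq ?_) (pow_le_pow_left₀ (by positivity) h7 2)
    rw [div_pow, mul_pow]; ring
  have hover := overlap_lower hta haP hgt hpc hpc' hsc hsc' hQc hQc' I (A := A) (by positivity)
    (fun R _ => hw R) (fun R _ => hw' R)
  set m := 1 - nrm (psi a (dlt a g) c - psi a (dlt a g) c') / 2 with hm
  have hm0 : 0 ≤ m := by
    have := nrm_sub (psi a (dlt a g) c) (psi a (dlt a g) c')
    rw [hQc.nrm_eq, hQc'.nrm_eq] at this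
    linarith
  have hcard : (I.card : ℝ) * (2 * (A * Real.sqrt A)) ≤ 5 * s * (2 * (A * Real.sqrt A)) :=
    mul_le_mul_of_nonneg_right (card_win d hN1) (by positivity)
  have h := hlow.trans (hover.trans (mul_le_mul_of_nonneg_left hcard hm0))
  have eA : A * Real.sqrt A = C0 * Real.sqrt C0 / ((N : ℝ) * s) := by
    rw [hA, Real.sqrt_div' _ hNr.le, div_mul_div_comm]
  rw [eA, ← hss] at h
  have : 81 / (64000 * Kc ^ 2 * (C0 * Real.sqrt C0)) ≤ m := by
    rw [div_le_iff₀ (by positivity)]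
    rw [div_le_iff₀ (by positivity)] at h
    refine le_trans (le_of_eq ?_) (le_trans (mul_le_mul_of_nonneg_left h
      (show (0 : ℝ) ≤ 256 by norm_num)) (le_of_eq ?_))
    · ring
    · field_simp
      ring
  exact this

/-- Smoothness of the base string, given the facts about the coefficient vectors. -/
theorem base_slip_of {q : ℝ} (hq0 : 0 < q) (hq1 : q < 1)
    (hwsq : ∀ {d : ℝ}, 0 < d → d < 1 → ∀ {K : ℝ}, 0 ≤ K → ∃ dl : ℝ, 0 < dl ∧ ∃ C : ℝ, 0 < C ∧
      ∀ n W : ℕ, 1 ≤ W → 1 / dl ≤ (n : ℝ) → (W : ℝ) ≤ dl * n → ∀ R,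
        wsq K (homPart R (cW d n W)) ≤ C / ((W * (2 * n + 2) : ℕ) : ℝ))
    (hpos : ∀ {d : ℝ}, 0 < d → d < 1 → ∀ n W, Pos (cW d n W))
    (hzero : ∀ (d : ℝ) (n W R : ℕ),
      cf (cW d n W) (FreeMonoid.of false ^ R) = bp d (W * (2 * n + 2)) R)
    (hsupp : ∀ (d : ℝ) (n W : ℕ) w, cf (cW d n W) w ≠ 0 → len w ≤ W * (2 * n + 2)) :
    ∃ C : ℝ, ∃ n0 : ℕ, 1 ≤ C ∧ ∀ n ≥ n0,
      Smooth (tr q (baseA n)) (C * ((4 * n + 3 : ℕ) : ℝ)) := by
  classical
  set d : ℝ := q ^ 2 / 2 with hd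
  have hd0 : 0 < d := by positivity
  have hd1 : d < 1 := by rw [hd]; nlinarith
  obtain ⟨a, g, r, hta, haP, hgt, himg⟩ := token_setup hq0 hq1 hd hd0 hd1
  obtain ⟨dl, hdl, C0, hC0, hbound⟩ := hwsq hd0 hd1 (K := kap 2 * r ^ 2)
    (mul_nonneg (kap_pos 2).le (sq_nonneg r))
  set eps := dl / 2 with heps
  have heps0 : 0 < eps := by positivity
  set Kc : ℝ := Real.exp ((2 * Real.sqrt (4 / eps) + 4 / eps) / d) with hKc
  set th : ℝ := min (1 / 2) (81 / (64000 * Kc ^ 2 * (C0 * Real.sqrt C0))) with hth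
  have hKc0 : 0 < Kc := Real.exp_pos _
  have hth0 : 0 < th := lt_min (by norm_num) (by positivity)
  have hth1 : th < 1 := lt_of_le_of_lt (min_le_left _ _) (by norm_num)
  refine ⟨max 1 (16 * (dl + 1) / th), ⌈4 / dl⌉₊ + 1, le_max_left _ _, fun n hn => ?_⟩
  have hn4 : 4 / dl ≤ (n : ℝ) := (Nat.le_ceil _).trans (by exact_mod_cast (by omega : ⌈4 / dl⌉₊ ≤ n))
  have hn1 : (1 : ℝ) ≤ n := by exact_mod_cast (show 1 ≤ n by omega)
  have hdln : 4 ≤ dl * n := by rw [div_le_iff₀ hdl] at hn4; linarith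
  set W := ⌈eps * n⌉₊ with hW
  have hW1 : 1 ≤ W := Nat.ceil_pos.mpr (by positivity)
  have hWlo : eps * n ≤ W := Nat.le_ceil _
  have hWhi : (W : ℝ) ≤ eps * n + 1 := (Nat.ceil_lt_add_one (by positivity)).le
  have hWdl : ((W + 1 : ℕ) : ℝ) ≤ dl * n := by
    push_cast; rw [heps] at hWhi; linarith
  have hinv : 1 / dl ≤ (n : ℝ) := le_trans (by gcongr; norm_num) hn4
  set P := 2 * n + 2 with hP
  set N := W * P with hN
  have hN1 : 1 ≤ N := Nat.one_le_iff_ne_zero.mpr (by positivity)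
  have hNr : (0 : ℝ) < N := by exact_mod_cast hN1
  set A := C0 / (N : ℝ) with hA
  set c := cW d n W with hc
  set c' := cW d n (W + 1) with hc'
  have hw : ∀ R, wsq (kap 2 * r ^ 2) (homPart R c) ≤ A := fun R =>
    hbound n W hW1 hinv (le_trans (by push_cast; linarith) hWdl) R
  have hw' : ∀ R, wsq (kap 2 * r ^ 2) (homPart R c') ≤ A := fun R =>
    (hbound n (W + 1) (by omega) hinv hWdl R).trans (div_le_div_of_nonneg_left hC0.le hNr
      (by exact_mod_cast (show N ≤ (W + 1) * (2 * n + 2) by rw [hN, hP, add_mul]; omega)))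
  have hclose : nrm (tr q (baseA n) ^ W - tr q (baseA n) ^ (W + 1)) ≤ 2 * (1 - th) := by
    rw [← (himg n W).2, ← (himg n (W + 1)).2, ← map_sub]
    refine (nrm_flatA _).trans ?_
    have hnum := close_num hd0 hd1 heps0 hC0 hN1 (P := P) (Kc := Kc) hKc
      (W := W) (by rw [hP]; push_cast; nlinarith [mul_le_mul_of_nonneg_left hn1 heps0.le]) hN hta haP hgt (hpos hd0 hd1 n W)
      (hpos hd0 hd1 n (W + 1)) (hsupp d n W) (hsupp d n (W + 1)) (himg n W).1 (himg n (W + 1)).1
      hw hw' (fun R => hzero d n W R)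
      (fun R => (hzero d n (W + 1) R).trans (by rw [hN, hP, add_mul, one_mul]))
    have := (min_le_right (1 / 2 : ℝ) _).trans hnum
    linarith
  refine (smooth_of_slip ((isProb_tr hq0.le hq1.le _).pow 1 |> fun h => by simpa using h) hth0 hth1
    hclose).mono ?_
  refine le_trans ?_ (mul_le_mul_of_nonneg_right (le_max_right _ _) (Nat.cast_nonneg _))
  rw [div_mul_eq_mul_div, div_le_div_iff_of_pos_right hth0]
  push_cast at hWdl ⊢
  nlinarith [mul_nonneg hdl.le (Nat.cast_nonneg n : (0 : ℝ) ≤ n)]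

/-- Powers of the base string are smooth at a linear scale. -/
theorem base_slip {q : ℝ} (hq0 : 0 < q) (hq1 : q < 1) :
    ∃ C : ℝ, ∃ n0 : ℕ, 1 ≤ C ∧ ∀ n ≥ n0,
      Smooth (tr q (baseA n)) (C * ((4 * n + 3 : ℕ) : ℝ)) :=
  base_slip_of hq0 hq1 (fun h0 h1 => slip_wsq h0 h1) (fun h0 h1 => cW_pos h0.le h1.le)
    cW_zero (fun _ _ _ _ h => cW_supp h)

end Vale.Agent.P321
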