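import Vale.Agent.P321.Alg

/-!
Commuting mixtures with a common component: smoothing of powers.
-/

noncomputable section

open Finset

namespace Vale.Agent.P321

variable {σ : Type}

/-- Binomial probabilities with parameter `1 - th`. -/
def bp (th : ℝ) (c j : ℕ) : ℝ := (c.choose j : ℝ) * (1 - th) ^ j * th ^ (c - j)

theorem bp_nonneg {th : ℝ} (h0 : 0 ≤ th) (h1 : th ≤ 1) (c j : ℕ) : 0 ≤ bp th c j := by
  have := sub_nonneg.mpr h1
  unfold bp; positivity

theorem bp_eq_zero {th : ℝ} {c j : ℕ} (h : c < j) : bp th c j = 0 := by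
  simp [bp, Nat.choose_eq_zero_of_lt h]

theorem bp_th (th : ℝ) (c i : ℕ) :
    ((c : ℝ) + 1) * (th * bp th c i) = ((c : ℝ) + 1 - i) * bp th (c + 1) i := by
  rcases le_or_gt i c with h | h
  · have key : (c.choose i : ℝ) * ((c : ℝ) + 1) = ((c + 1).choose i : ℝ) * ((c : ℝ) + 1 - i) := by
      have h' := congrArg (Nat.cast (R := ℝ)) (Nat.choose_mul_succ_eq c i)
      rw [Nat.cast_mul, Nat.cast_mul, Nat.cast_sub (by omega)] at h'
      push_cast at h'
      exact h'
    unfold bp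
    rw [show c + 1 - i = (c - i) + 1 by omega, pow_succ]
    linear_combination ((1 - th) ^ i * th ^ (c - i) * th) * key
  · rw [bp_eq_zero h]
    rcases eq_or_lt_of_le (Nat.succ_le_of_lt h) with h' | h'
    · subst h'; push_cast; ring
    · rw [bp_eq_zero (show c + 1 < i by omega)]; ring

theorem bp_th' (th : ℝ) (c i : ℕ) :
    ((c : ℝ) + 1) * ((1 - th) * bp th c i) = ((i : ℝ) + 1) * bp th (c + 1) (i + 1) := by
  have key : ((c : ℝ) + 1) * (c.choose i : ℝ) = ((c + 1).choose (i + 1) : ℝ) * ((i : ℝ) + 1) := by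
    exact_mod_cast Nat.add_one_mul_choose_eq c i
  unfold bp
  rw [show c + 1 - (i + 1) = c - i by omega, pow_succ]
  linear_combination ((1 - th) ^ i * th ^ (c - i) * (1 - th)) * key

theorem sum_bp {th : ℝ} (c : ℕ) {N : ℕ} (h : c < N) : ∑ j ∈ range N, bp th c j = 1 := by
  have h1 : ∑ j ∈ range N, bp th c j = ∑ j ∈ range (c + 1), bp th c j :=
    (sum_subset (range_subset_range.mpr h)
      (fun j _ hj => bp_eq_zero (by simp only [mem_range] at hj; omega))).symm
  rw [h1]
  have := add_pow (1 - th) th c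
  rw [sub_add_cancel, one_pow] at this
  rw [this]
  exact sum_congr rfl fun j _ => by unfold bp; ring

/-- The sequence bound used in the induction. -/
def mixSum (th : ℝ) (n : ℕ) (lam : ℕ → ℝ) (i j : ℕ) : ℝ :=
  ∑ k ∈ range (n + 1), lam k * (bp th k j * bp th (n - k) i)

theorem mixSum_eq_zero (th : ℝ) (n : ℕ) (lam : ℕ → ℝ) (i j : ℕ) (h : n < i + j) :
    mixSum th n lam i j = 0 := by
  refine sum_eq_zero fun k hk => ?_
  rw [mem_range] at hk
  rcases lt_or_ge k j with h' | h'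
  · rw [bp_eq_zero h']; ring
  · rw [bp_eq_zero (show n - k < i by omega)]; ring

theorem mix_step_A (th : ℝ) (n : ℕ) (lam : ℕ → ℝ) (i j : ℕ) :
    th * mixSum th n (fun k => lam k * (((n : ℝ) + 1 - k) / (n + 1))) i j
      = ∑ k ∈ range (n + 2), lam k * (((n : ℝ) + 1 - k - i) / (n + 1)) *
          (bp th k j * bp th (n + 1 - k) i) := by
  rw [mixSum, mul_sum, sum_range_succ _ (n + 1)]
  have h0 : lam (n + 1) * (((n : ℝ) + 1 - ((n + 1 : ℕ) : ℝ) - i) / (n + 1)) *
      (bp th (n + 1) j * bp th (n + 1 - (n + 1)) i) = 0 := by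
    rw [Nat.sub_self]
    rcases Nat.eq_zero_or_pos i with hi | hi
    · subst hi; push_cast; ring
    · rw [bp_eq_zero hi]; ring
  rw [h0, add_zero]
  refine sum_congr rfl fun k hk => ?_
  rw [mem_range] at hk
  have hc : ((n - k : ℕ) : ℝ) = (n : ℝ) - k := Nat.cast_sub (by omega)
  have h1 := bp_th th (n - k) i
  rw [hc, show n - k + 1 = n + 1 - k by omega] at h1
  linear_combination (lam k * bp th k j / (n + 1)) * h1

theorem mix_step_B (th : ℝ) (n : ℕ) (lam : ℕ → ℝ) (i j : ℕ) :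
    th * mixSum th n (fun k => lam (k + 1) * (((k : ℝ) + 1) / (n + 1))) i j
      = ∑ k ∈ range (n + 2), lam k * (((k : ℝ) - j) / (n + 1)) *
          (bp th k j * bp th (n + 1 - k) i) := by
  rw [mixSum, mul_sum, sum_range_succ' _ (n + 1)]
  have h0 : lam 0 * ((((0 : ℕ) : ℝ) - j) / (n + 1)) *
      (bp th 0 j * bp th (n + 1 - 0) i) = 0 := by
    rcases Nat.eq_zero_or_pos j with hj | hj
    · subst hj; simp
    · rw [bp_eq_zero hj]; ring
  rw [h0, add_zero]
  refine sum_congr rfl fun k hk => ?_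
  have h1 := bp_th th k j
  rw [show n + 1 - (k + 1) = n - k by omega]
  push_cast
  linear_combination (lam (k + 1) * bp th (n - k) i / (n + 1)) * h1

theorem mix_step_A' (th : ℝ) (n : ℕ) (lam : ℕ → ℝ) (i j : ℕ) :
    (1 - th) * mixSum th n (fun k => lam k * (((n : ℝ) + 1 - k) / (n + 1))) i j
      = ((i : ℝ) + 1) / (n + 1) * mixSum th (n + 1) lam (i + 1) j := by
  rw [mixSum, mixSum, mul_sum, mul_sum, sum_range_succ _ (n + 1)]
  have h0 : ((i : ℝ) + 1) / (n + 1) * (lam (n + 1) *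
      (bp th (n + 1) j * bp th (n + 1 - (n + 1)) (i + 1))) = 0 := by
    rw [Nat.sub_self, bp_eq_zero (Nat.succ_pos i)]; ring
  rw [h0, add_zero]
  refine sum_congr rfl fun k hk => ?_
  rw [mem_range] at hk
  have hc : ((n - k : ℕ) : ℝ) = (n : ℝ) - k := Nat.cast_sub (by omega)
  have h1 := bp_th' th (n - k) i
  rw [hc, show n - k + 1 = n + 1 - k by omega] at h1
  linear_combination (lam k * bp th k j / (n + 1)) * h1

theorem mix_step_B' (th : ℝ) (n : ℕ) (lam : ℕ → ℝ) (i j : ℕ) :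
    (1 - th) * mixSum th n (fun k => lam (k + 1) * (((k : ℝ) + 1) / (n + 1))) i j
      = ((j : ℝ) + 1) / (n + 1) * mixSum th (n + 1) lam i (j + 1) := by
  rw [mixSum, mixSum, mul_sum, mul_sum, sum_range_succ' _ (n + 1)]
  have h0 : ((j : ℝ) + 1) / (n + 1) * (lam 0 *
      (bp th 0 (j + 1) * bp th (n + 1 - 0) i)) = 0 := by
    rw [bp_eq_zero (Nat.succ_pos j)]; ring
  rw [h0, add_zero]
  refine sum_congr rfl fun k hk => ?_
  have h1 := bp_th' th k j
  rw [show n + 1 - (k + 1) = n - k by omega]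
  linear_combination (lam (k + 1) * bp th (n - k) i / (n + 1)) * h1

end Vale.Agent.P321
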