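import Vale.Agent.P321.Comb

/-!
One cell with a balanced defect pattern, and lattices of cells.
-/

noncomputable section

open Finset

namespace Vale.Agent.P321

variable {σ : Type}

/-- Length of the pattern part of a cell. -/
def patLen (m : ℕ) : ℕ := 2 ^ (2 * m + 1)

/-- First pattern. -/
def patU (m : ℕ) : Finset ℕ := (tm (2 * m)).1

/-- Second pattern. -/
def patV (m : ℕ) : Finset ℕ := (tm (2 * m)).2

theorem patU_lt (m : ℕ) : ∀ v ∈ patU m, v < patLen m := (tm_lt (2 * m)).1

theorem patV_lt (m : ℕ) : ∀ v ∈ patV m, v < patLen m := (tm_lt (2 * m)).2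

theorem patLen_pos (m : ℕ) : 0 < patLen m := Nat.two_pow_pos _

/-- A padded pattern. -/
def cellW (a b : Alg σ) (p L : ℕ) (U : Finset ℕ) : Alg σ := a ^ p * wd a b U L * a ^ p

/-- Marked positions of a padded pattern. -/
def cellS (p : ℕ) (U : Finset ℕ) : Finset ℕ := U.image fun v => p + v

theorem cellW_eq (a b : Alg σ) (p L : ℕ) {U : Finset ℕ} (hU : ∀ v ∈ U, v < L) :
    cellW a b p L U = wd a b (cellS p U) (p + L + p) := (wd_pad a b U p L p hU).symm

theorem cellS_lt {p L : ℕ} {U : Finset ℕ} (hU : ∀ v ∈ U, v < L) :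
    ∀ i ∈ cellS p U, i < p + L + p := by
  intro i hi
  rw [cellS, mem_image] at hi
  obtain ⟨v, hv, rfl⟩ := hi
  have := hU v hv; omega

theorem isProb_cellW {a b : Alg σ} (ha : IsProb a) (hb : IsProb b) (p L : ℕ) (U : Finset ℕ) :
    IsProb (cellW a b p L U) := ((ha.pow p).mul (isProb_wd ha hb U L)).mul (ha.pow p)

theorem cellW_close {a b b' : Alg σ} (ha : nrm a ≤ 1) (hb : nrm b ≤ 1) (hb' : nrm b' ≤ 1)
    {e : ℝ} (he : nrm (b - b') ≤ e) (p L : ℕ) (U : Finset ℕ) :
    nrm (cellW a b p L U - cellW a b' p L U) ≤ (L : ℝ) * e := by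
  have e1 : cellW a b p L U - cellW a b' p L U = a ^ p * (wd a b U L - wd a b' U L) * a ^ p := by
    simp only [cellW, mul_sub, sub_mul]
  rw [e1]
  refine (nrm_mul3 _ _ _).trans ?_
  refine le_trans (mul_le_mul (mul_le_of_le_one_left (nrm_nonneg _) (nrm_pow_le_one ha p))
    (nrm_pow_le_one ha p) (nrm_nonneg _) (nrm_nonneg _)) ?_
  rw [mul_one]
  refine (wd_change ha hb ha hb' U L).trans ?_
  simp only [sub_self, nrm_zero, mul_zero, add_zero]
  refine mul_le_mul ?_ he (nrm_nonneg _) (Nat.cast_nonneg _)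
  exact_mod_cast (card_filter_le _ _).trans (card_range L).le

/-- The coefficient of a set in the difference of two expansions. -/
def diffC (U V : Finset ℕ) (S : Finset ℕ) : ℝ :=
  (if S ⊆ V then 1 else 0) - (if S ⊆ U then 1 else 0)

theorem abs_diffC (U V S : Finset ℕ) : |diffC U V S| ≤ 1 := by
  unfold diffC; split_ifs <;> norm_num

/-- The part of the difference of two patterns with at least two marks. -/
def twoPlus (a d : Alg σ) (L : ℕ) (U V : Finset ℕ) : Alg σ :=
  ∑ S ∈ (range L).powerset.filter (fun S => 2 ≤ S.card), diffC U V S • wd a d S L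

theorem expand_ind (a d : Alg σ) {L : ℕ} {U : Finset ℕ} (hU : ∀ v ∈ U, v < L) :
    wd a (a + d) U L =
      ∑ S ∈ (range L).powerset, (if S ⊆ U then (1 : ℝ) else 0) • wd a d S L := by
  simp only [ite_smul, one_smul, zero_smul]
  rw [expand_full, ← sum_filter]
  refine sum_congr ?_ fun S _ => rfl
  ext S
  simp only [mem_powerset, mem_filter, subset_iff, mem_range]
  exact ⟨fun h => ⟨fun i hi => (h hi).1, fun i hi => (h hi).2⟩,
    fun h i hi => ⟨h.1 hi, h.2 hi⟩⟩

theorem wd_single (a d : Alg σ) {L u : ℕ} (hu : u < L) :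
    wd a d {u} L = a ^ u * d * a ^ (L - (u + 1)) := by
  have h := wd_pad a d {0} u 1 (L - (u + 1)) (by simp)
  rw [show u + 1 + (L - (u + 1)) = L by omega] at h
  simpa [wd_succ] using h

theorem pattern_diff (a d : Alg σ) {L : ℕ} {U V : Finset ℕ} (hU : ∀ v ∈ U, v < L)
    (hV : ∀ v ∈ V, v < L) :
    wd a (a + d) V L - wd a (a + d) U L =
      (∑ u ∈ range L, sgnW V U u • (a ^ u * d * a ^ (L - (u + 1)))) + twoPlus a d L U V := by
  rw [expand_ind a d hU, expand_ind a d hV, ← sum_sub_distrib]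
  simp only [← sub_smul]
  rw [← sum_filter_add_sum_filter_not (range L).powerset (fun S => 2 ≤ S.card), add_comm]
  congr 1
  have e : ((range L).powerset.filter fun S => ¬ 2 ≤ S.card) =
      insert ∅ ((range L).image fun u => ({u} : Finset ℕ)) := by
    ext S
    simp only [mem_filter, mem_powerset, mem_insert, mem_image, mem_range, not_le]
    constructor
    · rintro ⟨hS, hc⟩
      rcases Nat.lt_succ_iff_lt_or_eq.mp hc with h | h
      · left; exact card_eq_zero.mp (by omega)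
      · right
        obtain ⟨u, rfl⟩ := card_eq_one.mp h
        exact ⟨u, by simpa using hS, rfl⟩
    · rintro (rfl | ⟨u, hu, rfl⟩)
      · simp
      · simp [hu]
  rw [e, sum_insert (by simp), sum_image (fun x _ y _ h => singleton_inj.mp h)]
  simp only [empty_subset, if_true, sub_self, zero_smul, zero_add, singleton_subset_iff]
  exact sum_congr rfl fun u hu => by rw [wd_single a d (mem_range.mp hu)]; rfl

theorem dom_sum {ι : Type*} (T : Finset ι) {x y : ι → Alg σ} (h : ∀ i ∈ T, Dom (x i) (y i)) :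
    Dom (∑ i ∈ T, x i) (∑ i ∈ T, y i) := fun w => by
  rw [cf_sum, cf_sum]
  exact (abs_sum_le_sum_abs _ _).trans (sum_le_sum fun i hi => h i hi w)

theorem dom_twoPlus {a : Alg σ} (ha : IsProb a) {f : FreeMonoid σ → ℝ} {r : ℝ}
    (hf : IsTilt a f r) (hr : r ≤ 1) (L : ℕ) (U V : Finset ℕ) :
    Dom (twoPlus a (dlt a f) L U V) (((2 : ℝ) ^ L * r ^ 2) • a ^ L) := by
  have hr0 := hf.nonneg
  have h1 : ∀ S ∈ (range L).powerset.filter (fun S => 2 ≤ S.card),
      Dom (diffC U V S • wd a (dlt a f) S L) (r ^ 2 • a ^ L) := by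
    intro S hS w
    rw [mem_filter, mem_powerset] at hS
    have hcard : ((range L).filter fun i => i ∈ S).card = S.card := by
      congr 1; ext i; simp only [mem_filter]; exact ⟨fun h => h.2, fun h => ⟨hS.1 h, h⟩⟩
    have := dom_wd ha hf S L w
    rw [hcard, cf_smul] at this
    rw [cf_smul, cf_smul, abs_mul]
    calc |diffC U V S| * |cf (wd a (dlt a f) S L) w| ≤ |cf (wd a (dlt a f) S L) w| :=
          mul_le_of_le_one_left (abs_nonneg _) (abs_diffC U V S)
      _ ≤ r ^ S.card * cf (a ^ L) w := this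
      _ ≤ r ^ 2 * cf (a ^ L) w :=
          mul_le_mul_of_nonneg_right (pow_le_pow_of_le_one hr0 hr hS.2) ((ha.pow L).1 w)
  have h2 := dom_sum _ h1
  intro w
  refine (h2 w).trans ?_
  simp only [cf_sum, cf_smul]
  rw [sum_const, nsmul_eq_mul,
    ← mul_assoc]
  refine mul_le_mul_of_nonneg_right (mul_le_mul_of_nonneg_right ?_ (sq_nonneg r)) ((ha.pow L).1 w)
  calc (((range L).powerset.filter fun S => 2 ≤ S.card).card : ℝ)
      ≤ ((2 ^ L : ℕ) : ℝ) := by
        exact_mod_cast (card_filter_le _ _).trans (by rw [card_powerset, card_range])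
    _ = _ := by push_cast; rfl

/-- The bound on the error from removing single marks. -/
def kerr (m p : ℕ) (tau : ℝ) : ℝ :=
  ((m : ℝ) + 2) * (patLen m : ℝ) *
    ((patLen m : ℝ) * Real.sqrt (4 * ((m : ℝ) + 1) * tau / p)) ^ (m + 1)

theorem kerr_nonneg (m p : ℕ) (tau : ℝ) : 0 ≤ kerr m p tau := by unfold kerr; positivity

theorem single_kill {a d : Alg σ} (ha : IsProb a) {tau : ℝ} (ht : 0 ≤ tau) (hs : Smooth a tau)
    {m p : ℕ} (hp : 2 * (m + 2) ≤ p)
    (hγ : (patLen m : ℝ) * Real.sqrt (4 * ((m : ℝ) + 1) * tau / p) ≤ 1) :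
    nrm (a ^ p * (∑ u ∈ range (patLen m),
        sgnW (patV m) (patU m) u • (a ^ u * d * a ^ (patLen m - (u + 1)))) * a ^ p)
      ≤ nrm d * kerr m p tau := by
  set L := patLen m with hL
  have hLpos := patLen_pos m
  have e : a ^ p * (∑ u ∈ range L, sgnW (patV m) (patU m) u • (a ^ u * d * a ^ (L - (u + 1)))) * a ^ p
      = ∑ u ∈ range L, sgnW (patV m) (patU m) u • (a ^ (p + u) * d * a ^ (p + L - 1 - u)) := by
    rw [mul_sum, sum_mul]
    refine sum_congr rfl fun u hu => ?_
    rw [mem_range] at hu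
    rw [mul_smul_comm, smul_mul_assoc, pow_add,
      show p + L - 1 - u = (L - (u + 1)) + p by omega, pow_add]
    simp only [mul_assoc]
  rw [e]
  have hw : ∀ P : Polynomial ℝ, P.natDegree ≤ 2 * m →
      ∑ j ∈ range L, sgnW (patV m) (patU m) j * P.eval (j : ℝ) = 0 := by
    intro P hP
    have h0 := sgnW_balanced (d := 2 * m) (L := L) le_rfl P hP
    have : ∀ j, sgnW (patV m) (patU m) j = - sgnW (tm (2 * m)).1 (tm (2 * m)).2 j := fun j => by
      simp only [sgnW, patV, patU]; ring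
    simp only [this, neg_mul, sum_neg_distrib, h0, neg_zero]
  have hq : Real.sqrt (2 * ((m : ℝ) + 1) * tau / ((p - 1 : ℕ) : ℝ)) ≤
      Real.sqrt (4 * ((m : ℝ) + 1) * tau / p) := by
    apply Real.sqrt_le_sqrt
    have hp1 : (0 : ℝ) < ((p - 1 : ℕ) : ℝ) := by exact_mod_cast (by omega : 0 < p - 1)
    have hp2 : (p : ℝ) ≤ 2 * ((p - 1 : ℕ) : ℝ) := by exact_mod_cast (by omega : p ≤ 2 * (p - 1))
    rw [div_le_div_iff₀ hp1 (by exact_mod_cast (by omega : 0 < p))]
    have : 0 ≤ ((m : ℝ) + 1) * tau := by positivity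
    nlinarith
  have hγ' : (L : ℝ) * Real.sqrt (2 * ((m : ℝ) + 1) * tau / ((p - 1 : ℕ) : ℝ)) ≤
      (L : ℝ) * Real.sqrt (4 * ((m : ℝ) + 1) * tau / p) :=
    mul_le_mul_of_nonneg_left hq (Nat.cast_nonneg _)
  refine (lin_kill ha ht hs m (p - 1) p (p + L - 1) L _ hw (by omega) (by omega) (by omega)
    (by omega) (hγ'.trans hγ)).trans ?_
  rw [kerr, ← hL, mul_assoc, mul_assoc, mul_assoc ((m : ℝ) + 2)]
  refine mul_le_mul_of_nonneg_left (mul_le_mul_of_nonneg_left ?_ (by positivity)) (nrm_nonneg _)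
  refine mul_le_mul ?_ (pow_le_pow_left₀ (by positivity) hγ' _) (by positivity) (Nat.cast_nonneg _)
  calc ∑ j ∈ range L, |sgnW (patV m) (patU m) j| ≤ ∑ _j ∈ range L, (1 : ℝ) :=
        sum_le_sum fun j _ => abs_sgnW _ _ j
    _ = _ := by simp

theorem cell_core {a : Alg σ} (ha : IsProb a) {f : FreeMonoid σ → ℝ} {r : ℝ} (hf : IsTilt a f r)
    (hr : r ≤ 1 / 2) {tau : ℝ} (ht : 0 ≤ tau) (hs : Smooth a tau) {m p : ℕ}
    (hp : 2 * (m + 2) ≤ p)
    (hγ : (patLen m : ℝ) * Real.sqrt (4 * ((m : ℝ) + 1) * tau / p) ≤ 1) :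
    nrm (cellW a (a + dlt a f) p (patLen m) (patV m) - cellW a (a + dlt a f) p (patLen m) (patU m)
        - a ^ p * twoPlus a (dlt a f) (patLen m) (patU m) (patV m) * a ^ p) ≤ kerr m p tau ∧
    Dom (a ^ p * twoPlus a (dlt a f) (patLen m) (patU m) (patV m) * a ^ p)
      (((4 : ℝ) ^ patLen m * r ^ 2) • cellW a (a + dlt a f) p (patLen m) (patU m)) := by
  set L := patLen m with hL
  constructor
  · have e : cellW a (a + dlt a f) p L (patV m) - cellW a (a + dlt a f) p L (patU m)
        - a ^ p * twoPlus a (dlt a f) L (patU m) (patV m) * a ^ p =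
        a ^ p * (∑ u ∈ range L, sgnW (patV m) (patU m) u •
          (a ^ u * dlt a f * a ^ (L - (u + 1)))) * a ^ p := by
      simp only [cellW]
      rw [← sub_mul, ← mul_sub, pattern_diff a (dlt a f) (patU_lt m) (patV_lt m), mul_add, add_mul,
        add_sub_cancel_right]
    rw [e]
    refine (single_kill ha ht hs hp hγ).trans ?_
    exact mul_le_of_le_one_left (kerr_nonneg m p tau) ((nrm_dlt ha hf).trans (by linarith))
  · have h1 := ((Dom.refl (ha.pow p).1).mul
      (dom_twoPlus ha hf (by linarith) L (patU m) (patV m))).mul (Dom.refl (ha.pow p).1)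
    intro w
    refine (h1 w).trans ?_
    rw [mul_smul_comm, smul_mul_assoc, cf_smul, cf_smul]
    have hlow : (1 / 2 : ℝ) ^ L * cf (a ^ p * a ^ L * a ^ p) w ≤
        cf (cellW a (a + dlt a f) p L (patU m)) w := by
      rw [cellW_eq a _ p L (patU_lt m), show a ^ p * a ^ L * a ^ p = a ^ (p + L + p) by
        rw [← pow_add, ← pow_add]]
      refine le_trans (mul_le_mul_of_nonneg_right ?_ ((ha.pow _).1 w))
        (wd_lower ha hf (by linarith) _ (p + L + p) w)
      refine le_trans (pow_le_pow_of_le_one (by norm_num) (by norm_num) ?_)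
        (pow_le_pow_left₀ (by norm_num) (by linarith) _)
      calc ((range (p + L + p)).filter fun i => i ∈ cellS p (patU m)).card
          ≤ (cellS p (patU m)).card := card_le_card fun i hi => (mem_filter.mp hi).2
        _ ≤ (patU m).card := card_image_le
        _ ≤ (range L).card := card_le_card fun v hv => mem_range.mpr (patU_lt m v hv)
        _ = L := card_range L
    calc (2 : ℝ) ^ L * r ^ 2 * cf (a ^ p * a ^ L * a ^ p) w
        = (4 : ℝ) ^ L * r ^ 2 * ((1 / 2 : ℝ) ^ L * cf (a ^ p * a ^ L * a ^ p) w) := by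
          rw [show (4 : ℝ) ^ L = 2 ^ L * 2 ^ L by rw [← mul_pow]; norm_num, one_div, inv_pow]
          field_simp
      _ ≤ _ := mul_le_mul_of_nonneg_left hlow (by positivity)

theorem sum_abs_le_nrm (z : Alg σ) (S : Finset (FreeMonoid σ)) :
    ∑ w ∈ S, |cf z w| ≤ nrm z := by
  classical
  rw [nrm_eq z (S := S ∪ supp z) subset_union_right]
  exact sum_le_sum_of_subset_of_nonneg subset_union_left fun w _ _ => abs_nonneg _

theorem cell_tilt {a b : Alg σ} (ha : IsProb a) (hb : IsProb b) {f : FreeMonoid σ → ℝ} {r : ℝ}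
    (hf : IsTilt a f r) {bad : ℝ} (hbad : nrm (b - (a + dlt a f)) ≤ bad)
    (hr : r ≤ 1 / 2) {tau : ℝ} (ht : 0 ≤ tau) (hs : Smooth a tau) {m p : ℕ}
    (hp : 2 * (m + 2) ≤ p)
    (hγ : (patLen m : ℝ) * Real.sqrt (4 * ((m : ℝ) + 1) * tau / p) ≤ 1)
    (hR : (4 : ℝ) ^ patLen m * r ^ 2 ≤ 1) :
    ∃ f1, IsTilt (cellW a b p (patLen m) (patU m)) f1 (2 * ((4 : ℝ) ^ patLen m * r ^ 2)) ∧
      nrm (cellW a b p (patLen m) (patV m) - (cellW a b p (patLen m) (patU m)
        + dlt (cellW a b p (patLen m) (patU m)) f1))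
        ≤ 2 * (3 * (patLen m : ℝ) * bad + kerr m p tau) := by
  set L := patLen m with hL
  have ht' := isProb_tilt ha hf (by linarith)
  obtain ⟨h1, h2⟩ := cell_core ha hf hr ht hs hp hγ
  set Δ := a ^ p * twoPlus a (dlt a f) L (patU m) (patV m) * a ^ p
  set R := (4 : ℝ) ^ L * r ^ 2 with hRdef
  have hcU := cellW_close ha.nrm_eq.le hb.nrm_eq.le ht'.nrm_eq.le hbad p L (patU m)
  have hcV := cellW_close ha.nrm_eq.le hb.nrm_eq.le ht'.nrm_eq.le hbad p L (patV m)
  have he1 : nrm (cellW a b p L (patV m) - cellW a b p L (patU m) - Δ) ≤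
      2 * (L : ℝ) * bad + kerr m p tau := by
    have e : cellW a b p L (patV m) - cellW a b p L (patU m) - Δ =
        (cellW a b p L (patV m) - cellW a (a + dlt a f) p L (patV m)) +
        (cellW a (a + dlt a f) p L (patV m) - cellW a (a + dlt a f) p L (patU m) - Δ) -
        (cellW a b p L (patU m) - cellW a (a + dlt a f) p L (patU m)) := by abel
    rw [e]
    refine (nrm_sub _ _).trans ((add_le_add (nrm_add _ _) le_rfl).trans ?_)
    linarith
  have hR0 : 0 ≤ R := by positivity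
  have he2 : ∀ S : Finset (FreeMonoid σ),
      ∑ w ∈ S, max (|cf Δ w| - R * cf (cellW a b p L (patU m)) w) 0 ≤ (L : ℝ) * bad := by
    intro S
    set D := cellW a (a + dlt a f) p L (patU m) - cellW a b p L (patU m) with hD
    refine le_trans (sum_le_sum fun w _ => max_le ?_ (abs_nonneg (cf D w))) ?_
    · have h3 := h2 w
      rw [cf_smul] at h3
      rw [hD, cf_sub]
      set x := cf (cellW a (a + dlt a f) p L (patU m)) w
      set y := cf (cellW a b p L (patU m)) w
      have h4 : R * (x - y) ≤ |x - y| :=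
        (le_abs_self _).trans (by rw [abs_mul, abs_of_nonneg hR0]; exact mul_le_of_le_one_left (abs_nonneg _) hR)
      linarith [mul_sub R x y]
    · refine (sum_abs_le_nrm D S).trans ?_
      rw [hD, nrm_sub_comm]; exact hcU
  obtain ⟨f1, hf1, hd⟩ := clip_tilt (isProb_cellW ha hb p L (patU m))
    (isProb_cellW ha hb p L (patV m)) hR0 he1 he2
  exact ⟨f1, hf1, hd.trans (le_of_eq (by ring))⟩

end Vale.Agent.P321
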