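import Vale.Agent.P321.Kill

/-!
Combinations of marked words with bounded coefficients.
-/

noncomputable section

open Finset

namespace Vale.Agent.P321

variable {σ : Type}

/-- The part of `S` above `N`, moved down by `N`. -/
def dn (N : ℕ) (S : Finset ℕ) : Finset ℕ := (S.filter fun i => N ≤ i).image fun i => i - N

/-- The part of `S` below `N`. -/
def lo (N : ℕ) (S : Finset ℕ) : Finset ℕ := S.filter fun i => i < N

/-- The union of a set below `N` with a shifted one. -/
def glue (N : ℕ) (U V : Finset ℕ) : Finset ℕ := U ∪ V.image fun v => N + v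

theorem mem_dn {N i : ℕ} {S : Finset ℕ} : i ∈ dn N S ↔ N + i ∈ S := by
  simp only [dn, mem_image, mem_filter]
  constructor
  · rintro ⟨j, ⟨hj, hle⟩, rfl⟩
    rwa [show N + (j - N) = j by omega]
  · intro h
    exact ⟨N + i, ⟨h, by omega⟩, by omega⟩

theorem lo_glue {N : ℕ} {U V : Finset ℕ} (hU : ∀ i ∈ U, i < N) : lo N (glue N U V) = U := by
  ext i
  simp only [lo, glue, mem_filter, mem_union, mem_image]
  constructor
  · rintro ⟨h | ⟨v, -, rfl⟩, hlt⟩
    · exact h
    · omega
  · intro h; exact ⟨Or.inl h, hU i h⟩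

theorem dn_glue {N : ℕ} {U V : Finset ℕ} (hU : ∀ i ∈ U, i < N) : dn N (glue N U V) = V := by
  ext i
  rw [mem_dn]
  simp only [glue, mem_union, mem_image]
  constructor
  · rintro (h | ⟨v, hv, e⟩)
    · have := hU _ h; omega
    · rwa [show i = v by omega]
  · intro h; exact Or.inr ⟨i, h, rfl⟩

theorem glue_lo_dn (N : ℕ) (S : Finset ℕ) : glue N (lo N S) (dn N S) = S := by
  ext i
  simp only [glue, lo, mem_union, mem_image, mem_filter, mem_dn]
  constructor
  · rintro (⟨h, -⟩ | ⟨v, hv, rfl⟩) <;> assumption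
  · intro h
    rcases lt_or_ge i N with h' | h'
    · exact Or.inl ⟨h, h'⟩
    · exact Or.inr ⟨i - N, by rwa [show N + (i - N) = i by omega], by omega⟩

theorem card_glue {N : ℕ} {U V : Finset ℕ} (hU : ∀ i ∈ U, i < N) :
    (glue N U V).card = U.card + V.card := by
  rw [glue, card_union_of_disjoint, card_image_of_injective _ (add_right_injective N)]
  rw [disjoint_left]
  intro i hi hi'
  rw [mem_image] at hi'
  obtain ⟨v, -, rfl⟩ := hi'
  have := hU _ hi; omega

theorem wd_glue (a b : Alg σ) {N M : ℕ} {U V : Finset ℕ} (hU : ∀ i ∈ U, i < N) :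
    wd a b (glue N U V) (N + M) = wd a b U N * wd a b V M := by
  refine wd_add a b N (fun i hi => ?_) (fun i _ => ?_)
  · simp only [glue, mem_union, mem_image]
    exact ⟨fun h => h.elim id (fun ⟨v, _, e⟩ => by omega), Or.inl⟩
  · simp only [glue, mem_union, mem_image]
    constructor
    · rintro (h | ⟨v, hv, e⟩)
      · have := hU _ h; omega
      · rwa [show i = v by omega]
    · intro h; exact Or.inr ⟨i, h, rfl⟩

/-- `z` combines marked words on `U` with coefficients at most `C`, supported where `Q` holds. -/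
def Comb (a d : Alg σ) (U : Finset ℕ) (N : ℕ) (C : ℝ) (Q : Finset ℕ → Prop) (z : Alg σ) : Prop :=
  ∃ c : Finset ℕ → ℝ, (∀ S, |c S| ≤ C) ∧ (∀ S, c S ≠ 0 → Q S) ∧
    z = ∑ S ∈ U.powerset, c S • wd a d S N

theorem Comb.nonneg {a d : Alg σ} {U : Finset ℕ} {N : ℕ} {C : ℝ} {Q : Finset ℕ → Prop} {z : Alg σ}
    (h : Comb a d U N C Q z) : 0 ≤ C := by
  obtain ⟨c, h1, -, -⟩ := h
  exact le_trans (abs_nonneg _) (h1 ∅)

theorem Comb.zero (a d : Alg σ) (U : Finset ℕ) (N : ℕ) {C : ℝ} (hC : 0 ≤ C)
    (Q : Finset ℕ → Prop) : Comb a d U N C Q 0 :=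
  ⟨fun _ => 0, fun _ => by simpa using hC, fun _ h => absurd rfl h, by simp⟩

theorem Comb.mono {a d : Alg σ} {U : Finset ℕ} {N : ℕ} {C C' : ℝ} {Q Q' : Finset ℕ → Prop}
    {z : Alg σ} (h : Comb a d U N C Q z) (hC : C ≤ C') (hQ : ∀ S, Q S → Q' S) :
    Comb a d U N C' Q' z := by
  obtain ⟨c, h1, h2, h3⟩ := h
  exact ⟨c, fun S => (h1 S).trans hC, fun S hS => hQ S (h2 S hS), h3⟩

theorem Comb.add {a d : Alg σ} {U : Finset ℕ} {N : ℕ} {C C' : ℝ} {Q : Finset ℕ → Prop}
    {z z' : Alg σ} (h : Comb a d U N C Q z) (h' : Comb a d U N C' Q z') :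
    Comb a d U N (C + C') Q (z + z') := by
  obtain ⟨c, h1, h2, h3⟩ := h
  obtain ⟨c', h1', h2', h3'⟩ := h'
  refine ⟨fun S => c S + c' S, fun S => (abs_add_le _ _).trans (add_le_add (h1 S) (h1' S)),
    fun S hS => ?_, by simp only [h3, h3', add_smul, sum_add_distrib]⟩
  by_cases hc : c S = 0
  · exact h2' S (by simpa [hc] using hS)
  · exact h2 S hc

theorem Comb.smul {a d : Alg σ} {U : Finset ℕ} {N : ℕ} {C : ℝ} {Q : Finset ℕ → Prop}
    {z : Alg σ} (x : ℝ) (h : Comb a d U N C Q z) : Comb a d U N (|x| * C) Q (x • z) := by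
  obtain ⟨c, h1, h2, h3⟩ := h
  refine ⟨fun S => x * c S, fun S => ?_, fun S hS => h2 S (right_ne_zero_of_mul hS),
    by simp only [h3, smul_sum, smul_smul]⟩
  rw [abs_mul]; exact mul_le_mul_of_nonneg_left (h1 S) (abs_nonneg _)

theorem Comb.sum {ι : Type*} {a d : Alg σ} {U : Finset ℕ} {N : ℕ} {C : ι → ℝ}
    {Q : Finset ℕ → Prop} {z : ι → Alg σ} (T : Finset ι)
    (h : ∀ i ∈ T, Comb a d U N (C i) Q (z i)) :
    Comb a d U N (∑ i ∈ T, C i) Q (∑ i ∈ T, z i) := by
  classical
  induction T using Finset.induction with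
  | empty => simpa using Comb.zero a d U N le_rfl Q
  | insert i T hi ih =>
    rw [sum_insert hi, sum_insert hi]
    exact (h i (mem_insert_self i T)).add (ih fun j hj => h j (mem_insert_of_mem hj))

theorem Comb.mul {a d : Alg σ} {U V : Finset ℕ} {N M : ℕ} {C C' : ℝ} {Q Q' : Finset ℕ → Prop}
    {z z' : Alg σ} (hU : ∀ i ∈ U, i < N) (h : Comb a d U N C Q z) (h' : Comb a d V M C' Q' z') :
    Comb a d (glue N U V) (N + M) (C * C') (fun S => Q (lo N S) ∧ Q' (dn N S)) (z * z') := by
  have hC := h.nonneg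
  obtain ⟨c, h1, h2, h3⟩ := h
  obtain ⟨c', h1', h2', h3'⟩ := h'
  refine ⟨fun S => c (lo N S) * c' (dn N S), fun S => ?_, fun S hS => ?_, ?_⟩
  · rw [abs_mul]; exact mul_le_mul (h1 _) (h1' _) (abs_nonneg _) hC
  · exact ⟨h2 _ (left_ne_zero_of_mul hS), h2' _ (right_ne_zero_of_mul hS)⟩
  · have hsub : ∀ S ∈ U.powerset, ∀ i ∈ S, i < N := fun S hS i hi => hU i (mem_powerset.mp hS hi)
    rw [h3, h3', sum_mul_sum, ← sum_product']
    refine sum_nbij' (fun p => glue N p.1 p.2) (fun S => (lo N S, dn N S)) ?_ ?_ ?_ ?_ ?_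
    · intro p hp
      rw [mem_product, mem_powerset, mem_powerset] at hp
      rw [mem_powerset]
      exact union_subset_union hp.1 (image_subset_image hp.2)
    · intro S hS
      rw [mem_powerset] at hS
      rw [mem_product, mem_powerset, mem_powerset]
      refine ⟨fun i hi => ?_, fun i hi => ?_⟩
      · rw [lo, mem_filter] at hi
        have := hS hi.1
        rw [glue, mem_union, mem_image] at this
        exact this.elim id (fun ⟨v, _, e⟩ => by omega)
      · rw [mem_dn] at hi
        have := hS hi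
        rw [glue, mem_union, mem_image] at this
        rcases this with h | ⟨v, hv, e⟩
        · have := hU _ h; omega
        · rwa [show i = v by omega]
    · intro p hp
      rw [mem_product] at hp
      exact Prod.ext (lo_glue (hsub _ hp.1)) (dn_glue (hsub _ hp.1))
    · intro S _
      exact glue_lo_dn N S
    · intro p hp
      rw [mem_product] at hp
      dsimp only
      rw [wd_glue a d (hsub _ hp.1), lo_glue (hsub _ hp.1), dn_glue (hsub _ hp.1)]
      simp only [smul_mul_assoc, mul_smul_comm, smul_smul, mul_comm]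

theorem comb_Xk (a d : Alg σ) (U : Finset ℕ) (k N : ℕ) :
    Comb a d ((range N).filter fun i => i ∈ U) N 1 (fun S => S.card = k) (Xk a d U k N) := by
  classical
  refine ⟨fun S => if S.card = k then 1 else 0, fun S => by dsimp only; split <;> simp, fun S hS => ?_, ?_⟩
  · by_contra h; simp [h] at hS
  · rw [Xk, powersetCard_eq_filter, sum_filter]
    refine sum_congr rfl fun S _ => ?_
    by_cases hS : S.card = k <;> simp [hS]

/-- The part with exactly `k` marks. -/
def Comb.part {a d : Alg σ} {U : Finset ℕ} {N : ℕ} (c : Finset ℕ → ℝ) (k : ℕ) : Alg σ :=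
  ∑ S ∈ U.powerset, (if S.card = k then c S else 0) • wd a d S N

theorem Comb.split {a d : Alg σ} {U : Finset ℕ} {N : ℕ} {C : ℝ} {k0 : ℕ} {z : Alg σ}
    (h : Comb a d U N C (fun S => k0 ≤ S.card) z) :
    ∃ P : ℕ → Alg σ, (∀ k, Comb a d U N C (fun S => S.card = k) (P k)) ∧
      z = ∑ k ∈ Icc k0 U.card, P k := by
  classical
  have hC := h.nonneg
  obtain ⟨c, h1, h2, h3⟩ := h
  refine ⟨fun k => Comb.part (a := a) (d := d) (U := U) (N := N) c k, fun k =>
    ⟨fun S => if S.card = k then c S else 0, fun S => ?_, fun S hS => ?_, rfl⟩, ?_⟩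
  · dsimp only
    split
    · exact h1 S
    · simpa using hC
  · by_contra hh; simp [hh] at hS
  · simp only [Comb.part]
    rw [h3, sum_comm]
    refine sum_congr rfl fun S hS => ?_
    rw [← sum_smul, sum_ite_eq]
    by_cases hc : c S = 0
    · simp [hc]
    · rw [if_pos (mem_Icc.mpr ⟨h2 S hc, card_le_card (mem_powerset.mp hS)⟩)]

theorem orderEmb_lt_iff {S : Finset ℕ} {k : ℕ} (h : S.card = k) (l : Fin k) (x : ℕ) :
    S.orderEmbOfFin h l < x ↔ l.val < (S.filter fun i => i < x).card := by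
  set t := S.orderEmbOfFin h with ht
  have himg : (S.filter fun i => i < x) = (univ.filter fun i => t i < x).image t := by
    rw [← image_orderEmbOfFin_univ S h, filter_image]
  rw [himg, card_image_of_injective _ t.injective]
  constructor
  · intro hl
    calc l.val < (Iic l).card := by rw [Fin.card_Iic]; omega
      _ ≤ _ := card_le_card fun i hi => by
        rw [mem_Iic] at hi
        exact mem_filter.mpr ⟨mem_univ i, lt_of_le_of_lt (t.monotone hi) hl⟩
  · intro hl
    by_contra hge
    have : (univ.filter fun i => t i < x) ⊆ Iio l := fun i hi => by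
      rw [mem_filter] at hi
      rw [mem_Iio]
      by_contra hh
      exact hge (lt_of_le_of_lt (t.monotone (not_lt.mp hh)) hi.2)
    have := card_le_card this
    rw [Fin.card_Iio] at this
    omega

end Vale.Agent.P321
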