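import Mathlib

/-!
Traces of a string under independent deletions, and the success probability of an estimator.
-/

noncomputable section

open Finset

namespace Vale.Agent.P321

/-- The bits of `x` at the kept positions `k`, in their original order. -/
def traceOf {n : ℕ} (x k : Fin n → Bool) : List Bool := ((List.finRange n).filter k).map x

/-- The probability of the keep pattern `k` when each position is deleted with probability `q`. -/
def keepProb (q : ℝ) {n : ℕ} (k : Fin n → Bool) : ℝ := ∏ i, if k i then 1 - q else q

/-- The probability that the randomized estimator `E` outputs `x` on `m` independent traces of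
`x`. -/
def succProb (q : ℝ) {n m : ℕ} (E : (Fin m → List Bool) → (Fin n → Bool) → ℝ)
    (x : Fin n → Bool) : ℝ :=
  ∑ K : Fin m → Fin n → Bool, (∏ j, keepProb q (K j)) * E (fun j => traceOf x (K j)) x

end Vale.Agent.P321
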