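import Vale.Agent.P321.Overlap

/-!
One-step sums for sparse sets of positions.
-/

noncomputable section

open Finset

namespace Vale.Agent.P321

/-- At most `c0` points in each period, in every interval. -/
def Sparse (X : Finset ℕ) (c0 P : ℕ) : Prop :=
  ∀ x L : ℕ, (X.filter fun v => x ≤ v ∧ v ≤ x + L).card ≤ c0 * (L / P + 1)

theorem inv_wid_le (D g : ℕ) (hD : 0 < D) (hg : 0 < g) :
    1 / ((max 1 (wid D g) : ℕ) : ℝ) ≤ 2 * Real.sqrt ((D : ℝ) / g) := by
  set w := wid D g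
  have h1 : g < (w + 1) ^ 2 * D := by
    have := Nat.lt_succ_sqrt' (g / D)
    exact (Nat.div_lt_iff_lt_mul hD).mp this
  have h1' : (g : ℝ) < ((w : ℝ) + 1) ^ 2 * D := by exact_mod_cast h1
  have h2 : (w : ℝ) + 1 ≤ 2 * ((max 1 w : ℕ) : ℝ) := by
    rw [Nat.cast_max]; push_cast
    linarith [le_max_left (1 : ℝ) w, le_max_right (1 : ℝ) w]
  have hM : (0 : ℝ) < ((max 1 w : ℕ) : ℝ) := by positivity
  have hg' : (0 : ℝ) < g := by exact_mod_cast hg
  rw [div_le_iff₀ hM, show (2 : ℝ) * Real.sqrt ((D : ℝ) / g) * ((max 1 w : ℕ) : ℝ) =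
    Real.sqrt ((D : ℝ) / g) * (2 * ((max 1 w : ℕ) : ℝ)) by ring]
  refine le_trans ?_ (mul_le_mul_of_nonneg_left h2 (Real.sqrt_nonneg _))
  rw [← Real.sqrt_sq (show (0 : ℝ) ≤ (w : ℝ) + 1 by positivity), ← Real.sqrt_mul (by positivity)]
  rw [Real.one_le_sqrt, div_mul_eq_mul_div, one_le_div hg']
  linarith

theorem sum_inv_sqrt (J : ℕ) : ∑ i ∈ range J, 1 / Real.sqrt ((i : ℝ) + 1) ≤ 2 * Real.sqrt J := by
  induction J with
  | zero => simp
  | succ J ih =>
    rw [sum_range_succ]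
    have h : 0 < Real.sqrt ((J : ℝ) + 1) := Real.sqrt_pos.mpr (by positivity)
    have h1 := Real.sq_sqrt (show (0 : ℝ) ≤ (J : ℝ) + 1 by positivity)
    have h2 := Real.sq_sqrt (show (0 : ℝ) ≤ (J : ℝ) by positivity)
    have h3 : Real.sqrt J * Real.sqrt ((J : ℝ) + 1) ≤ J + 1 / 2 := by
      nlinarith [sq_nonneg (Real.sqrt ((J : ℝ) + 1) - Real.sqrt J)]
    have h4 : 1 / Real.sqrt ((J : ℝ) + 1) ≤ 2 * Real.sqrt ((J : ℝ) + 1) - 2 * Real.sqrt J := by
      rw [div_le_iff₀ h]; nlinarith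
    push_cast
    linarith

/-- The bound of `Σ_i 1/width(iP)`. -/
def periodSum (D P J : ℕ) : ℝ := 1 + 4 * Real.sqrt ((D : ℝ) * J / P)

theorem sum_inv_wid (D P J : ℕ) (hD : 0 < D) (hP : 0 < P) :
    ∑ i ∈ range (J + 1), 1 / ((max 1 (wid D (i * P)) : ℕ) : ℝ) ≤ periodSum D P J := by
  rw [sum_range_succ']
  have h0 : 1 / ((max 1 (wid D (0 * P)) : ℕ) : ℝ) ≤ 1 := by
    rw [div_le_one (by positivity)]; exact_mod_cast le_max_left _ _
  have h : ∀ i ∈ range J, 1 / ((max 1 (wid D ((i + 1) * P)) : ℕ) : ℝ) ≤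
      2 * Real.sqrt ((D : ℝ) / P) * (1 / Real.sqrt ((i : ℝ) + 1)) := by
    intro i _
    refine (inv_wid_le D _ hD (by positivity)).trans (le_of_eq ?_)
    push_cast
    rw [mul_assoc, mul_one_div, ← Real.sqrt_div' _ (by positivity)]
    congr 2
    field_simp
  refine (add_le_add (sum_le_sum h) h0).trans ?_
  rw [← mul_sum, periodSum]
  have h5 : 2 * Real.sqrt ((D : ℝ) / P) * ∑ i ∈ range J, 1 / Real.sqrt ((i : ℝ) + 1) ≤
      2 * Real.sqrt ((D : ℝ) / P) * (2 * Real.sqrt J) :=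
    mul_le_mul_of_nonneg_left (sum_inv_sqrt J) (by positivity)
  have : Real.sqrt ((D : ℝ) * J / P) = Real.sqrt ((D : ℝ) / P) * Real.sqrt J := by
    rw [← Real.sqrt_mul (by positivity)]; congr 1; ring
  rw [this]; linarith

/-- The one-step bound for a lattice-like set. -/
def Sbd (m D c0 P J : ℕ) : ℝ :=
  ovA m * (c0 : ℝ) ^ 2 * ((4 * (m : ℝ) + 4) * ((J : ℝ) + 1) / P + periodSum D P J)

theorem Sbd_nonneg (m D c0 P J : ℕ) : 0 ≤ Sbd m D c0 P J := by
  have := ovA_pos m; unfold Sbd periodSum; positivity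

theorem v_count {m D c0 P : ℕ} {X : Finset ℕ} (hX : Sparse X c0 P) (hP : 0 < P) (g x0 : ℕ)
    (pr : ℕ → Prop) [DecidablePred pr] (hv : ℕ → ℕ)
    (hwin : ∀ v ∈ X, pr v → g ≤ hv v + (2 * m + 2) * wid D g → hv v ≤ g + (2 * m + 2) * wid D g →
      x0 ≤ v ∧ v ≤ x0 + 2 * ((2 * m + 2) * wid D g)) :
    ∑ v ∈ X, (if pr v then ovb m D g (hv v) else 0) ≤
      ovA m * (c0 : ℝ) * ((4 * (m : ℝ) + 4) / P + 1 / ((max 1 (wid D g) : ℕ) : ℝ)) := by
  classical
  have hA := ovA_pos m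
  set L := 2 * ((2 * m + 2) * wid D g) with hL
  set M : ℕ := max 1 (wid D g) with hM
  have hterm : ∀ v ∈ X, (if pr v then ovb m D g (hv v) else 0) ≤
      if x0 ≤ v ∧ v ≤ x0 + L then ovA m / (M : ℝ) else 0 := by
    intro v hvX
    by_cases hp : pr v
    · rw [if_pos hp, ovb]
      by_cases hc : g ≤ hv v + (2 * m + 2) * wid D g ∧ hv v ≤ g + (2 * m + 2) * wid D g
      · rw [if_pos hc, if_pos (hwin v hvX hp hc.1 hc.2)]
      · rw [if_neg hc]; split <;> positivity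
    · rw [if_neg hp]; split <;> positivity
  refine (sum_le_sum hterm).trans ?_
  rw [← sum_filter, sum_const, nsmul_eq_mul]
  have hcard : ((X.filter fun v => x0 ≤ v ∧ v ≤ x0 + L).card : ℝ) ≤ c0 * ((L : ℝ) / P + 1) := by
    have h1 : ((X.filter fun v => x0 ≤ v ∧ v ≤ x0 + L).card : ℝ) ≤ ((c0 * (L / P + 1) : ℕ) : ℝ) := by
      exact_mod_cast hX x0 L
    refine h1.trans ?_
    push_cast
    gcongr
    exact Nat.cast_div_le
  refine (mul_le_mul_of_nonneg_right hcard (by positivity)).trans ?_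
  have hM0 : (0 : ℝ) < M := by rw [hM]; positivity
  have hwM : (wid D g : ℝ) / M ≤ 1 := by
    rw [div_le_one hM0, hM]; exact_mod_cast le_max_right _ _
  have e : (c0 : ℝ) * ((L : ℝ) / P + 1) * (ovA m / M) =
      ovA m * c0 * ((4 * (m : ℝ) + 4) / P * ((wid D g : ℝ) / M) + 1 / M) := by
    rw [hL]; push_cast; field_simp; ring
  rw [e]
  gcongr
  exact mul_le_of_le_one_right (by positivity) hwM

theorem u_sum {D c0 P J : ℕ} {X : Finset ℕ} (hX : Sparse X c0 P) (hP : 0 < P) (hD : 0 < D)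
    {β γ : ℝ} (hβ : 0 ≤ β) (hγ : 0 ≤ γ) (pr : ℕ → Prop) [DecidablePred pr] (g : ℕ → ℕ)
    (hJ : ∀ u ∈ X, pr u → g u / P ≤ J) (x0 : ℕ → ℕ)
    (hwin : ∀ u ∈ X, pr u → x0 (g u / P) ≤ u ∧ u ≤ x0 (g u / P) + (P - 1)) :
    ∑ u ∈ X, (if pr u then β + γ / ((max 1 (wid D (g u)) : ℕ) : ℝ) else 0) ≤
      (c0 : ℝ) * (β * ((J : ℝ) + 1) + γ * periodSum D P J) := by
  classical
  rw [← sum_filter, ← sum_fiberwise_of_maps_to (g := fun u => g u / P) (t := range (J + 1))
    (fun u hu => by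
      rw [mem_filter] at hu
      exact mem_range.mpr (Nat.lt_succ_of_le (hJ u hu.1 hu.2)))]
  have hfib : ∀ i ∈ range (J + 1),
      ∑ u ∈ (X.filter pr).filter (fun u => g u / P = i),
        (β + γ / ((max 1 (wid D (g u)) : ℕ) : ℝ)) ≤
      (c0 : ℝ) * (β + γ / ((max 1 (wid D (i * P)) : ℕ) : ℝ)) := by
    intro i _
    set F := (X.filter pr).filter (fun u => g u / P = i) with hF
    have hc : F.card ≤ c0 := by
      calc F.card ≤ (X.filter fun v => x0 i ≤ v ∧ v ≤ x0 i + (P - 1)).card := by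
            refine card_le_card fun u hu => ?_
            rw [hF, mem_filter, mem_filter] at hu
            obtain ⟨⟨huX, hpu⟩, hi⟩ := hu
            subst hi
            exact mem_filter.mpr ⟨huX, hwin u huX hpu⟩
        _ ≤ c0 * ((P - 1) / P + 1) := hX _ _
        _ = c0 := by rw [Nat.div_eq_of_lt (by omega)]; simp
    calc ∑ u ∈ F, (β + γ / ((max 1 (wid D (g u)) : ℕ) : ℝ))
        ≤ ∑ u ∈ F, (β + γ / ((max 1 (wid D (i * P)) : ℕ) : ℝ)) := by
          refine sum_le_sum fun u hu => ?_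
          rw [hF, mem_filter] at hu
          have : i * P ≤ g u := by rw [← hu.2]; exact Nat.div_mul_le_self _ _
          gcongr
          exact_mod_cast wid_mono D this
      _ = (F.card : ℝ) * (β + γ / ((max 1 (wid D (i * P)) : ℕ) : ℝ)) := by
          rw [sum_const, nsmul_eq_mul]
      _ ≤ _ := mul_le_mul_of_nonneg_right (by exact_mod_cast hc) (by positivity)
  refine (sum_le_sum hfib).trans ?_
  rw [← mul_sum, sum_add_distrib, sum_const, card_range, nsmul_eq_mul]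
  refine mul_le_mul_of_nonneg_left (add_le_add ?_ ?_) (Nat.cast_nonneg _)
  · push_cast; rw [mul_comm]
  · have := mul_le_mul_of_nonneg_left (sum_inv_wid D P J hD hP) hγ
    refine le_trans (le_of_eq ?_) this
    rw [mul_sum]
    exact sum_congr rfl fun i _ => by rw [mul_one_div]

theorem fwd_sum {m D c0 P J N : ℕ} {X : Finset ℕ} (hX : Sparse X c0 P) (hP : 0 < P) (hD : 0 < D)
    (hN : ∀ u ∈ X, u < N) (hNJ : N / P ≤ J) (a b : ℕ) :
    ∑ u ∈ X, ∑ v ∈ X, fwd m D a b u v ≤ Sbd m D c0 P J := by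
  classical
  have hA := ovA_pos m
  have h : ∀ u ∈ X, ∑ v ∈ X, fwd m D a b u v ≤
      if a ≤ u then ovA m * c0 * ((4 * (m : ℝ) + 4) / P) +
        (ovA m * c0) / ((max 1 (wid D (u - a)) : ℕ) : ℝ) else 0 := by
    intro u _
    by_cases ha : a ≤ u
    · rw [if_pos ha]
      simp only [fwd, ha, true_and]
      refine (v_count hX hP (u - a) (b + (u - a) - (2 * m + 2) * wid D (u - a)) (fun v => b ≤ v)
        (fun v => v - b) fun v _ hp h1 h2 => by constructor <;> omega).trans (le_of_eq ?_)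
      rw [mul_add, mul_one_div]
    · rw [if_neg ha]
      simp [fwd, ha]
  refine (sum_le_sum h).trans ?_
  refine (u_sum (J := J) hX hP hD (by positivity) (by positivity) (fun u => a ≤ u) (fun u => u - a)
    (fun u hu _ => le_trans (Nat.div_le_div_right (by have := hN u hu; omega)) hNJ)
    (fun i => a + i * P) fun u _ hp => ?_).trans (le_of_eq ?_)
  · have h1 := Nat.div_mul_le_self (u - a) P
    have h2 : u - a < (u - a) / P * P + P := Nat.lt_div_mul_add hP
    constructor <;> omega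
  · rw [Sbd]; ring

theorem bwd_sum {m D c0 P J N : ℕ} {X : Finset ℕ} (hX : Sparse X c0 P) (hP : 0 < P) (hD : 0 < D)
    (hNJ : N / P ≤ J) (a b : ℕ) (ha : a ≤ N) :
    ∑ u ∈ X, ∑ v ∈ X, bwd m D a b u v ≤ Sbd m D c0 P J := by
  classical
  have hA := ovA_pos m
  have h : ∀ u ∈ X, ∑ v ∈ X, bwd m D a b u v ≤
      if u < a then ovA m * c0 * ((4 * (m : ℝ) + 4) / P) +
        (ovA m * c0) / ((max 1 (wid D (a - (u + 1))) : ℕ) : ℝ) else 0 := by
    intro u _
    by_cases hu : u < a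
    · rw [if_pos hu]
      simp only [bwd, hu, true_and]
      refine (v_count hX hP (a - (u + 1))
        (b - (a - (u + 1) + (2 * m + 2) * wid D (a - (u + 1)) + 1)) (fun v => v < b)
        (fun v => b - (v + 1)) fun v _ hp h1 h2 => by constructor <;> omega).trans (le_of_eq ?_)
      rw [mul_add, mul_one_div]
    · rw [if_neg hu]
      simp [bwd, hu]
  refine (sum_le_sum h).trans ?_
  refine (u_sum (J := J) hX hP hD (by positivity) (by positivity) (fun u => u < a)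
    (fun u => a - (u + 1))
    (fun u _ _ => le_trans (Nat.div_le_div_right (by omega)) hNJ)
    (fun i => a - (i * P + P)) fun u _ hp => ?_).trans (le_of_eq ?_)
  · have h1 := Nat.div_mul_le_self (a - (u + 1)) P
    have h2 : a - (u + 1) < (a - (u + 1)) / P * P + P := Nat.lt_div_mul_add hP
    constructor <;> omega
  · rw [Sbd]; ring

theorem bwd_zero_of_gt {m D a b u v : ℕ} (h : a ≤ u) : bwd m D a b u v = 0 := by
  rw [bwd, if_neg (by omega)]

theorem fwd_small {m D c : ℕ} {X : Finset ℕ} (hc : X.card ≤ c) (a b Lo : ℕ)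
    (hlo : ∀ u ∈ X, a ≤ u → Lo ≤ u - a) :
    ∑ u ∈ X, ∑ v ∈ X, fwd m D a b u v ≤
      (c : ℝ) ^ 2 * (ovA m / ((max 1 (wid D Lo) : ℕ) : ℝ)) := by
  classical
  have hA := ovA_pos m
  have h : ∀ u ∈ X, ∀ v ∈ X, fwd m D a b u v ≤ ovA m / ((max 1 (wid D Lo) : ℕ) : ℝ) := by
    intro u hu v _
    unfold fwd ovb
    split_ifs with h1 h2
    · gcongr
      exact_mod_cast wid_mono D (hlo u hu h1.1)
    · positivity
    · positivity
  refine (sum_le_sum fun u hu => sum_le_sum fun v hv => h u hu v hv).trans ?_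
  rw [sum_const, sum_const, nsmul_eq_mul, nsmul_eq_mul, ← mul_assoc, sq]
  gcongr

theorem bwd_small {m D c : ℕ} {X : Finset ℕ} (hc : X.card ≤ c) (a b Lo : ℕ)
    (hlo : ∀ u ∈ X, u < a → Lo ≤ a - (u + 1)) :
    ∑ u ∈ X, ∑ v ∈ X, bwd m D a b u v ≤
      (c : ℝ) ^ 2 * (ovA m / ((max 1 (wid D Lo) : ℕ) : ℝ)) := by
  classical
  have hA := ovA_pos m
  have h : ∀ u ∈ X, ∀ v ∈ X, bwd m D a b u v ≤ ovA m / ((max 1 (wid D Lo) : ℕ) : ℝ) := by
    intro u hu v _
    unfold bwd ovb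
    split_ifs with h1 h2
    · gcongr
      exact_mod_cast wid_mono D (hlo u hu h1.1)
    · positivity
    · positivity
  refine (sum_le_sum fun u hu => sum_le_sum fun v hv => h u hu v hv).trans ?_
  rw [sum_const, sum_const, nsmul_eq_mul, nsmul_eq_mul, ← mul_assoc, sq]
  gcongr

end Vale.Agent.P321
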