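import Mathlib

/-!
Averaging kernels reproducing low degree polynomials at zero.
-/

noncomputable section

open Finset Polynomial

namespace Vale.Agent.P321

/-- The Lagrange weight of a node for extrapolation to zero. -/
def lw (m s i l : ℕ) : ℝ :=
  ∏ h ∈ (Icc 1 (m + 1)).erase l, (-((i : ℝ) + (h : ℝ) * s) / (((l : ℝ) - h) * s))

/-- The kernel of width `s`. -/
def ker (m s j : ℕ) : ℝ :=
  if s = 0 then (if j = 0 then 1 else 0)
  else if s ≤ j ∧ j < (m + 2) * s then lw m s (j % s) (j / s) / s else 0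

/-- The bound on weights. -/
def Lam (m : ℕ) : ℝ := ((m : ℝ) + 2) ^ m

theorem one_le_Lam (m : ℕ) : 1 ≤ Lam m := one_le_pow₀ (by linarith [(Nat.cast_nonneg m : (0:ℝ) ≤ m)])

theorem abs_lw (m s i l : ℕ) (hs : 0 < s) (hi : i < s) (hl : l ∈ Icc 1 (m + 1)) :
    |lw m s i l| ≤ Lam m := by
  have hcard : ((Icc 1 (m + 1)).erase l).card = m := by
    rw [card_erase_of_mem hl, Nat.card_Icc]; omega
  rw [lw, abs_prod]
  refine (prod_le_prod (fun h _ => abs_nonneg _) (fun h hh => ?_)).trans
    (le_of_eq (by rw [prod_const, hcard]; rfl) : ∏ _h ∈ (Icc 1 (m + 1)).erase l, ((m : ℝ) + 2) ≤ Lam m)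
  rw [mem_erase, mem_Icc] at hh
  have hne : (1 : ℝ) ≤ |(l : ℝ) - h| := by
    rcases lt_or_gt_of_ne hh.1 with h' | h'
    · have : (h : ℝ) + 1 ≤ l := by exact_mod_cast h'
      rw [abs_of_pos (by linarith)]; linarith
    · have : (l : ℝ) + 1 ≤ h := by exact_mod_cast h'
      rw [abs_of_neg (by linarith)]; linarith
  rw [abs_div, abs_neg, abs_mul, abs_of_nonneg (show (0 : ℝ) ≤ (i : ℝ) + h * s by positivity),
    abs_of_nonneg (show (0 : ℝ) ≤ (s : ℝ) by positivity),
    div_le_iff₀ (mul_pos (by linarith) (by exact_mod_cast hs))]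
  have h1 : (i : ℝ) ≤ s := by exact_mod_cast hi.le
  have h2 : (h : ℝ) ≤ m + 1 := by exact_mod_cast hh.2.2
  have h3 : 0 ≤ (s : ℝ) := by positivity
  have h4 : ((m : ℝ) + 2) * s ≤ ((m : ℝ) + 2) * (|(l : ℝ) - h| * s) :=
    mul_le_mul_of_nonneg_left (le_mul_of_one_le_left h3 hne) (by positivity)
  nlinarith [mul_le_mul_of_nonneg_right h2 h3]

theorem ker_zero_of_gt {m s j : ℕ} (h : (m + 2) * s < j) : ker m s j = 0 := by
  unfold ker
  split
  · rw [if_neg (by omega)]
  · rw [if_neg (by omega)]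

theorem abs_ker (m s j : ℕ) : |ker m s j| ≤ Lam m / (max 1 s : ℕ) := by
  unfold ker
  split
  · rename_i h
    subst h
    split <;> simp <;> linarith [one_le_Lam m]
  · rename_i hs
    have hs0 : 0 < s := Nat.pos_of_ne_zero hs
    rw [max_eq_right (show 1 ≤ s from hs0)]
    split
    · rename_i h
      rw [abs_div, abs_of_nonneg (show (0 : ℝ) ≤ (s : ℝ) by positivity)]
      refine div_le_div_of_nonneg_right (abs_lw m s _ _ hs0 (Nat.mod_lt _ hs0) ?_) (by positivity)
      rw [mem_Icc]
      exact ⟨Nat.div_pos h.1 hs0,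
        Nat.le_of_lt_succ (Nat.div_lt_of_lt_mul (by rw [mul_comm]; exact h.2))⟩
    · rw [abs_zero]; have := one_le_Lam m; positivity

theorem ker_l1 (m s : ℕ) :
    ∑ j ∈ range ((m + 2) * s + 1), |ker m s j| ≤ ((m : ℝ) + 3) * Lam m := by
  refine (sum_le_sum fun j _ => abs_ker m s j).trans ?_
  rw [sum_const, card_range, nsmul_eq_mul, mul_div_assoc', div_le_iff₀ (by positivity)]
  have := one_le_Lam m
  have h : ((m + 2) * s + 1 : ℕ) ≤ (m + 3) * max 1 s := by
    rcases Nat.eq_zero_or_pos s with hs | hs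
    · subst hs; simp
    · rw [max_eq_right hs]; nlinarith
  calc (((m + 2) * s + 1 : ℕ) : ℝ) * Lam m ≤ (((m + 3) * max 1 s : ℕ) : ℝ) * Lam m :=
        mul_le_mul_of_nonneg_right (by exact_mod_cast h) (by linarith)
    _ = _ := by push_cast; ring

theorem ker_exact (m s : ℕ) (P : ℝ[X]) (hP : P.natDegree ≤ m) {M : ℕ} (hM : (m + 2) * s < M) :
    ∑ j ∈ range M, ker m s j * P.eval (j : ℝ) = P.eval 0 := by
  classical
  rcases Nat.eq_zero_or_pos s with hs | hs
  · subst hs
    simp [ker, Nat.pos_iff_ne_zero.mp (show 0 < M by omega)]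
  · have key : ∀ i < s, ∑ l ∈ Icc 1 (m + 1), lw m s i l * P.eval ((l * s + i : ℕ) : ℝ) = P.eval 0 := by
      intro i _
      set v : ℕ → ℝ := fun l => ((l * s + i : ℕ) : ℝ) with hv
      have hinj : Set.InjOn v (Icc 1 (m + 1) : Finset ℕ) := by
        intro x _ y _ h
        simp only [hv, Nat.cast_inj] at h
        exact Nat.eq_of_mul_eq_mul_right hs (by omega)
      have hdeg : P.degree < ((Icc 1 (m + 1)).card : ℕ) := by
        rw [Nat.card_Icc]
        exact lt_of_le_of_lt degree_le_natDegree (by exact_mod_cast (by omega : P.natDegree < m + 1 + 1 - 1))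
      have h := congrArg (Polynomial.eval (0 : ℝ)) (Lagrange.eq_interpolate hinj hdeg)
      rw [Lagrange.interpolate_apply, eval_finsetSum] at h
      rw [h]
      refine sum_congr rfl fun l hl => ?_
      rw [eval_mul, eval_C, mul_comm, Lagrange.basis, eval_prod, lw]
      congr 1
      refine prod_congr rfl fun k hk => ?_
      rw [Lagrange.basisDivisor, eval_mul, eval_C, eval_sub, eval_X, eval_C]
      simp only [hv]
      push_cast
      rw [show (l : ℝ) * s + i - (k * s + i) = ((l : ℝ) - k) * s by ring, zero_sub,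
        div_eq_inv_mul]
      ring
    have hsub : ∑ j ∈ range M, ker m s j * P.eval (j : ℝ) =
        ∑ j ∈ Ico s ((m + 2) * s), lw m s (j % s) (j / s) / s * P.eval (j : ℝ) := by
      rw [← sum_subset (s₁ := Ico s ((m + 2) * s)) (s₂ := range M)]
      · refine sum_congr rfl fun j hj => ?_
        rw [mem_Ico] at hj
        rw [ker, if_neg hs.ne', if_pos hj]
      · intro j hj; rw [mem_Ico] at hj; rw [mem_range]; omega
      · intro j _ hj
        rw [mem_Ico] at hj
        rw [ker, if_neg hs.ne', if_neg hj, zero_mul]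
    rw [hsub]
    have hb : ∑ j ∈ Ico s ((m + 2) * s), lw m s (j % s) (j / s) / s * P.eval (j : ℝ) =
        ∑ li ∈ (Icc 1 (m + 1)) ×ˢ range s,
          lw m s li.2 li.1 / s * P.eval ((li.1 * s + li.2 : ℕ) : ℝ) := by
      refine sum_nbij' (fun j => (j / s, j % s)) (fun li => li.1 * s + li.2) ?_ ?_ ?_ ?_ ?_
      · intro j hj
        rw [mem_Ico] at hj
        rw [mem_product, mem_Icc, mem_range]
        exact ⟨⟨Nat.div_pos hj.1 hs, Nat.le_of_lt_succ (Nat.div_lt_of_lt_mul (by rw [mul_comm]; exact hj.2))⟩,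
          Nat.mod_lt _ hs⟩
      · intro li hli
        rw [mem_product, mem_Icc, mem_range] at hli
        rw [mem_Ico]
        constructor
        · nlinarith [hli.1.1]
        · nlinarith [hli.1.2, hli.2]
      · intro j _
        exact Nat.div_add_mod' j s
      · intro li hli
        rw [mem_product, mem_range] at hli
        refine Prod.ext ?_ ?_
        · dsimp only
          rw [mul_comm, Nat.mul_add_div hs, Nat.div_eq_of_lt hli.2, add_zero]
        · dsimp only
          rw [mul_comm, Nat.mul_add_mod, Nat.mod_eq_of_lt hli.2]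
      · intro j _
        rw [Nat.div_add_mod']
    rw [hb, sum_product, sum_comm]
    have : ∀ i ∈ range s, ∑ l ∈ Icc 1 (m + 1), lw m s i l / s * P.eval ((l * s + i : ℕ) : ℝ) =
        P.eval 0 / s := by
      intro i hi
      rw [mem_range] at hi
      rw [← key i hi, sum_div]
      exact sum_congr rfl fun l _ => by ring
    rw [sum_congr rfl this, sum_const, card_range, nsmul_eq_mul]
    field_simp

theorem ker_sum (m s : ℕ) {M : ℕ} (hM : (m + 2) * s < M) : ∑ j ∈ range M, ker m s j = 1 := by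
  simpa using ker_exact m s 1 (by simp) hM

end Vale.Agent.P321
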