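import Vale.Agent.P321.Slip
import Vale.Agent.P321.Kernel

/-!
Moving mass between two gaps.
-/

noncomputable section

open Finset Polynomial

namespace Vale.Agent.P321

variable {σ : Type}

theorem newton_rem {a : Alg σ} (ha : nrm a ≤ 1) (m j : ℕ) :
    ∃ E : Alg σ, nrm E ≤ (j.choose (m + 1) : ℝ) ∧
      a ^ j = (∑ i ∈ range (m + 1), (j.choose i : ℝ) • (a - 1) ^ i) + (a - 1) ^ (m + 1) * E := by
  induction j with
  | zero =>
    refine ⟨0, by simp, ?_⟩
    simp [sum_range_succ', Nat.choose_zero_succ]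
  | succ j ih =>
    obtain ⟨E, hE, he⟩ := ih
    refine ⟨E * a + (j.choose m : ℝ) • 1, ?_, ?_⟩
    · refine (nrm_add _ _).trans ?_
      rw [nrm_smul, nrm_one, mul_one, Nat.abs_cast, Nat.choose_succ_succ' j m, Nat.cast_add,
        add_comm (j.choose m : ℝ)]
      exact add_le_add ((nrm_mul _ _).trans
        ((mul_le_of_le_one_right (nrm_nonneg _) ha).trans hE)) le_rfl
    · have hX : ∀ i, (a - 1) ^ i * a = (a - 1) ^ (i + 1) + (a - 1) ^ i := by
        intro i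
        rw [pow_succ, mul_sub, mul_one]; abel
      have hsum : (∑ i ∈ range (m + 1), (j.choose i : ℝ) • (a - 1) ^ i) * a =
          (∑ i ∈ range (m + 1), ((j + 1).choose i : ℝ) • (a - 1) ^ i)
            + (j.choose m : ℝ) • (a - 1) ^ (m + 1) := by
        rw [sum_mul, sum_congr rfl (fun i _ => by rw [smul_mul_assoc, hX, smul_add]), sum_add_distrib]
        rw [sum_range_succ' (fun i => ((j + 1).choose i : ℝ) • (a - 1) ^ i) m,
          sum_range_succ (fun i => (j.choose i : ℝ) • (a - 1) ^ (i + 1)) m,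
          sum_range_succ' (fun i => (j.choose i : ℝ) • (a - 1) ^ i) m]
        simp only [Nat.choose_succ_succ', Nat.cast_add, add_smul, sum_add_distrib,
          Nat.choose_zero_right]
        abel
      rw [pow_succ a j, he, add_mul, hsum, mul_add, mul_assoc, mul_smul_comm, mul_one]
      abel

theorem pow_smooth {a : Alg σ} (ha : nrm a ≤ 1) {tau : ℝ} (ht : 0 ≤ tau) (hs : Smooth a tau)
    {m G : ℕ} (hG : m + 1 ≤ G) {i : ℕ} (hi : i ≤ m + 1) :
    nrm (a ^ G * (a - 1) ^ i) ≤ Real.sqrt (2 * ((m : ℝ) + 1) * tau / G) ^ i := by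
  rcases Nat.eq_zero_or_pos i with h0 | h0
  · subst h0; simpa using nrm_pow_le_one ha G
  set q := G / i with hq
  have hq1 : 1 ≤ q := Nat.div_pos (by omega) h0
  have hqi : q * i ≤ G := Nat.div_mul_le_self _ _
  have hc : Commute (a ^ q) (a - 1) := ((Commute.refl a).sub_right (Commute.one_right a)).pow_left q
  have hfac : a ^ G * (a - 1) ^ i = a ^ (G - q * i) * (a ^ q * (a - 1)) ^ i := by
    rw [hc.mul_pow, ← pow_mul, ← mul_assoc, ← pow_add, show G - q * i + q * i = G by omega]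
  rw [hfac]
  refine (nrm_mul _ _).trans (le_trans (mul_le_of_le_one_left (nrm_nonneg _)
    (nrm_pow_le_one ha _)) ?_)
  refine (nrm_pow _ i).trans (pow_le_pow_left₀ (nrm_nonneg _) ((hs q hq1).trans ?_) i)
  apply Real.sqrt_le_sqrt
  have hG0 : (0 : ℝ) < G := by exact_mod_cast (by omega : 0 < G)
  have hq0 : (0 : ℝ) < q := by exact_mod_cast hq1
  rw [div_le_div_iff₀ hq0 hG0]
  have h1 : G ≤ 2 * (m + 1) * q := by
    have h2 : G < q * i + i := Nat.lt_div_mul_add h0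
    calc G ≤ q * i + i := h2.le
      _ ≤ q * i + q * i := by gcongr; exact Nat.le_mul_of_pos_left i hq1
      _ = 2 * i * q := by ring
      _ ≤ 2 * (m + 1) * q := by gcongr
  have h1' : (G : ℝ) ≤ 2 * ((m : ℝ) + 1) * q := by exact_mod_cast h1
  calc tau * G ≤ tau * (2 * ((m : ℝ) + 1) * q) := mul_le_mul_of_nonneg_left h1' ht
    _ = _ := by ring

/-- The polynomial interpolating binomial coefficients. -/
def chooseP (i : ℕ) : ℝ[X] := C ((i.factorial : ℝ)⁻¹) * descPochhammer ℝ i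

theorem chooseP_eval (i j : ℕ) : (chooseP i).eval (j : ℝ) = (j.choose i : ℝ) := by
  rw [chooseP, eval_mul, eval_C, Nat.cast_choose_eq_descPochhammer_div, div_eq_inv_mul]

theorem chooseP_deg (i : ℕ) : (chooseP i).natDegree ≤ i :=
  (natDegree_C_mul_le _ _).trans (le_of_eq (descPochhammer_natDegree ℝ i))

theorem exchange_gen {a : Alg σ} (ha : nrm a ≤ 1) (B : Alg σ →ₗ[ℝ] Alg σ →ₗ[ℝ] Alg σ) {β : ℝ}
    (hβ : 0 ≤ β) (hB : ∀ x y, nrm (B x y) ≤ β * (nrm x * nrm y)) (m G H M : ℕ) (w : ℕ → ℝ)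
    (t : ℝ) (hw : ∀ P : ℝ[X], P.natDegree ≤ 2 * m →
      ∑ j ∈ range M, w j * P.eval (j : ℝ) = t * P.eval 0) {δ γ : ℝ}
    (hδ : 0 ≤ δ) (hγ : γ ≤ 1) (hH : M ≤ H)
    (h1 : ∀ i ≤ m + 1, nrm (a ^ G * (a - 1) ^ i) ≤ δ ^ i)
    (h2 : ∀ i ≤ m + 1, nrm (a ^ (H - M) * (a - 1) ^ i) ≤ δ ^ i)
    (hM : (M : ℝ) * δ ≤ γ) :
    nrm ((∑ j ∈ range M, w j • B (a ^ (G + j)) (a ^ (H - j))) - t • B (a ^ G) (a ^ H))
      ≤ β * (((m : ℝ) + 2) * γ ^ (m + 1)) * ((∑ j ∈ range M, |w j|) + |t|) := by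
  set u : ℕ → Alg σ := fun i => a ^ G * (a - 1) ^ i
  set v : ℕ → Alg σ := fun i => a ^ (H - M) * (a - 1) ^ i
  have hγ0 : 0 ≤ γ := le_trans (mul_nonneg (Nat.cast_nonneg _) hδ) hM
  have happ : ∀ (c : ℕ) (x : Alg σ), (∀ i ≤ m + 1, nrm (x * (a - 1) ^ i) ≤ δ ^ i) → c ≤ M →
      ∃ R : Alg σ, x * a ^ c =
          (∑ i ∈ range (m + 1), (c.choose i : ℝ) • (x * (a - 1) ^ i)) + R ∧
        nrm R ≤ γ ^ (m + 1) ∧
        nrm (∑ i ∈ range (m + 1), (c.choose i : ℝ) • (x * (a - 1) ^ i)) ≤ (m : ℝ) + 1 := by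
    intro c x hx hc
    have hcδ : (c : ℝ) * δ ≤ γ :=
      le_trans (mul_le_mul_of_nonneg_right (by exact_mod_cast hc) hδ) hM
    have hbd : ∀ i ≤ m + 1, (c.choose i : ℝ) * δ ^ i ≤ γ ^ i := by
      intro i _
      calc (c.choose i : ℝ) * δ ^ i ≤ (c : ℝ) ^ i * δ ^ i :=
            mul_le_mul_of_nonneg_right (by exact_mod_cast Nat.choose_le_pow c i) (by positivity)
        _ = ((c : ℝ) * δ) ^ i := by rw [mul_pow]
        _ ≤ γ ^ i := pow_le_pow_left₀ (by positivity) hcδ i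
    obtain ⟨E, hE, he⟩ := newton_rem ha m c
    refine ⟨x * (a - 1) ^ (m + 1) * E, ?_, ?_, ?_⟩
    · rw [he, mul_add, mul_sum, mul_assoc]
      congr 1
      exact sum_congr rfl fun i _ => mul_smul_comm _ _ _
    · refine (nrm_mul _ _).trans ?_
      refine (mul_le_mul (hx (m + 1) le_rfl) hE (nrm_nonneg _) (by positivity)).trans ?_
      rw [mul_comm]; exact hbd (m + 1) le_rfl
    · refine (nrm_sum _ _).trans ?_
      calc ∑ i ∈ range (m + 1), nrm ((c.choose i : ℝ) • (x * (a - 1) ^ i))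
          ≤ ∑ i ∈ range (m + 1), (1 : ℝ) := by
            refine sum_le_sum fun i hi => ?_
            rw [mem_range] at hi
            rw [nrm_smul, Nat.abs_cast]
            exact (mul_le_mul_of_nonneg_left (hx i (by omega)) (Nat.cast_nonneg _)).trans
              ((hbd i (by omega)).trans (pow_le_one₀ hγ0 hγ))
        _ = _ := by simp
  let P : ℕ → Alg σ := fun j => ∑ i ∈ range (m + 1), (j.choose i : ℝ) • u i
  let P' : ℕ → Alg σ := fun j => ∑ i ∈ range (m + 1), ((M - j).choose i : ℝ) • v i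
  have hErr : ∀ j ≤ M, nrm (B (a ^ (G + j)) (a ^ (H - j)) - B (P j) (P' j)) ≤
      β * (((m : ℝ) + 2) * γ ^ (m + 1)) := by
    intro j hj
    obtain ⟨R, hR, hRn, hPn⟩ := happ j (a ^ G) h1 hj
    obtain ⟨R', hR', hR'n, hP'n⟩ := happ (M - j) (a ^ (H - M)) h2 (Nat.sub_le M j)
    rw [← pow_add] at hR
    rw [← pow_add, show H - M + (M - j) = H - j by omega] at hR'
    have e : B (a ^ (G + j)) (a ^ (H - j)) - B (P j) (P' j) =
        B R (a ^ (H - j)) + B (P j) R' := by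
      have hR1 : a ^ (G + j) = P j + R := hR
      have hR2 : a ^ (H - j) = P' j + R' := hR'
      rw [hR1, map_add, LinearMap.add_apply]
      conv_lhs => rw [hR2, map_add (B (P j)), ← hR2]
      abel
    rw [e]
    refine (nrm_add _ _).trans ((add_le_add (hB _ _) (hB _ _)).trans ?_)
    have h3 : nrm R * nrm (a ^ (H - j)) ≤ γ ^ (m + 1) :=
      (mul_le_of_le_one_right (nrm_nonneg _) (nrm_pow_le_one ha _)).trans hRn
    have h4 : nrm (P j) * nrm R' ≤ ((m : ℝ) + 1) * γ ^ (m + 1) :=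
      mul_le_mul hPn hR'n (nrm_nonneg _) (by positivity)
    calc β * (nrm R * nrm (a ^ (H - j))) + β * (nrm (P j) * nrm R')
        ≤ β * γ ^ (m + 1) + β * (((m : ℝ) + 1) * γ ^ (m + 1)) :=
          add_le_add (mul_le_mul_of_nonneg_left h3 hβ) (mul_le_mul_of_nonneg_left h4 hβ)
      _ = _ := by ring
  have hex : ∑ j ∈ range M, w j • B (P j) (P' j) = t • B (P 0) (P' 0) := by
    have hexp : ∀ j, B (P j) (P' j) = ∑ i1 ∈ range (m + 1), ∑ i2 ∈ range (m + 1),
        ((j.choose i1 : ℝ) * ((M - j).choose i2 : ℝ)) • B (u i1) (v i2) := by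
      intro j
      simp only [P, P', map_sum, map_smul, LinearMap.sum_apply, LinearMap.smul_apply, smul_sum,
        smul_smul]
      rw [sum_comm]
      exact sum_congr rfl fun i1 _ => sum_congr rfl fun i2 _ => by rw [mul_comm]
    rw [sum_congr rfl (fun j _ => by rw [hexp j]), hexp 0]
    simp only [smul_sum, smul_smul]
    rw [sum_comm]
    refine sum_congr rfl fun i1 hi1 => ?_
    rw [sum_comm]
    refine sum_congr rfl fun i2 hi2 => ?_
    rw [mem_range] at hi1 hi2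
    rw [← sum_smul]
    congr 1
    set Pp : ℝ[X] := chooseP i1 * (chooseP i2).comp (C (M : ℝ) - X) with hPp
    have hdeg : Pp.natDegree ≤ 2 * m := by
      refine natDegree_mul_le.trans ?_
      have h5 := chooseP_deg i1
      have h6 : ((chooseP i2).comp (C (M : ℝ) - X)).natDegree ≤ i2 := by
        refine natDegree_comp_le.trans ?_
        calc (chooseP i2).natDegree * (C (M : ℝ) - X).natDegree ≤ i2 * 1 := by
              refine Nat.mul_le_mul (chooseP_deg i2) ?_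
              refine (natDegree_sub_le _ _).trans ?_
              simp
          _ = i2 := by omega
      omega
    have hev : ∀ j ≤ M, Pp.eval (j : ℝ) = (j.choose i1 : ℝ) * ((M - j).choose i2 : ℝ) := by
      intro j hj
      rw [hPp, eval_mul, chooseP_eval, eval_comp, eval_sub, eval_C, eval_X, ← Nat.cast_sub hj,
        chooseP_eval]
    have h0 : Pp.eval 0 = ((0 : ℕ).choose i1 : ℝ) * ((M - 0).choose i2 : ℝ) := by
      have := hev 0 (Nat.zero_le _)
      simpa using this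
    rw [← h0, ← hw Pp hdeg]
    exact sum_congr rfl fun j hj => by rw [hev j (mem_range.mp hj).le]
  have e2 : (∑ j ∈ range M, w j • B (a ^ (G + j)) (a ^ (H - j))) - t • B (a ^ G) (a ^ H) =
      (∑ j ∈ range M, w j • (B (a ^ (G + j)) (a ^ (H - j)) - B (P j) (P' j)))
        - t • (B (a ^ (G + 0)) (a ^ (H - 0)) - B (P 0) (P' 0)) := by
    simp only [smul_sub, sum_sub_distrib, hex, add_zero, Nat.sub_zero]
    abel
  rw [e2]
  refine (nrm_sub _ _).trans ?_
  rw [mul_add, mul_sum, nrm_smul t]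
  refine add_le_add ((nrm_sum _ _).trans (sum_le_sum fun j hj => ?_)) ?_
  · rw [nrm_smul, mul_comm _ |w j|]
    exact mul_le_mul_of_nonneg_left (hErr j (mem_range.mp hj).le) (abs_nonneg _)
  · rw [mul_comm _ |t|]
    exact mul_le_mul_of_nonneg_left (hErr 0 (Nat.zero_le _)) (abs_nonneg _)

theorem exchange {a : Alg σ} (ha : nrm a ≤ 1) (B : Alg σ →ₗ[ℝ] Alg σ →ₗ[ℝ] Alg σ) {β : ℝ}
    (hβ : 0 ≤ β) (hB : ∀ x y, nrm (B x y) ≤ β * (nrm x * nrm y)) (m s G H : ℕ) {δ γ : ℝ}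
    (hδ : 0 ≤ δ) (hγ : γ ≤ 1) (hH : (2 * m + 2) * s + 1 ≤ H)
    (h1 : ∀ i ≤ m + 1, nrm (a ^ G * (a - 1) ^ i) ≤ δ ^ i)
    (h2 : ∀ i ≤ m + 1, nrm (a ^ (H - ((2 * m + 2) * s + 1)) * (a - 1) ^ i) ≤ δ ^ i)
    (hM : (((2 * m + 2) * s + 1 : ℕ) : ℝ) * δ ≤ γ) :
    nrm ((∑ j ∈ range ((2 * m + 2) * s + 1), ker (2 * m) s j • B (a ^ (G + j)) (a ^ (H - j)))
        - B (a ^ G) (a ^ H))
      ≤ β * (((m : ℝ) + 2) * γ ^ (m + 1)) * (((2 * m : ℕ) : ℝ) + 4) * Lam (2 * m) := by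
  have hγ0 : 0 ≤ γ := le_trans (mul_nonneg (Nat.cast_nonneg _) hδ) hM
  have h := exchange_gen ha B hβ hB m G H _ (ker (2 * m) s) 1
    (fun P hP => by rw [one_mul]; exact ker_exact (2 * m) s P hP (Nat.lt_succ_self _))
    hδ hγ hH h1 h2 hM
  rw [one_smul] at h
  refine h.trans ?_
  rw [mul_assoc (β * _)]
  refine mul_le_mul_of_nonneg_left ?_ (by positivity)
  rw [abs_one]
  have := ker_l1 (2 * m) s
  have := one_le_Lam (2 * m)
  linarith

end Vale.Agent.P321
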