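import Vale.Agent.P321.GainParts

/-!
The improved tilt bound for the second level.
-/

noncomputable section

open Finset

namespace Vale.Agent.P321

variable {σ : Type}

/-- Truncation error of a lattice with `n` marks. -/
def etr (m D K n : ℕ) (tau rho : ℝ) : ℝ :=
  (n : ℝ) * ((K : ℝ) + 1) * Real.sqrt (rho ^ K) + uerr m D K tau n

/-- Largest number of marks considered. -/
def kmaxG (m K : ℕ) : ℕ := 2 * K + patLen m * patLen m

/-- Number of components. -/
def compN (m K : ℕ) : ℝ := ((K : ℝ) + 1) ^ 2 * ((patLen m : ℝ) * patLen m + 1)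

/-- Squared norm bound of the difference. -/
def qDiff (m D K : ℕ) (rho Km : ℝ) (nL : ℕ) : ℝ :=
  compN m K ^ 2 * (((2 : ℝ) ^ patLen m) ^ 2 * ((kmaxG m K : ℝ) + 1) ^ 2 * Km ^ 4 * gainF D nL rho)

/-- Error of approximating the difference. -/
def eNear (m D K p ac : ℕ) (tau tau1 bad rho : ℝ) : ℝ :=
  2 * kerr m ac tau1 + (2 * ((ac : ℝ) * patLen m * bad) * 2 ^ patLen m +
    2 ^ patLen m * ((patLen m : ℝ) * ((2 * (patLen m : ℝ) * bad + kerr m p tau) + patLen m * bad)))
  + etr m D K (ac * patLen m) tau rho * 2 ^ patLen m * (2 + etr m D K (ac * patLen m) tau rho)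
  + compN m K * (2 ^ patLen m * ((((ac * patLen m : ℕ) : ℝ) + 1) ^ (2 * K)
      * 2 ^ (patLen m * patLen m)) *
    ((kmaxG m K : ℝ) * L1c m ^ (kmaxG m K + 1) * gam m D tau ^ (m + 1)))

/-- Error of approximating the word by the plain power. -/
def eRef (m D K ac : ℕ) (tau bad rho : ℝ) : ℝ :=
  (((ac + patLen m + ac) * patLen m : ℕ) : ℝ) * bad
    + etr m D K ((ac + patLen m + ac) * patLen m) tau rho
    + ((K : ℝ) + 1) * uerr m D K tau ((ac + patLen m + ac) * patLen m)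

/-- Squared norm bound of the deviation from the plain power. -/
def qRef (K : ℕ) (rho : ℝ) : ℝ := (K : ℝ) ^ 2 * ((K : ℝ) + 1) ^ 2 * rho

theorem trunc_le {a : Alg σ} (ha : IsProb a) {f : FreeMonoid σ → ℝ} {r : ℝ} (hf : IsTilt a f r)
    (hr : r ≤ 1) {tau : ℝ} (ht : 0 ≤ tau) (hs : Smooth a tau) {pe m D K c0 P J N n : ℕ}
    (hpe : 1 ≤ pe)
    (hD : 4 * (K + 1) * (2 * m + 3) ≤ D) (hg : gam m D tau ≤ 1) {U : Finset ℕ}
    (hU : Sparse U c0 P) (hP : 0 < P) (hJ : N / P ≤ J) (hn : U.card ≤ n) :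
    nrm (wd a (a + dlt a f) U N - ∑ k ∈ range (K + 1), Xk a (dlt a f) U k N) ≤
      etr m D K n tau (kap pe * r ^ 2 * Sbd m D c0 P J) := by
  refine (lattice_trunc ha hf hr ht hs hD hg hU hP hJ).trans ?_
  unfold etr
  have h0 : 0 ≤ kap 1 * r ^ 2 * Sbd m D c0 P J := by
    have := kap_pos 1; have := Sbd_nonneg m D c0 P J; positivity
  have h1 : kap 1 * r ^ 2 * Sbd m D c0 P J ≤ kap pe * r ^ 2 * Sbd m D c0 P J :=
    mul_le_mul_of_nonneg_right (mul_le_mul_of_nonneg_right (kap_mono hpe) (sq_nonneg r))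
      (Sbd_nonneg m D c0 P J)
  refine add_le_add (mul_le_mul (mul_le_mul_of_nonneg_right (by exact_mod_cast hn) (by positivity))
    (Real.sqrt_le_sqrt (pow_le_pow_left₀ h0 h1 K)) (Real.sqrt_nonneg _) (by positivity))
    (uerr_mono m D K tau hn)

theorem gain_comp {a : Alg σ} (ha : IsProb a) {f : FreeMonoid σ → ℝ} {r : ℝ}
    (hf : IsTilt a f r) (hr : r ≤ 1) {tau : ℝ} (ht : 0 ≤ tau) (hs : Smooth a tau)
    {pe m D K L P ac c0 J' kl km kr : ℕ} (hkl : kl ≤ K) (hkm : 4 ≤ km) (hkm' : km ≤ L * L)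
    (hkr : kr ≤ K) (hD : 4 * (kmaxG m K + 1) * (2 * m + 3) ≤ D) (hLm : L = patLen m)
    (hg : gam m D tau ≤ 1) (hP : 0 < P) {F M : Finset ℕ} (hF : ∀ i ∈ F, i < ac * P)
    (hFs : Sparse F c0 P) (hFc : F.card ≤ ac * L) (hM : ∀ i ∈ M, i < L * P) (hMc : M.card ≤ L * L)
    (hJ : (ac * P + L * P + ac * P) / P ≤ J') {rho Km : ℝ}
    (hrho : rho = kap pe * r ^ 2 * Sbd m D c0 P J') (hrho1 : rho ≤ 1)
    (hKm : Km = kap pe * r ^ 2 * SMid m (L * L)) (hKm1 : Km ≤ 1) {z : Alg σ}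
    (hz : Comb a (dlt a f) M (L * P) ((2 : ℝ) ^ L) (fun S => S.card = km) z) :
    ∃ c' : Alg Bool, Homog (ac * P + L * P + ac * P) c' ∧
      wsq (kap pe * r ^ 2) c' ≤
        ((2 : ℝ) ^ L) ^ 2 * ((kmaxG m K : ℝ) + 1) ^ 2 * Km ^ 4 * gainF D (ac * P) rho ∧
      nrm (Xk a (dlt a f) F kl (ac * P) * z * Xk a (dlt a f) F kr (ac * P) - psi a (dlt a f) c') ≤
        (2 : ℝ) ^ L * ((((ac * L : ℕ) : ℝ) + 1) ^ (2 * K) * 2 ^ (L * L)) *
          ((kmaxG m K : ℝ) * L1c m ^ (kmaxG m K + 1) * gam m D tau ^ (m + 1)) := by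
  have hk : kl + km + kr ≤ kmaxG m K := by unfold kmaxG; rw [← hLm]; omega
  have hKp0 : 0 ≤ kap pe * r ^ 2 := by have := kap_pos pe; positivity
  have hSMle : SMid m M.card ≤ SMid m (L * L) := by
    unfold SMid
    have := ovA_pos m
    gcongr
  have hSM0 : 0 ≤ SMid m M.card := by have := ovA_pos m; unfold SMid; positivity
  have hKM : kap pe * r ^ 2 * SMid m M.card ≤ Km := by
    rw [hKm]; exact mul_le_mul_of_nonneg_left hSMle hKp0
  obtain ⟨c', h1, h2, h3⟩ := triple_bound (p := pe) (kl := kl) (km := km) (kr := kr) (J := J')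
    (nL := ac * P) (nM := L * P) ha hf hr ht hs (le_trans (by gcongr) hD) hg hP hkm hF hFs hM hJ
    (by rw [← hrho]; exact hrho1) (hKM.trans hKm1) (by positivity) hz
  refine ⟨c', h1, h2.trans ?_, h3.trans ?_⟩
  · rw [← hrho]
    have hg0 : 0 ≤ gainF D (ac * P) rho := by
      unfold gainF
      have : 0 ≤ rho := by rw [hrho]; exact mul_nonneg hKp0 (Sbd_nonneg ..)
      positivity
    gcongr
  · rw [mul_assoc ((2 : ℝ) ^ L), mul_assoc ((2 : ℝ) ^ L)]
    refine mul_le_mul_of_nonneg_left (mul_le_mul ?_ ?_ (serr_nonneg m D _ hf.nonneg) (by positivity))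
      (by positivity)
    · refine mul_le_mul ?_ (pow_le_pow_right₀ (by norm_num) hMc) (by positivity) (by positivity)
      refine (pow_le_pow_left₀ (Nat.cast_nonneg _) ?_ _).trans (pow_le_pow_right₀ ?_ (by omega))
      · have : (F.card : ℝ) ≤ ((ac * L : ℕ) : ℝ) := by exact_mod_cast hFc
        linarith
      · have : (0 : ℝ) ≤ ((ac * L : ℕ) : ℝ) := Nat.cast_nonneg _
        linarith
    · have hL1 := one_le_L1c m
      have hr0 := hf.nonneg
      have hg0 : 0 ≤ gam m D tau := by unfold gam; positivity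
      have hrk : r ^ (kl + km + kr) ≤ 1 := pow_le_one₀ hr0 hr
      unfold serr
      calc ((kl + km + kr : ℕ) : ℝ) * L1c m ^ (kl + km + kr) *
            (r ^ (kl + km + kr) * (L1c m * gam m D tau ^ (m + 1)))
          ≤ (kmaxG m K : ℝ) * L1c m ^ kmaxG m K * (1 * (L1c m * gam m D tau ^ (m + 1))) := by
            gcongr
        _ = _ := by ring

theorem gain_cells {a b : Alg σ} (ha : IsProb a) (hb : IsProb b) {f : FreeMonoid σ → ℝ} {r : ℝ}
    (hf : IsTilt a f r) {bad : ℝ} (hbad : nrm (b - (a + dlt a f)) ≤ bad) (hr : r ≤ 1 / 2)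
    {tau : ℝ} (ht : 0 ≤ tau) (hs : Smooth a tau) {m p ac : ℕ} {tau1 : ℝ} (ht1 : 0 ≤ tau1)
    (hs1 : Smooth (cellW a b p (patLen m) (patU m)) tau1)
    (hp : 2 * (m + 2) ≤ p)
    (hγ : (patLen m : ℝ) * Real.sqrt (4 * ((m : ℝ) + 1) * tau / p) ≤ 1)
    (hac : 2 * (m + 2) ≤ ac)
    (hγ1 : (patLen m : ℝ) * Real.sqrt (4 * ((m : ℝ) + 1) * tau1 / ac) ≤ 1)
    (hd1 : 2 * (patLen m : ℝ) * bad + kerr m p tau + (4 : ℝ) ^ patLen m * r ^ 2 ≤ 1) :
    nrm (cellW (cellW a b p (patLen m) (patU m)) (cellW a b p (patLen m) (patV m)) ac (patLen m) (patV m) - cellW (cellW a b p (patLen m) (patU m)) (cellW a b p (patLen m) (patV m)) ac (patLen m) (patU m) -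
      cellW a (a + dlt a f) p (patLen m) (patU m) ^ ac *
        twoPlus (cellW a (a + dlt a f) p (patLen m) (patU m))
          (a ^ p * twoPlus a (dlt a f) (patLen m) (patU m) (patV m) * a ^ p)
          (patLen m) (patU m) (patV m) *
      cellW a (a + dlt a f) p (patLen m) (patU m) ^ ac) ≤
      2 * kerr m ac tau1 + (2 * ((ac : ℝ) * patLen m * bad) * 2 ^ patLen m +
        2 ^ patLen m * ((patLen m : ℝ) * ((2 * (patLen m : ℝ) * bad + kerr m p tau) + patLen m * bad))) ∧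
    nrm (twoPlus (cellW a (a + dlt a f) p (patLen m) (patU m))
          (a ^ p * twoPlus a (dlt a f) (patLen m) (patU m) (patV m) * a ^ p)
          (patLen m) (patU m) (patV m)) ≤ (2 : ℝ) ^ patLen m := by
  classical
  set L := patLen m with hL
  set P := p + L + p with hP
  have hLpos : 0 < L := patLen_pos m
  have hP0 : 0 < P := by omega
  have hr1 : r ≤ 1 := by linarith
  have hbad0 : 0 ≤ bad := le_trans (nrm_nonneg _) hbad
  set δ := dlt a f with hδ
  set t := a + δ with htdef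
  have htP : IsProb t := isProb_tilt ha hf hr1
  set a1 := cellW a b p L (patU m) with ha1def
  set b1 := cellW a b p L (patV m) with hb1def
  set A := cellW a t p L (patU m) with hAdef
  set Bt := cellW a t p L (patV m) with hBtdef
  set Δ := a ^ p * twoPlus a δ L (patU m) (patV m) * a ^ p with hΔdef
  have ha1 : IsProb a1 := isProb_cellW ha hb p L _
  have hb1 : IsProb b1 := isProb_cellW ha hb p L _
  have hA : IsProb A := isProb_cellW ha htP p L _
  obtain ⟨hc1, hc2⟩ := cell_core ha hf hr ht hs hp hγ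
  rw [← hL, ← hδ, ← htdef, ← hAdef, ← hBtdef, ← hΔdef] at hc1
  rw [← hL, ← hδ, ← htdef, ← hAdef, ← hΔdef] at hc2
  have hnΔ : nrm Δ ≤ (4 : ℝ) ^ L * r ^ 2 := by
    refine (nrm_of_dom hc2).trans (le_of_eq ?_)
    rw [nrm_smul, hA.nrm_eq, mul_one, abs_of_nonneg (by positivity)]
  have hcU : nrm (a1 - A) ≤ (L : ℝ) * bad := cellW_close ha.nrm_eq.le hb.nrm_eq.le htP.nrm_eq.le hbad p L _
  have hcV : nrm (b1 - Bt) ≤ (L : ℝ) * bad := cellW_close ha.nrm_eq.le hb.nrm_eq.le htP.nrm_eq.le hbad p L _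
  have hdd : nrm ((b1 - a1) - Δ) ≤ 2 * (L : ℝ) * bad + kerr m p tau := by
    have e : (b1 - a1) - Δ = (b1 - Bt) + (Bt - A - Δ) - (a1 - A) := by abel
    rw [e]
    refine (nrm_sub _ _).trans ((add_le_add (nrm_add _ _) le_rfl).trans ?_)
    linarith
  have hk0 := kerr_nonneg m p tau
  have hnΔ1 : nrm Δ ≤ 1 := by
    have : 0 ≤ 2 * (L : ℝ) * bad := by positivity
    linarith
  have hnd1 : nrm (b1 - a1) ≤ 1 := by
    have := nrm_add ((b1 - a1) - Δ) Δ
    rw [sub_add_cancel] at this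
    linarith
  -- removing single marks at the second level
  set a' := cellW a1 b1 ac L (patU m) with ha'def
  set b' := cellW a1 b1 ac L (patV m) with hb'def
  set T0 := twoPlus a1 (b1 - a1) L (patU m) (patV m) with hT0
  have hstep1 : nrm (b' - a' - a1 ^ ac * T0 * a1 ^ ac) ≤ 2 * kerr m ac tau1 := by
    have e : b' - a' - a1 ^ ac * T0 * a1 ^ ac = a1 ^ ac * (∑ u ∈ range L, sgnW (patV m) (patU m) u •
        (a1 ^ u * (b1 - a1) * a1 ^ (L - (u + 1)))) * a1 ^ ac := by
      have hpd := pattern_diff a1 (b1 - a1) (patU_lt m) (patV_lt m)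
      rw [add_sub_cancel, ← hL] at hpd
      simp only [hb'def, ha'def, cellW]
      rw [← sub_mul, ← mul_sub, hpd, mul_add, add_mul, ← hT0, add_sub_cancel_right]
    rw [e]
    refine (single_kill ha1 ht1 hs1 hac hγ1).trans ?_
    exact mul_le_mul_of_nonneg_right (le_trans hnd1 (by norm_num)) (kerr_nonneg m ac tau1)
  -- replacing the cells
  set M2 := twoPlus A Δ L (patU m) (patV m) with hM2
  have hT0n : nrm T0 ≤ (2 : ℝ) ^ L := nrm_wd_d ha1.nrm_eq.le hnd1 L _ _
  have hM2n : nrm M2 ≤ (2 : ℝ) ^ L := nrm_wd_d hA.nrm_eq.le hnΔ1 L _ _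
  have hpowc : nrm (a1 ^ ac - A ^ ac) ≤ (ac : ℝ) * L * bad := by
    have h := wd_change ha1.nrm_eq.le hb1.nrm_eq.le hA.nrm_eq.le hb1.nrm_eq.le ∅ ac
    rw [wd_empty, wd_empty] at h
    refine h.trans ?_
    simp only [sub_self, nrm_zero, mul_zero, zero_add]
    rw [mul_assoc]
    refine mul_le_mul ?_ hcU (nrm_nonneg _) (Nat.cast_nonneg _)
    exact_mod_cast (card_filter_le _ _).trans (card_range ac).le
  have hstep2 : nrm (a1 ^ ac * T0 * a1 ^ ac - A ^ ac * M2 * A ^ ac) ≤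
      2 * ((ac : ℝ) * L * bad) * 2 ^ L +
        2 ^ L * ((L : ℝ) * ((2 * (L : ℝ) * bad + kerr m p tau) + L * bad)) := by
    refine sandwich_change (nrm_pow_le_one ha1.nrm_eq.le ac) (nrm_pow_le_one hA.nrm_eq.le ac)
      hT0n hpowc ?_
    refine (twoPlus_change ha1.nrm_eq.le hA.nrm_eq.le hnd1 hnΔ1 L _ _).trans ?_
    gcongr
  exact ⟨(nrm_tri _ (a1 ^ ac * T0 * a1 ^ ac) _).trans (add_le_add hstep1 hstep2), hM2n⟩

theorem gain_main {a b : Alg σ} (ha : IsProb a) (hb : IsProb b) {f : FreeMonoid σ → ℝ} {r : ℝ}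
    (hf : IsTilt a f r) {bad : ℝ} (hbad : nrm (b - (a + dlt a f)) ≤ bad) (hr : r ≤ 1 / 2)
    {tau : ℝ} (ht : 0 ≤ tau) (hs : Smooth a tau) {m p ac D K pe : ℕ} {tau1 : ℝ} (ht1 : 0 ≤ tau1)
    (hs1 : Smooth (cellW a b p (patLen m) (patU m)) tau1)
    (hp : 2 * (m + 2) ≤ p)
    (hγ : (patLen m : ℝ) * Real.sqrt (4 * ((m : ℝ) + 1) * tau / p) ≤ 1)
    (hac : 2 * (m + 2) ≤ ac)
    (hγ1 : (patLen m : ℝ) * Real.sqrt (4 * ((m : ℝ) + 1) * tau1 / ac) ≤ 1)
    (hpe : 1 ≤ pe) (hD : 4 * (kmaxG m K + 1) * (2 * m + 3) ≤ D) (hg : gam m D tau ≤ 1)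
    {rho Km : ℝ}
    (hrho : rho = kap pe * r ^ 2 *
      Sbd m D (2 * patLen m) (p + patLen m + p) (ac + patLen m + ac)) (hrho1 : rho ≤ 1)
    (hKm : Km = kap pe * r ^ 2 * SMid m (patLen m * patLen m)) (hKm1 : Km ≤ 1)
    (hd1 : 2 * (patLen m : ℝ) * bad + kerr m p tau + (4 : ℝ) ^ patLen m * r ^ 2 ≤ 1) :
    ∃ cd : Alg Bool, Homog ((ac + patLen m + ac) * (p + patLen m + p)) cd ∧
      wsq (kap pe * r ^ 2) cd ≤ qDiff m D K rho Km (ac * (p + patLen m + p)) ∧
      nrm (cellW (cellW a b p (patLen m) (patU m)) (cellW a b p (patLen m) (patV m)) ac (patLen m) (patV m) - cellW (cellW a b p (patLen m) (patU m)) (cellW a b p (patLen m) (patV m)) ac (patLen m) (patU m)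
        - psi a (dlt a f) cd) ≤ eNear m D K p ac tau tau1 bad rho := by
  obtain ⟨hcells, hM2n⟩ := gain_cells ha hb hf hbad hr ht hs ht1 hs1 hp hγ hac hγ1 hd1
  classical
  set L := patLen m with hL
  set P := p + L + p with hP
  have hLpos : 0 < L := patLen_pos m
  have hP0 : 0 < P := by omega
  have hr1 : r ≤ 1 := by linarith
  set δ := dlt a f with hδ
  set t := a + δ with htdef
  have htP : IsProb t := isProb_tilt ha hf hr1
  set A := cellW a t p L (patU m) with hAdef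
  set Δ := a ^ p * twoPlus a δ L (patU m) (patV m) * a ^ p with hΔdef
  set M2 := twoPlus A Δ L (patU m) (patV m) with hM2
  have hA : IsProb A := isProb_cellW ha htP p L _
  -- the lattices
  set XU := cellS p (patU m) with hXU
  have hXUlt : ∀ u ∈ XU ∪ XU, u < P := by simpa using cellS_lt (patU_lt m)
  have hcard0 : (patU m).card ≤ L := by
    calc (patU m).card ≤ (range L).card := card_le_card fun v hv => mem_range.mpr (patU_lt m v hv)
      _ = L := card_range L
  set F := flat P XU XU ∅ ac with hFdef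
  have hAF : A ^ ac = wd a t F (ac * P) := by
    rw [hFdef, ← wd_flat a t hXUlt ∅ ac, wd_empty, hAdef, cellW_eq a t p L (patU_lt m)]
  have hFlt : ∀ i ∈ F, i < ac * P := fun i hi => flat_lt hXUlt hi
  have hXUc : (XU ∪ XU).card ≤ L := by rw [union_self]; exact card_image_le.trans hcard0
  have hFs : Sparse F (2 * L) P := (flat_sparse hP0 hXUlt ∅ ac).mono subset_rfl (by omega)
  have hFc : F.card ≤ ac * L := (flat_card ac).trans (Nat.mul_le_mul_left ac hXUc)
  set J' := ac + L + ac with hJ'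
  have hNP : ac * P + L * P + ac * P = J' * P := by rw [hJ']; ring
  have hDK : 4 * (K + 1) * (2 * m + 3) ≤ D := le_trans (by unfold kmaxG; gcongr; omega) hD
  set E := etr m D K (ac * L) tau rho with hE
  set L' := ∑ k ∈ range (K + 1), Xk a δ F k (ac * P) with hL'
  have htr : nrm (A ^ ac - L') ≤ E := by
    rw [hAF, hE, hrho, hL', hδ]
    refine trunc_le ha hf hr1 ht hs hpe hDK hg hFs hP0 ?_ hFc
    rw [Nat.mul_div_cancel ac hP0]; omega
  have hE0 : 0 ≤ E := le_trans (nrm_nonneg _) htr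
  have hL'n : nrm L' ≤ 1 + E := by
    have := nrm_sub (A ^ ac) (A ^ ac - L')
    rw [sub_sub_cancel, (hA.pow ac).nrm_eq] at this
    linarith
  have hstep3 : nrm (A ^ ac * M2 * A ^ ac - L' * M2 * L') ≤ E * 2 ^ L * (2 + E) := by
    have e : A ^ ac * M2 * A ^ ac - L' * M2 * L' =
        (A ^ ac - L') * M2 * A ^ ac + L' * M2 * (A ^ ac - L') := by
      simp only [sub_mul, mul_sub]; abel
    rw [e]
    refine (nrm_add _ _).trans ?_
    have h1 : nrm ((A ^ ac - L') * M2 * A ^ ac) ≤ E * 2 ^ L := by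
      refine (nrm_mul3 _ _ _).trans ?_
      rw [(hA.pow ac).nrm_eq, mul_one]
      exact mul_le_mul htr hM2n (nrm_nonneg _) hE0
    have h2 : nrm (L' * M2 * (A ^ ac - L')) ≤ (1 + E) * 2 ^ L * E := by
      refine (nrm_mul3 _ _ _).trans ?_
      exact mul_le_mul (mul_le_mul hL'n hM2n (nrm_nonneg _) (by positivity)) htr (nrm_nonneg _)
        (by positivity)
    linarith
  -- smoothed coefficients of the main part
  set X := cellS p (range L) with hX
  have hXlt : ∀ i ∈ X, i < P := cellS_lt fun v hv => mem_range.mp hv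
  set M := flat P X X ∅ L with hMdef
  have hMlt : ∀ i ∈ M, i < L * P := fun i hi => flat_lt (by simpa using hXlt) hi
  have hXc : (X ∪ X).card ≤ L := by rw [union_self]; exact card_image_le.trans (card_range L).le
  have hMc : M.card ≤ L * L := (flat_card L).trans (Nat.mul_le_mul_left L hXc)
  have hM2c : Comb a δ M (L * P) ((2 : ℝ) ^ L) (fun S => 4 ≤ S.card) M2 :=
    comb_middle hXlt
      (comb_pad (fun i hi => mem_range.mp hi) (comb_expand a δ (patU_lt m)))
      (comb_pad (fun i hi => mem_range.mp hi) (comb_twoPlus a δ L _ _)) L _ _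
  obtain ⟨Pk, hPk, hM2e⟩ := hM2c.split
  set I := range (K + 1) ×ˢ Icc 4 M.card ×ˢ range (K + 1) with hI
  have hcomp : ∀ i ∈ I, ∃ c' : Alg Bool, Homog (ac * P + L * P + ac * P) c' ∧
      wsq (kap pe * r ^ 2) c' ≤
        ((2 : ℝ) ^ L) ^ 2 * ((kmaxG m K : ℝ) + 1) ^ 2 * Km ^ 4 * gainF D (ac * P) rho ∧
      nrm (Xk a δ F i.1 (ac * P) * Pk i.2.1 * Xk a δ F i.2.2 (ac * P) - psi a δ c') ≤
        (2 : ℝ) ^ L * ((((ac * L : ℕ) : ℝ) + 1) ^ (2 * K) * 2 ^ (L * L)) *
          ((kmaxG m K : ℝ) * L1c m ^ (kmaxG m K + 1) * gam m D tau ^ (m + 1)) := by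
    rintro ⟨kl, km, kr⟩ hi
    simp only [hI, mem_product, mem_range, mem_Icc] at hi
    obtain ⟨hkl, ⟨hkm, hkm'⟩, hkr⟩ := hi
    exact gain_comp ha hf hr1 ht hs (Nat.lt_succ_iff.mp hkl) hkm (le_trans hkm' hMc)
      (Nat.lt_succ_iff.mp hkr) hD hL hg hP0 hFlt hFs hFc hMlt hMc
      (by rw [hNP, Nat.mul_div_cancel J' hP0]) hrho hrho1 hKm hKm1 (hPk km)
  choose! cc hcc1 hcc2 hcc3 using hcomp
  set cd := ∑ i ∈ I, cc i with hcd
  have hKp0 : 0 ≤ kap pe * r ^ 2 := by have := kap_pos pe; positivity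
  have hcdH : Homog (ac * P + L * P + ac * P) cd := fun w hw => by
    rw [hcd, cf_sum] at hw
    obtain ⟨i, hi, hne⟩ := exists_ne_zero_of_sum_ne_zero hw
    exact hcc1 i hi w hne
  have hIc : (I.card : ℝ) ≤ compN m K := by
    rw [hI, card_product, card_product, card_range, Nat.card_Icc, compN, ← hL]
    have : (M.card + 1 - 4 : ℕ) ≤ L * L + 1 := by omega
    calc (((K + 1) * ((M.card + 1 - 4) * (K + 1)) : ℕ) : ℝ)
        ≤ (((K + 1) * ((L * L + 1) * (K + 1)) : ℕ) : ℝ) := by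
          exact_mod_cast Nat.mul_le_mul_left _ (Nat.mul_le_mul_right _ this)
      _ = _ := by push_cast; ring
  have hrho0 : 0 ≤ rho := by rw [hrho]; exact mul_nonneg hKp0 (Sbd_nonneg ..)
  have hg0 : 0 ≤ gainF D (ac * P) rho := by unfold gainF; positivity
  have hKm0 : 0 ≤ Km := by
    rw [hKm]; have := ovA_pos m; unfold SMid; positivity
  have hQ : wsq (kap pe * r ^ 2) cd ≤ qDiff m D K rho Km (ac * P) := by
    refine (wsq_sum I cc hKp0).trans ?_
    rw [qDiff, ← hL, sq (compN m K), mul_assoc (compN m K)]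
    refine mul_le_mul hIc ?_ (sum_nonneg fun i _ => wsq_nonneg hKp0 _) ((Nat.cast_nonneg _).trans hIc)
    refine (sum_le_sum hcc2).trans ?_
    rw [sum_const, nsmul_eq_mul]
    exact mul_le_mul_of_nonneg_right hIc (by positivity)
  have hstep4 : nrm (L' * M2 * L' - psi a δ cd) ≤ compN m K *
      ((2 : ℝ) ^ L * ((((ac * L : ℕ) : ℝ) + 1) ^ (2 * K) * 2 ^ (L * L)) *
          ((kmaxG m K : ℝ) * L1c m ^ (kmaxG m K + 1) * gam m D tau ^ (m + 1))) := by
    have e : L' * M2 * L' = ∑ i ∈ I, Xk a δ F i.1 (ac * P) * Pk i.2.1 * Xk a δ F i.2.2 (ac * P) := by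
      rw [hI, sum_product]
      simp only [sum_product, hL', hM2e]
      rw [sum_mul, sum_mul]
      refine sum_congr rfl fun kl _ => ?_
      rw [mul_sum, sum_comm]
      refine sum_congr rfl fun kr _ => ?_
      rw [mul_sum, sum_mul]
    rw [e, hcd, map_sum, ← sum_sub_distrib]
    refine (nrm_sum _ _).trans ((sum_le_sum hcc3).trans ?_)
    rw [sum_const, nsmul_eq_mul]
    refine mul_le_mul_of_nonneg_right hIc ?_
    have := one_le_L1c m
    have : 0 ≤ gam m D tau := by unfold gam; positivity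
    positivity
  rw [hNP] at hcdH
  refine ⟨cd, hcdH, hQ, ?_⟩
  refine (nrm_tri _ (A ^ ac * M2 * A ^ ac) _).trans ?_
  refine (add_le_add hcells ((nrm_tri _ (L' * M2 * L') _).trans
    (add_le_add hstep3 hstep4))).trans (le_of_eq ?_)
  unfold eNear
  rw [← hE, ← hL]
  ring

theorem gain_ref {a b : Alg σ} (ha : IsProb a) (hb : IsProb b) {f : FreeMonoid σ → ℝ} {r : ℝ}
    (hf : IsTilt a f r) {bad : ℝ} (hbad : nrm (b - (a + dlt a f)) ≤ bad) (hr : r ≤ 1 / 2)
    {tau : ℝ} (ht : 0 ≤ tau) (hs : Smooth a tau) {m p ac D K pe : ℕ}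
    (hpe : 1 ≤ pe) (hD : 4 * (kmaxG m K + 1) * (2 * m + 3) ≤ D) (hg : gam m D tau ≤ 1)
    {rho : ℝ}
    (hrho : rho = kap pe * r ^ 2 *
      Sbd m D (2 * patLen m) (p + patLen m + p) (ac + patLen m + ac)) (hrho1 : rho ≤ 1) :
    ∃ cy : Alg Bool, Homog ((ac + patLen m + ac) * (p + patLen m + p)) cy ∧
      wsq (kap pe * r ^ 2) cy ≤ qRef K rho ∧
      nrm (cellW (cellW a b p (patLen m) (patU m)) (cellW a b p (patLen m) (patV m)) ac (patLen m) (patU m) -
        a ^ ((ac + patLen m + ac) * (p + patLen m + p)) - psi a (dlt a f) cy)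
        ≤ eRef m D K ac tau bad rho := by
  classical
  set L := patLen m with hL
  set P := p + L + p with hP
  have hLpos : 0 < L := patLen_pos m
  have hP0 : 0 < P := by omega
  have hr1 : r ≤ 1 := by linarith
  set δ := dlt a f with hδ
  set t := a + δ with htdef
  have htP : IsProb t := isProb_tilt ha hf hr1
  set a1 := cellW a b p L (patU m) with ha1def
  set b1 := cellW a b p L (patV m) with hb1def
  set a' := cellW a1 b1 ac L (patU m) with ha'def
  set J' := ac + L + ac with hJ'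
  set XU := cellS p (patU m) with hXU
  have hDK : 4 * (K + 1) * (2 * m + 3) ≤ D := le_trans (by unfold kmaxG; gcongr; omega) hD
  have hKp0 : 0 ≤ kap pe * r ^ 2 := by have := kap_pos pe; positivity
  have hrho0 : 0 ≤ rho := by rw [hrho]; exact mul_nonneg hKp0 (Sbd_nonneg ..)
  -- the lower bound for the base word
  set XV := cellS p (patV m) with hXV
  have hUV : ∀ u ∈ XU ∪ XV, u < P := by
    intro u hu
    rcases mem_union.mp hu with h | h
    · exact cellS_lt (patU_lt m) u h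
    · exact cellS_lt (patV_lt m) u h
  have hUVc : (XU ∪ XV).card ≤ L := by
    rw [hXU, hXV, cellS, cellS, ← image_union]
    refine card_image_le.trans ((card_le_card fun v hv => ?_).trans (card_range L).le)
    rcases mem_union.mp hv with h | h
    · exact mem_range.mpr (patU_lt m v h)
    · exact mem_range.mpr (patV_lt m v h)
  set G := flat P XU XV (cellS ac (patU m)) J' with hG
  have hGs : Sparse G (2 * L) P := (flat_sparse hP0 hUV _ J').mono subset_rfl (by omega)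
  have hGc : G.card ≤ J' * L := (flat_card J').trans (Nat.mul_le_mul_left J' hUVc)
  have ha'e : a' = wd a b G (J' * P) := by
    rw [ha'def, cellW_eq a1 b1 ac L (patU_lt m), ha1def, hb1def, cellW_eq a b p L (patU_lt m),
      cellW_eq a b p L (patV_lt m), wd_flat a b hUV]
  set Y := ∑ k ∈ range K, Xk a δ G (k + 1) (J' * P) with hY
  have hYc : ∀ k ∈ range K, ∃ c' : Alg Bool, Homog (J' * P) c' ∧
      wsq (kap pe * r ^ 2) c' ≤ ((K : ℝ) + 1) ^ 2 * rho ∧
      nrm (Xk a δ G (k + 1) (J' * P) - psi a δ c') ≤ uerr m D K tau (J' * L) := by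
    intro k hk
    rw [mem_range] at hk
    obtain ⟨c', h1, h2, h3⟩ := Xk_coef (p := pe) (k := k + 1) (n := J' * P) ha hf ht hs
      (le_trans (by gcongr; omega) hDK) hg hGs hP0 (le_of_eq (Nat.mul_div_cancel J' hP0))
    refine ⟨c', h1, h2.trans ?_, h3.trans ?_⟩
    · rw [← hrho]
      refine mul_le_mul ?_ (pow_le_of_le_one hrho0 hrho1 (by omega)) (by positivity) (by positivity)
      gcongr
      exact_mod_cast hk
    · refine (serr_le_uerr hf.nonneg hr1 (show k + 1 ≤ K by omega)).trans ?_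
      refine le_trans ?_ (uerr_mono m D K tau hGc)
      have hL1 := one_le_L1c m
      have : 0 ≤ gam m D tau := by unfold gam; positivity
      unfold uerr
      have h0 : (0 : ℝ) ≤ G.card := Nat.cast_nonneg _
      have hK0 : (0 : ℝ) ≤ K := Nat.cast_nonneg _
      gcongr ?_ * ?_ * _ * _
      · nlinarith
      · exact pow_le_pow_right₀ (by linarith) (Nat.le_succ K)
  choose! cy hy1 hy2 hy3 using hYc
  set cyS := ∑ k ∈ range K, cy k with hcyS
  have hcyH : Homog (J' * P) cyS := fun w hw => by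
    rw [hcyS, cf_sum] at hw
    obtain ⟨i, hi, hne⟩ := exists_ne_zero_of_sum_ne_zero hw
    exact hy1 i hi w hne
  have hQy : wsq (kap pe * r ^ 2) cyS ≤ qRef K rho := by
    refine (wsq_sum _ cy hKp0).trans ?_
    refine (mul_le_mul_of_nonneg_left (sum_le_sum hy2) (Nat.cast_nonneg _)).trans (le_of_eq ?_)
    rw [sum_const, card_range, nsmul_eq_mul, qRef]; ring
  have hey : nrm (a' - a ^ (J' * P) - psi a δ cyS) ≤ eRef m D K ac tau bad rho := by
    have h1 : nrm (a' - wd a t G (J' * P)) ≤ ((J' * L : ℕ) : ℝ) * bad := by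
      rw [ha'e]
      refine (wd_change ha.nrm_eq.le hb.nrm_eq.le ha.nrm_eq.le htP.nrm_eq.le G _).trans ?_
      simp only [sub_self, nrm_zero, mul_zero, add_zero]
      refine mul_le_mul ?_ hbad (nrm_nonneg _) (Nat.cast_nonneg _)
      exact_mod_cast (card_le_card fun i hi => (mem_filter.mp hi).2).trans hGc
    have h2 : nrm (wd a t G (J' * P) - ∑ k ∈ range (K + 1), Xk a δ G k (J' * P)) ≤
        etr m D K (J' * L) tau rho := by
      rw [hrho, htdef, hδ]
      exact trunc_le ha hf hr1 ht hs hpe hDK hg hGs hP0 (le_of_eq (Nat.mul_div_cancel J' hP0)) hGc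
    have h3 : nrm (Y - psi a δ cyS) ≤ ((K : ℝ) + 1) * uerr m D K tau (J' * L) := by
      rw [hY, hcyS, map_sum, ← sum_sub_distrib]
      refine (nrm_sum _ _).trans ((sum_le_sum hy3).trans ?_)
      rw [sum_const, card_range, nsmul_eq_mul]
      refine mul_le_mul_of_nonneg_right (by linarith) ?_
      have := one_le_L1c m
      have : 0 ≤ gam m D tau := by unfold gam; positivity
      unfold uerr; positivity
    have e : a' - a ^ (J' * P) - psi a δ cyS = (a' - wd a t G (J' * P)) +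
        (wd a t G (J' * P) - ∑ k ∈ range (K + 1), Xk a δ G k (J' * P)) + (Y - psi a δ cyS) := by
      rw [sum_range_succ', Xk_zero, ← hY]; abel
    rw [e]
    refine (nrm_add _ _).trans ((add_le_add (nrm_add _ _) le_rfl).trans ?_)
    unfold eRef
    rw [← hL, ← hJ']
    linarith
  exact ⟨cyS, hcyH, hQy, hey⟩

theorem gain {a b : Alg σ} (ha : IsProb a) (hb : IsProb b) {f : FreeMonoid σ → ℝ} {r : ℝ}
    (hf : IsTilt a f r) {bad : ℝ} (hbad : nrm (b - (a + dlt a f)) ≤ bad) (hr : r ≤ 1 / 2)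
    {tau : ℝ} (ht : 0 ≤ tau) (hs : Smooth a tau) {m p ac D K pe : ℕ} {tau1 : ℝ} (ht1 : 0 ≤ tau1)
    (hs1 : Smooth (cellW a b p (patLen m) (patU m)) tau1)
    (hp : 2 * (m + 2) ≤ p)
    (hγ : (patLen m : ℝ) * Real.sqrt (4 * ((m : ℝ) + 1) * tau / p) ≤ 1)
    (hac : 2 * (m + 2) ≤ ac)
    (hγ1 : (patLen m : ℝ) * Real.sqrt (4 * ((m : ℝ) + 1) * tau1 / ac) ≤ 1)
    (hpe : 1 ≤ pe) (hD : 4 * (kmaxG m K + 1) * (2 * m + 3) ≤ D) (hg : gam m D tau ≤ 1)
    {rho Km : ℝ}
    (hrho : rho = kap pe * r ^ 2 *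
      Sbd m D (2 * patLen m) (p + patLen m + p) (ac + patLen m + ac)) (hrho1 : rho ≤ 1)
    (hKm : Km = kap pe * r ^ 2 * SMid m (patLen m * patLen m)) (hKm1 : Km ≤ 1)
    (hd1 : 2 * (patLen m : ℝ) * bad + kerr m p tau + (4 : ℝ) ^ patLen m * r ^ 2 ≤ 1)
    {eps : ℝ} (he : 0 < eps) :
    ∃ f', IsTilt (cellW (cellW a b p (patLen m) (patU m)) (cellW a b p (patLen m) (patV m))
        ac (patLen m) (patU m)) f' (2 * (2 * eps)) ∧
      nrm (cellW (cellW a b p (patLen m) (patU m)) (cellW a b p (patLen m) (patV m))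
          ac (patLen m) (patV m) -
        (cellW (cellW a b p (patLen m) (patU m)) (cellW a b p (patLen m) (patV m))
          ac (patLen m) (patU m) +
          dlt (cellW (cellW a b p (patLen m) (patU m)) (cellW a b p (patLen m) (patV m))
            ac (patLen m) (patU m)) f'))
      ≤ 2 * (eNear m D K p ac tau tau1 bad rho +
        (qDiff m D K rho Km (ac * (p + patLen m + p)) ^ pe / eps ^ (2 * pe - 1) +
          2 * eps * (qRef K rho ^ pe / (1 / 2) ^ (2 * pe - 1) + eRef m D K ac tau bad rho))) := by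
  obtain ⟨cd, hcdH, hQ, hmain⟩ := gain_main ha hb hf hbad hr ht hs ht1 hs1 hp hγ hac hγ1 hpe hD hg
    hrho hrho1 hKm hKm1 hd1
  obtain ⟨cyS, hcyH, hQy, hey⟩ := gain_ref (ac := ac) (p := p) (K := K) ha hb hf hbad hr ht hs hpe
    hD hg hrho hrho1
  classical
  set L := patLen m with hL
  set P := p + L + p with hP
  have hLpos : 0 < L := patLen_pos m
  have hP0 : 0 < P := by omega
  have hr1 : r ≤ 1 := by linarith
  set δ := dlt a f with hδ
  set t := a + δ with htdef
  have htP : IsProb t := isProb_tilt ha hf hr1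
  set a1 := cellW a b p L (patU m) with ha1def
  set b1 := cellW a b p L (patV m) with hb1def
  set a' := cellW a1 b1 ac L (patU m) with ha'def
  set J' := ac + L + ac with hJ'
  have hKp0 : 0 ≤ kap pe * r ^ 2 := by have := kap_pos pe; positivity
  have hm1 := (moment_bound ha (fun w _ => hf.1 w) hf.2 (cf_dlt a f) hpe _ cd hcdH).mono
    (wsq_nonneg hKp0 _) hQ
  have hm2 := (moment_bound ha (fun w _ => hf.1 w) hf.2 (cf_dlt a f) hpe _ cyS hcyH).mono
    (wsq_nonneg hKp0 _) hQy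
  have hPN := ha.pow (J' * P)
  have ha1 : IsProb a1 := isProb_cellW ha hb p L _
  have hb1 : IsProb b1 := isProb_cellW ha hb p L _
  have ha' : IsProb a' := isProb_cellW ha1 hb1 ac L _
  have hb' := isProb_cellW ha1 hb1 ac L (patV m)
  refine clip_tilt ha' hb' (by positivity) hmain fun S => ?_
  have hpt : ∀ w, max (|cf (psi a δ cd) w| - 2 * eps * cf a' w) 0 ≤
      max (|cf (psi a δ cd) w| - eps * cf (a ^ (J' * P)) w) 0 +
        2 * eps * (max (|cf (psi a δ cyS) w| - (1 / 2) * cf (a ^ (J' * P)) w) 0 +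
          |cf (a' - a ^ (J' * P) - psi a δ cyS) w|) := by
    intro w
    rw [cf_sub (a' - a ^ (J' * P)), cf_sub a']
    have h1 := le_max_left (|cf (psi a δ cyS) w| - (1 / 2) * cf (a ^ (J' * P)) w) 0
    have h1' := le_max_right (|cf (psi a δ cyS) w| - (1 / 2) * cf (a ^ (J' * P)) w) 0
    have h2 := le_max_left (|cf (psi a δ cd) w| - eps * cf (a ^ (J' * P)) w) 0
    have h2' := le_max_right (|cf (psi a δ cd) w| - eps * cf (a ^ (J' * P)) w) 0
    have h3 := neg_abs_le (cf a' w - cf (a ^ (J' * P)) w - cf (psi a δ cyS) w)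
    have h3' := abs_nonneg (cf a' w - cf (a ^ (J' * P)) w - cf (psi a δ cyS) w)
    have h4 := neg_abs_le (cf (psi a δ cyS) w)
    refine max_le ?_ (add_nonneg h2' (mul_nonneg (by positivity) (add_nonneg h1' h3')))
    have : (1 / 2) * cf (a ^ (J' * P)) w - cf a' w ≤
        max (|cf (psi a δ cyS) w| - (1 / 2) * cf (a ^ (J' * P)) w) 0 +
          |cf a' w - cf (a ^ (J' * P)) w - cf (psi a δ cyS) w| := by linarith
    have := mul_le_mul_of_nonneg_left this (show (0 : ℝ) ≤ 2 * eps by positivity)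
    linarith
  refine (sum_le_sum fun w _ => hpt w).trans ?_
  rw [sum_add_distrib, ← mul_sum, sum_add_distrib]
  refine add_le_add (hm1.tail hPN.1 hpe he S) (mul_le_mul_of_nonneg_left ?_ (by positivity))
  exact add_le_add (hm2.tail hPN.1 hpe (by norm_num) S) ((sum_abs_le_nrm _ S).trans hey)

end Vale.Agent.P321
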