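import Vale.Agent.P321.Triple

/-!
Auxiliary facts for the improved tilt bound.
-/

noncomputable section

open Finset

namespace Vale.Agent.P321

variable {σ : Type}

theorem Sparse.mono {X Y : Finset ℕ} {c c' P : ℕ} (h : Sparse X c P) (hYX : Y ⊆ X) (hc : c ≤ c') :
    Sparse Y c' P := fun x L =>
  le_trans (le_trans (card_le_card (filter_subset_filter _ hYX)) (h x L)) (Nat.mul_le_mul_right _ hc)

theorem kap_mono {p : ℕ} (hp : 1 ≤ p) : kap 1 ≤ kap p := by
  unfold kap
  exact mul_le_mul_of_nonneg_left (pow_le_pow_right₀ (by norm_num) hp) (by norm_num)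

theorem nrm_of_dom {z y : Alg σ} (h : Dom z y) : nrm z ≤ nrm y := by
  classical
  rw [nrm_eq z (S := supp z ∪ supp y) subset_union_left, nrm_eq y (S := supp z ∪ supp y) subset_union_right]
  exact sum_le_sum fun w _ => (h w).trans (le_abs_self _)

theorem pad_glue (p : ℕ) (U : Finset ℕ) (N : ℕ) :
    glue (p + N) (glue p ∅ U) ∅ = cellS p U := by
  simp [glue, cellS]

theorem comb_pow (a d : Alg σ) (n : ℕ) : Comb a d ∅ n 1 (fun S => 0 ≤ S.card) (a ^ n) := by
  classical
  refine ⟨fun S => if S = ∅ then 1 else 0, fun S => ?_, fun S _ => Nat.zero_le _, ?_⟩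
  · dsimp only; split <;> simp
  · simp [wd_empty]

theorem comb_pad {a d : Alg σ} {U : Finset ℕ} {L p k0 : ℕ} {z : Alg σ} (hU : ∀ i ∈ U, i < L)
    (h : Comb a d U L 1 (fun S => k0 ≤ S.card) z) :
    Comb a d (cellS p U) (p + L + p) 1 (fun S => k0 ≤ S.card) (a ^ p * z * a ^ p) := by
  have h1 := (comb_pow a d p).mul (by simp) h
  have hlt : ∀ i ∈ glue p ∅ U, i < p + L := by
    intro i hi
    simp only [glue, mem_union, mem_image, notMem_empty, false_or] at hi
    obtain ⟨v, hv, rfl⟩ := hi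
    have := hU v hv; omega
  have h2 := h1.mul hlt (comb_pow a d p)
  rw [pad_glue] at h2
  refine h2.mono (le_of_eq (by ring)) fun S hS => ?_
  rw [card_lo_dn (p + L) S, card_lo_dn p (lo (p + L) S)]
  have := hS.1.2
  omega

theorem comb_expand (a d : Alg σ) {L : ℕ} {U : Finset ℕ} (hU : ∀ v ∈ U, v < L) :
    Comb a d (range L) L 1 (fun S => 0 ≤ S.card) (wd a (a + d) U L) := by
  refine ⟨fun S => if S ⊆ U then 1 else 0, fun S => ?_, fun S _ => Nat.zero_le _, expand_ind a d hU⟩
  dsimp only; split <;> simp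

theorem comb_twoPlus (a d : Alg σ) (L : ℕ) (U V : Finset ℕ) :
    Comb a d (range L) L 1 (fun S => 2 ≤ S.card) (twoPlus a d L U V) := by
  refine ⟨fun S => if 2 ≤ S.card then diffC U V S else 0, fun S => ?_, fun S hS => ?_, ?_⟩
  · dsimp only; split
    · exact abs_diffC U V S
    · simp
  · by_contra h; simp [h] at hS
  · rw [twoPlus, sum_filter]
    refine sum_congr rfl fun S _ => ?_
    by_cases h : 2 ≤ S.card <;> simp [h]

theorem comb_word {a d A B : Alg σ} {X : Finset ℕ} {P : ℕ} (hX : ∀ i ∈ X, i < P)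
    (hA : Comb a d X P 1 (fun S => 0 ≤ S.card) A) (hB : Comb a d X P 1 (fun S => 2 ≤ S.card) B)
    (S : Finset ℕ) : ∀ n : ℕ,
    Comb a d (flat P X X ∅ n) (n * P) 1
      (fun T => 2 * ((range n).filter (fun i => i ∈ S)).card ≤ T.card) (wd A B S n)
  | 0 => by
    simp only [flat, zero_mul, wd_zero]
    have := comb_pow a d 0
    simpa using this
  | n + 1 => by
    have hlt : ∀ i ∈ flat P X X ∅ n, i < n * P := fun i hi => flat_lt (by simpa using hX) hi
    have ih := comb_word hX hA hB S n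
    rw [wd_succ, add_mul, one_mul, range_add_one, filter_insert]
    have hfl : flat P X X ∅ (n + 1) = glue (n * P) (flat P X X ∅ n) X := by simp [flat]
    rw [hfl]
    by_cases h : n ∈ S
    · rw [if_pos h, if_pos h, card_insert_of_notMem (by simp)]
      refine (ih.mul hlt hB).mono (le_of_eq (by ring)) fun T hT => ?_
      rw [card_lo_dn (n * P) T]
      have := hT.1; have := hT.2; omega
    · rw [if_neg h, if_neg h]
      refine (ih.mul hlt hA).mono (le_of_eq (by ring)) fun T hT => ?_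
      rw [card_lo_dn (n * P) T]
      have := hT.1; omega

theorem comb_middle {a d A B : Alg σ} {X : Finset ℕ} {P : ℕ} (hX : ∀ i ∈ X, i < P)
    (hA : Comb a d X P 1 (fun S => 0 ≤ S.card) A) (hB : Comb a d X P 1 (fun S => 2 ≤ S.card) B)
    (L : ℕ) (U V : Finset ℕ) :
    Comb a d (flat P X X ∅ L) (L * P) ((2 : ℝ) ^ L) (fun T => 4 ≤ T.card) (twoPlus A B L U V) := by
  rw [twoPlus]
  refine (Comb.sum ((range L).powerset.filter fun S => 2 ≤ S.card) (C := fun _ => (1 : ℝ))
    fun S hS => ?_).mono ?_ fun T hT => hT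
  · rw [mem_filter, mem_powerset] at hS
    have hc : ((range L).filter fun i => i ∈ S).card = S.card := by
      congr 1; ext i; simp only [mem_filter]; exact ⟨fun h => h.2, fun h => ⟨hS.1 h, h⟩⟩
    refine ((comb_word hX hA hB S L).smul (diffC U V S)).mono ?_ fun T hT => ?_
    · rw [mul_one]; exact abs_diffC U V S
    · rw [hc] at hT; omega
  · rw [sum_const, nsmul_eq_mul, mul_one]
    calc (((range L).powerset.filter fun S => 2 ≤ S.card).card : ℝ) ≤ ((2 ^ L : ℕ) : ℝ) := by
          exact_mod_cast (card_filter_le _ _).trans (by rw [card_powerset, card_range])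
      _ = _ := by push_cast; rfl

theorem nrm_wd_d {A B : Alg σ} (hA : nrm A ≤ 1) (hB : nrm B ≤ 1) (L : ℕ) (U V : Finset ℕ) :
    nrm (twoPlus A B L U V) ≤ (2 : ℝ) ^ L := by
  rw [twoPlus]
  refine (nrm_sum _ _).trans ((sum_le_sum (g := fun _ => (1 : ℝ)) fun S _ => ?_).trans ?_)
  · rw [nrm_smul]
    exact mul_le_one₀ (abs_diffC U V S) (nrm_nonneg _) (nrm_wd_le hA hB S L)
  · rw [sum_const, nsmul_eq_mul, mul_one]
    calc (((range L).powerset.filter fun S => 2 ≤ S.card).card : ℝ) ≤ ((2 ^ L : ℕ) : ℝ) := by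
          exact_mod_cast (card_filter_le _ _).trans (by rw [card_powerset, card_range])
      _ = _ := by push_cast; rfl

theorem twoPlus_change {A A' B B' : Alg σ} (hA : nrm A ≤ 1) (hA' : nrm A' ≤ 1) (hB : nrm B ≤ 1)
    (hB' : nrm B' ≤ 1) (L : ℕ) (U V : Finset ℕ) :
    nrm (twoPlus A B L U V - twoPlus A' B' L U V) ≤
      (2 : ℝ) ^ L * ((L : ℝ) * (nrm (B - B') + nrm (A - A'))) := by
  rw [twoPlus, twoPlus, ← sum_sub_distrib]
  refine (nrm_sum _ _).trans
    ((sum_le_sum (g := fun _ => (L : ℝ) * (nrm (B - B') + nrm (A - A'))) fun S _ => ?_).trans ?_)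
  · rw [← smul_sub, nrm_smul]
    refine (mul_le_of_le_one_left (nrm_nonneg _) (abs_diffC U V S)).trans ?_
    refine (wd_change hA hB hA' hB' S L).trans ?_
    rw [mul_add]
    refine add_le_add (mul_le_mul_of_nonneg_right ?_ (nrm_nonneg _))
      (mul_le_mul_of_nonneg_right ?_ (nrm_nonneg _))
    all_goals exact_mod_cast (card_filter_le _ _).trans (card_range L).le
  · rw [sum_const, nsmul_eq_mul]
    refine mul_le_mul_of_nonneg_right ?_
      (mul_nonneg (Nat.cast_nonneg _) (add_nonneg (nrm_nonneg _) (nrm_nonneg _)))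
    calc (((range L).powerset.filter fun S => 2 ≤ S.card).card : ℝ) ≤ ((2 ^ L : ℕ) : ℝ) := by
          exact_mod_cast (card_filter_le _ _).trans (by rw [card_powerset, card_range])
      _ = _ := by push_cast; rfl

theorem sandwich_change {A A' M M' : Alg σ} (hA : nrm A ≤ 1) (hA' : nrm A' ≤ 1) {B e eM : ℝ}
    (hM : nrm M ≤ B) (he : nrm (A - A') ≤ e) (heM : nrm (M - M') ≤ eM) :
    nrm (A * M * A - A' * M' * A') ≤ 2 * e * B + eM := by
  have e1 : A * M * A - A' * M' * A' =
      (A - A') * M * A + A' * M * (A - A') + A' * (M - M') * A' := by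
    simp only [sub_mul, mul_sub]; abel
  rw [e1]
  have he0 : 0 ≤ e := le_trans (nrm_nonneg _) he
  refine (nrm_add _ _).trans ((add_le_add (nrm_add _ _) le_rfl).trans ?_)
  have h1 : nrm ((A - A') * M * A) ≤ e * B := by
    refine (nrm_mul3 _ _ _).trans ?_
    calc nrm (A - A') * nrm M * nrm A ≤ nrm (A - A') * nrm M * 1 :=
          mul_le_mul_of_nonneg_left hA (mul_nonneg (nrm_nonneg _) (nrm_nonneg _))
      _ ≤ e * B := by rw [mul_one]; exact mul_le_mul he hM (nrm_nonneg _) he0
  have h2 : nrm (A' * M * (A - A')) ≤ e * B := by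
    refine (nrm_mul3 _ _ _).trans ?_
    calc nrm A' * nrm M * nrm (A - A') ≤ 1 * nrm M * nrm (A - A') :=
          mul_le_mul_of_nonneg_right (mul_le_mul_of_nonneg_right hA' (nrm_nonneg _)) (nrm_nonneg _)
      _ ≤ e * B := by
          rw [one_mul, mul_comm]; exact mul_le_mul he hM (nrm_nonneg _) he0
  have h3 : nrm (A' * (M - M') * A') ≤ eM := by
    refine (nrm_mul3 _ _ _).trans ?_
    calc nrm A' * nrm (M - M') * nrm A' ≤ 1 * nrm (M - M') * 1 :=
          mul_le_mul (mul_le_mul_of_nonneg_right hA' (nrm_nonneg _)) hA' (nrm_nonneg _)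
            (mul_nonneg zero_le_one (nrm_nonneg _))
      _ ≤ eM := by simpa using heM
  linarith

end Vale.Agent.P321
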