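import Vale.Agent.P321.GapSum

/-!
Square norms of smoothed coefficient vectors.
-/

noncomputable section

open Finset

namespace Vale.Agent.P321

variable {σ : Type}

theorem exists_sink {k : ℕ} (G : Fin (k + 1) → ℕ) : ∃ s, ∀ l, G l ≤ G s := by
  obtain ⟨s, -, hs⟩ := exists_max_image (univ : Finset (Fin (k + 1))) G univ_nonempty
  exact ⟨s, fun l => hs l (mem_univ l)⟩

/-- The largest gap. -/
def sinkOf {k : ℕ} (G : Fin (k + 1) → ℕ) : Fin (k + 1) := Classical.choose (exists_sink G)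

theorem le_sinkOf {k : ℕ} (G : Fin (k + 1) → ℕ) (l : Fin (k + 1)) : G l ≤ G (sinkOf G) :=
  Classical.choose_spec (exists_sink G) l

open scoped Classical in
/-- The smoothed coefficient vector with sink `s`. -/
def smC (m D k : ℕ) {ι : Type*} (T : Finset ι) (G : ι → Fin (k + 1) → ℕ) (c : ι → ℝ)
    (s : Fin (k + 1)) : Alg Bool :=
  ∑ i ∈ T.filter (fun i => sinkOf (G i) = s), ∑ J ∈ shiftSet m D (G i) (univ.erase s),
    pt (gw k (shf (G i) s J)) (c i * shiftWgt m D (G i) (univ.erase s) J)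

theorem shift_total {m D k : ℕ} (hD : 4 * (k + 1) * (2 * m + 3) ≤ D) (G : Fin (k + 1) → ℕ)
    {J : Fin (k + 1) → ℕ} (hJ : J ∈ shiftSet m D G (univ.erase (sinkOf G))) :
    J (sinkOf G) = 0 ∧ (∑ l, J l) ≤ G (sinkOf G) := by
  classical
  set s := sinkOf G with hs
  have hJ' := Fintype.mem_piFinset.mp hJ
  have h2 : J s = 0 := by simpa using hJ' s
  refine ⟨h2, ?_⟩
  have hJl : ∀ l, J l ≤ (2 * m + 2) * wid D (G s) := by
    intro l
    rcases eq_or_ne l s with h | h
    · subst h; omega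
    · have := hJ' l
      simp only [mem_erase, ne_eq, h, not_false_eq_true, mem_univ, and_self, if_true, mem_range] at this
      have hw := Nat.mul_le_mul_left (2 * m + 2) (wid_mono D (le_sinkOf G l))
      unfold rng at this
      rw [← hs] at hw
      omega
  calc ∑ l, J l ≤ ∑ _l : Fin (k + 1), (2 * m + 2) * wid D (G s) := sum_le_sum fun l _ => hJl l
    _ = wid D (G s) * ((k + 1) * (2 * m + 2)) := by simp; ring
    _ ≤ wid D (G s) * D := Nat.mul_le_mul_left _ (by nlinarith)
    _ ≤ G s := wid_mul_le D (G s)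

theorem smC_props {m D k N : ℕ} (hD : 4 * (k + 1) * (2 * m + 3) ≤ D) {ι : Type*} (T : Finset ι)
    (G : ι → Fin (k + 1) → ℕ) (c : ι → ℝ) (hN : ∀ i ∈ T, (∑ l, G i l) + k = N) (s : Fin (k + 1))
    (w : FreeMonoid Bool) (hw : cf (smC m D k T G c s) w ≠ 0) : len w = N ∧ cnt w = k := by
  classical
  rw [smC, cf_sum] at hw
  obtain ⟨i, hi, hi'⟩ := exists_ne_zero_of_sum_ne_zero hw
  rw [cf_sum] at hi'
  obtain ⟨J, hJ, hJ'⟩ := exists_ne_zero_of_sum_ne_zero hi'
  rw [cf_pt] at hJ'
  split at hJ'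
  · rename_i h
    subst h
    rw [mem_filter] at hi
    obtain ⟨hiT, hsink⟩ := hi
    subst hsink
    obtain ⟨h0, hle⟩ := shift_total hD (G i) hJ
    refine ⟨?_, gw_cnt k _⟩
    rw [gw_len, shf, sum_update_of_mem (mem_univ _), sdiff_singleton_eq_erase, sum_add_distrib,
      sum_erase _ h0]
    have := add_sum_erase univ (G i) (mem_univ (sinkOf (G i)))
    have := hN i hiT
    omega
  · exact absurd rfl hJ'

theorem sq_sum_pt {ι : Type*} (T : Finset ι) (wd : ι → FreeMonoid Bool) (x : ι → ℝ)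
    (S : Finset (FreeMonoid Bool)) :
    ∑ w ∈ S, cf (∑ i ∈ T, pt (wd i) (x i)) w ^ 2 ≤
      ∑ i ∈ T, ∑ i' ∈ T, @ite ℝ (wd i = wd i') (Classical.dec _) (|x i| * |x i'|) 0 := by
  classical
  have h : ∀ w ∈ S, cf (∑ i ∈ T, pt (wd i) (x i)) w ^ 2 ≤
      ∑ i ∈ T, ∑ i' ∈ T, if wd i = w ∧ wd i' = w then |x i| * |x i'| else 0 := by
    intro w _
    rw [cf_sum, sq, sum_mul_sum]
    refine sum_le_sum fun i _ => sum_le_sum fun i' _ => ?_
    rw [cf_pt, cf_pt]
    by_cases h1 : wd i = w <;> by_cases h2 : wd i' = w <;> simp [h1, h2]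
    rw [← abs_mul]; exact le_abs_self _
  refine (sum_le_sum h).trans ?_
  rw [sum_comm]
  refine sum_le_sum fun i _ => ?_
  rw [sum_comm]
  refine sum_le_sum fun i' _ => ?_
  by_cases he : wd i = wd i'
  · rw [if_pos he]
    have : ∀ w, (if wd i = w ∧ wd i' = w then |x i| * |x i'| else 0) =
        if wd i = w then |x i| * |x i'| else 0 := by
      intro w; congr 1; rw [← he]; simp
    rw [sum_congr rfl (fun w _ => this w), sum_ite_eq]
    split <;> simp [mul_nonneg]
  · rw [if_neg he]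
    refine le_of_eq (sum_eq_zero fun w _ => ?_)
    rw [if_neg]
    rintro ⟨a, b⟩
    exact he (a.trans b.symm)

theorem wsq_smC {m D k N : ℕ} (hD : 4 * (k + 1) * (2 * m + 3) ≤ D) {ι : Type*} (T : Finset ι)
    (G : ι → Fin (k + 1) → ℕ) (c : ι → ℝ) (hc : ∀ i ∈ T, |c i| ≤ 1)
    (hN : ∀ i ∈ T, (∑ l, G i l) + k = N) (s : Fin (k + 1)) {K : ℝ} (hK : 0 ≤ K) :
    wsq K (smC m D k T G c s) ≤ K ^ k *
      ∑ i ∈ T.filter (fun i => sinkOf (G i) = s), ∑ i' ∈ T.filter (fun i => sinkOf (G i) = s),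
        ∏ l ∈ univ.erase s, ov m D (G i l) (G i' l) := by
  classical
  set A := univ.erase s with hA
  set Ts := T.filter (fun i => sinkOf (G i) = s) with hTs
  have e : wsq K (smC m D k T G c s) =
      K ^ k * ∑ w ∈ supp (smC m D k T G c s), cf (smC m D k T G c s) w ^ 2 := by
    rw [wsq, mul_sum]
    exact sum_congr rfl fun w hw => by rw [(smC_props hD T G c hN s w (mem_supp.mp hw)).2]
  rw [e]
  refine mul_le_mul_of_nonneg_left ?_ (by positivity)
  have e2 : smC m D k T G c s = ∑ p ∈ Ts.sigma (fun i => shiftSet m D (G i) A),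
      pt (gw k (shf (G p.1) s p.2)) (c p.1 * shiftWgt m D (G p.1) A p.2) := by
    rw [sum_sigma]; rfl
  generalize hS : supp (smC m D k T G c s) = S
  rw [e2]
  refine (sq_sum_pt _ _ _ S).trans ?_
  rw [sum_sigma]
  refine sum_le_sum fun i hi => ?_
  simp only [sum_sigma]
  rw [sum_comm]
  refine sum_le_sum fun i' hi' => ?_
  have hti := (mem_filter.mp hi).1
  have hti' := (mem_filter.mp hi').1
  set g : Fin (k + 1) → ℕ → ℕ → ℝ := fun l j j' =>
    if l ∈ A then (if G i l + j = G i' l + j' then |wgt m D (G i l) j| * |wgt m D (G i' l) j'| else 0)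
    else 1 with hgdef
  have hterm : ∀ J ∈ shiftSet m D (G i) A, ∀ J' ∈ shiftSet m D (G i') A,
      @ite ℝ (gw k (shf (G i) s J) = gw k (shf (G i') s J')) (Classical.dec _)
        (|c i * shiftWgt m D (G i) A J| * |c i' * shiftWgt m D (G i') A J'|) 0
      ≤ ∏ l, g l (J l) (J' l) := by
    intro J _ J' _
    have hgn : ∀ l, 0 ≤ g l (J l) (J' l) := fun l => by
      simp only [hgdef]; split_ifs <;> positivity
    split
    · rename_i h
      have hG := gw_inj k _ _ h
      have hl : ∀ l ∈ A, G i l + J l = G i' l + J' l := by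
        intro l hl
        have := congrFun hG l
        rw [hA, mem_erase] at hl
        simpa [shf, Function.update_of_ne hl.1] using this
      have h1 : ∏ l, g l (J l) (J' l) = |shiftWgt m D (G i) A J| * |shiftWgt m D (G i') A J'| := by
        simp only [hgdef]
        rw [prod_ite_mem, univ_inter, shiftWgt, shiftWgt, abs_prod, abs_prod, ← prod_mul_distrib]
        exact prod_congr rfl fun l hl' => by rw [if_pos (hl l hl')]
      rw [h1, abs_mul, abs_mul]
      exact mul_le_mul (mul_le_of_le_one_left (abs_nonneg _) (hc i hti))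
        (mul_le_of_le_one_left (abs_nonneg _) (hc i' hti')) (by positivity) (abs_nonneg _)
    · exact prod_nonneg fun l _ => hgn l
  refine (sum_le_sum fun J hJ => sum_le_sum fun J' hJ' => hterm J hJ J' hJ').trans ?_
  have h2 : ∀ J : Fin (k + 1) → ℕ, ∑ J' ∈ shiftSet m D (G i') A, ∏ l, g l (J l) (J' l) =
      ∏ l, ∑ j' ∈ (if l ∈ A then range (rng m D (G i' l)) else {0}), g l (J l) j' := fun J =>
    (prod_univ_sum (fun l => if l ∈ A then range (rng m D (G i' l)) else {0})
      (fun l j' => g l (J l) j')).symm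
  simp only [h2]
  rw [shiftSet, ← prod_univ_sum (fun l => if l ∈ A then range (rng m D (G i l)) else {0})
    (fun l j => ∑ j' ∈ (if l ∈ A then range (rng m D (G i' l)) else {0}), g l j j')]
  refine le_of_eq ?_
  rw [← mul_prod_erase univ _ (mem_univ s)]
  have hs' : s ∉ A := by simp [hA]
  simp only [hgdef, hs', if_false, sum_const, card_singleton, one_smul, one_mul]
  exact prod_congr rfl fun l hl => by
    simp only [show l ∈ A from hl, if_true]; rfl

theorem gap_family {a : Alg σ} {b : Alg σ} (ha : nrm a ≤ 1) {tau : ℝ} (ht : 0 ≤ tau)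
    (hs : Smooth a tau) {m D k N : ℕ} (hD : 4 * (k + 1) * (2 * m + 3) ≤ D)
    (hg : gam m D tau ≤ 1) {ι : Type*} (T : Finset ι) (G : ι → Fin (k + 1) → ℕ) (c : ι → ℝ)
    (hc : ∀ i ∈ T, |c i| ≤ 1) (hN : ∀ i ∈ T, (∑ l, G i l) + k = N) {K : ℝ} (hK : 0 ≤ K) :
    ∃ c' : Alg Bool, Homog N c' ∧
      wsq K c' ≤ K ^ k * ((k + 1) * ∑ s : Fin (k + 1),
        ∑ i ∈ T.filter (fun i => sinkOf (G i) = s), ∑ i' ∈ T.filter (fun i => sinkOf (G i) = s),
          ∏ l ∈ univ.erase s, ov m D (G i l) (G i' l)) ∧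
      nrm ((∑ i ∈ T, c i • tgen b k (fun l => a ^ G i l)) - psi a b c') ≤
        (T.card : ℝ) * ((k : ℝ) * L1c m ^ k * (nrm b ^ k * (L1c m * gam m D tau ^ (m + 1)))) := by
  classical
  set C := fun s => smC m D k T G c s
  refine ⟨∑ s, C s, ?_, ?_, ?_⟩
  · intro w hw
    rw [cf_sum] at hw
    obtain ⟨s, -, hs'⟩ := exists_ne_zero_of_sum_ne_zero hw
    exact (smC_props hD T G c hN s w hs').1
  · set S := univ.biUnion (fun s => supp (C s)) ∪ supp (∑ s, C s) with hS
    have hsub : ∀ s, supp (C s) ⊆ S := fun s =>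
      (subset_biUnion_of_mem (fun s => supp (C s)) (mem_univ s)).trans subset_union_left
    rw [wsq_eq K _ (S := S) subset_union_right]
    have : ∀ w, K ^ cnt w * cf (∑ s, C s) w ^ 2 ≤
        ((k : ℝ) + 1) * ∑ s, K ^ cnt w * cf (C s) w ^ 2 := by
      intro w
      rw [cf_sum, ← mul_sum, ← mul_assoc, mul_comm ((k : ℝ) + 1), mul_assoc]
      refine mul_le_mul_of_nonneg_left ?_ (by positivity)
      have := sq_sum_le_card_mul_sum_sq (s := (univ : Finset (Fin (k + 1)))) (f := fun s => cf (C s) w)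
      simpa using this
    refine (sum_le_sum fun w _ => this w).trans ?_
    rw [← mul_sum, sum_comm, mul_left_comm (K ^ k)]
    refine mul_le_mul_of_nonneg_left ?_ (by positivity)
    rw [mul_sum]
    refine sum_le_sum fun s _ => ?_
    rw [← wsq_eq K (C s) (hsub s)]
    exact wsq_smC hD T G c hc hN s hK
  · have e : psi a b (∑ s, C s) = ∑ i ∈ T, c i •
        ∑ J ∈ shiftSet m D (G i) (univ.erase (sinkOf (G i))),
          shiftWgt m D (G i) (univ.erase (sinkOf (G i))) J •
            tgen b k (fun l => a ^ shf (G i) (sinkOf (G i)) J l) := by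
      rw [map_sum, ← sum_fiberwise T (fun i => sinkOf (G i))]
      refine sum_congr rfl fun s _ => ?_
      simp only [C, smC, map_sum, psi_pt, psiM_gw]
      refine sum_congr rfl fun i hi => ?_
      rw [(mem_filter.mp hi).2, smul_sum]
      exact sum_congr rfl fun J _ => (smul_smul _ _ _).symm
    rw [e, ← sum_sub_distrib]
    refine (nrm_sum _ _).trans ?_
    rw [← nsmul_eq_mul, ← sum_const]
    refine sum_le_sum fun i hi => ?_
    rw [← smul_sub, nrm_smul, nrm_sub_comm]
    refine (mul_le_of_le_one_left (nrm_nonneg _) (hc i hi)).trans ?_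
    have := gap_smooth (b := b) ha ht hs m D hD hg (G i) (sinkOf (G i)) (le_sinkOf (G i))
      (univ.erase (sinkOf (G i))) (by simp)
    simpa [card_erase_of_mem] using this

end Vale.Agent.P321
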