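import Vale.Agent.P321.Moment

/-!
Words described by their gaps.
-/

noncomputable section

open Finset

namespace Vale.Agent.P321

variable {σ : Type}

/-- The word with gaps `G` between consecutive marks. -/
def gw : (k : ℕ) → (Fin (k + 1) → ℕ) → FreeMonoid Bool
  | 0, G => FreeMonoid.of false ^ G 0
  | k + 1, G => FreeMonoid.of false ^ G 0 * FreeMonoid.of true * gw k (fun i => G i.succ)

/-- The product with given factors between copies of `b`. -/
def tgen (b : Alg σ) : (k : ℕ) → (Fin (k + 1) → Alg σ) → Alg σ
  | 0, f => f 0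
  | k + 1, f => f 0 * b * tgen b k (fun i => f i.succ)

theorem psiM_gw (a b : Alg σ) : ∀ (k : ℕ) (G : Fin (k + 1) → ℕ),
    psiM a b (gw k G) = tgen b k (fun i => a ^ G i)
  | 0, G => by simp [gw, tgen]
  | k + 1, G => by simp [gw, tgen, psiM_gw a b k]

theorem toList_rep (c : Bool) : ∀ n : ℕ, (FreeMonoid.of c ^ n).toList = List.replicate n c
  | 0 => rfl
  | n + 1 => by
    rw [pow_succ', FreeMonoid.toList_mul, FreeMonoid.toList_of, toList_rep c n]
    rfl

theorem gw_len : ∀ (k : ℕ) (G : Fin (k + 1) → ℕ), len (gw k G) = (∑ i, G i) + k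
  | 0, G => by simp [gw, len, toList_rep]
  | k + 1, G => by
    have ih := gw_len k (fun i => G i.succ)
    rw [len] at ih
    rw [gw, len, Fin.sum_univ_succ]
    simp [FreeMonoid.toList_mul, FreeMonoid.toList_of, toList_rep, ih]
    ring

theorem gw_cnt : ∀ (k : ℕ) (G : Fin (k + 1) → ℕ), cnt (gw k G) = k
  | 0, G => by simp [gw, cnt, toList_rep, List.count_replicate]
  | k + 1, G => by
    have ih := gw_cnt k (fun i => G i.succ)
    rw [cnt] at ih
    rw [gw, cnt]
    simp [FreeMonoid.toList_mul, FreeMonoid.toList_of, toList_rep, List.count_append,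
      List.count_replicate, ih]

theorem rep_inj : ∀ (n m : ℕ) (l l' : List Bool),
    List.replicate n false ++ true :: l = List.replicate m false ++ true :: l' → n = m ∧ l = l'
  | 0, 0, l, l', h => ⟨rfl, by simpa using h⟩
  | 0, m + 1, l, l', h => by simp [List.replicate_succ] at h
  | n + 1, 0, l, l', h => by simp [List.replicate_succ] at h
  | n + 1, m + 1, l, l', h => by
    simp only [List.replicate_succ, List.cons_append, List.cons.injEq, true_and] at h
    obtain ⟨h1, h2⟩ := rep_inj n m l l' h
    exact ⟨by omega, h2⟩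

theorem gw_inj : ∀ (k : ℕ) (G H : Fin (k + 1) → ℕ), gw k G = gw k H → G = H
  | 0, G, H, h => by
    funext i
    have := congrArg len h
    rw [gw_len, gw_len] at this
    obtain rfl : i = 0 := Fin.fin_one_eq_zero i
    simpa using this
  | k + 1, G, H, h => by
    have h' := congrArg FreeMonoid.toList h
    simp only [gw, FreeMonoid.toList_mul, FreeMonoid.toList_of, toList_rep, List.append_assoc,
      List.singleton_append] at h'
    obtain ⟨h0, ht⟩ := rep_inj _ _ _ _ h'
    have hs := gw_inj k _ _ (FreeMonoid.toList.injective ht)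
    funext i
    exact Fin.cases h0 (fun j => congrFun hs j) i

theorem tgen_nrm (b : Alg σ) : ∀ (k : ℕ) (f : Fin (k + 1) → Alg σ),
    nrm (tgen b k f) ≤ nrm b ^ k * ∏ i, nrm (f i)
  | 0, f => by simp [tgen]
  | k + 1, f => by
    rw [tgen, Fin.prod_univ_succ]
    refine (nrm_mul3 _ _ _).trans ?_
    refine (mul_le_mul_of_nonneg_left (tgen_nrm b k _)
      (mul_nonneg (nrm_nonneg _) (nrm_nonneg _))).trans (le_of_eq ?_)
    ring

theorem tgen_lin (b : Alg σ) : ∀ (k : ℕ) (f : Fin (k + 1) → Alg σ) (i : Fin (k + 1)) (x y : Alg σ)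
    (c : ℝ), tgen b k (Function.update f i (x + c • y)) =
      tgen b k (Function.update f i x) + c • tgen b k (Function.update f i y)
  | 0, f, i, x, y, c => by
    obtain rfl : i = 0 := Fin.fin_one_eq_zero i
    simp [tgen]
  | k + 1, f, i, x, y, c => by
    refine Fin.cases ?_ (fun j => ?_) i
    · have e : ∀ z, (fun l : Fin (k + 1) => Function.update f 0 z l.succ) = fun l => f l.succ :=
        fun z => funext fun l => Function.update_of_ne (Fin.succ_ne_zero l) _ _
      simp only [tgen, Function.update_self, e]
      rw [add_mul, add_mul, smul_mul_assoc, smul_mul_assoc]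
    · have e : ∀ z, (fun l : Fin (k + 1) => Function.update f j.succ z l.succ) =
          Function.update (fun l => f l.succ) j z :=
        fun z => Function.update_comp_eq_of_injective f (Fin.succ_injective _) j z
      simp only [tgen, Function.update_of_ne (Fin.succ_ne_zero j).symm, e]
      rw [tgen_lin b k _ j x y c, mul_add, mul_smul_comm]

/-- `tgen` as a linear map in coordinate `i`. -/
def tlin (b : Alg σ) (k : ℕ) (f : Fin (k + 1) → Alg σ) (i : Fin (k + 1)) : Alg σ →ₗ[ℝ] Alg σ where
  toFun x := tgen b k (Function.update f i x)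
  map_add' x y := by simpa using tgen_lin b k f i x y 1
  map_smul' c y := by
    have h0 : tgen b k (Function.update f i 0) = 0 := by
      have := tgen_lin b k f i 0 0 1
      simpa using this
    have := tgen_lin b k f i 0 y c
    rw [h0, zero_add, zero_add] at this
    simpa using this

/-- `tgen` as a bilinear map in coordinates `i`, `j`. -/
def tbil (b : Alg σ) (k : ℕ) (f : Fin (k + 1) → Alg σ) {i j : Fin (k + 1)} (hij : i ≠ j) :
    Alg σ →ₗ[ℝ] Alg σ →ₗ[ℝ] Alg σ where
  toFun x := tlin b k (Function.update f i x) j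
  map_add' x y := by
    refine LinearMap.ext fun z => ?_
    show tgen b k (Function.update (Function.update f i (x + y)) j z) = _
    rw [Function.update_comm hij]
    simpa [tlin, Function.update_comm hij] using tgen_lin b k (Function.update f j z) i x y 1
  map_smul' c x := by
    refine LinearMap.ext fun z => ?_
    show tgen b k (Function.update (Function.update f i (c • x)) j z) = _
    rw [Function.update_comm hij]
    have := (tlin b k (Function.update f j z) i).map_smul c x
    simp only [tlin, LinearMap.coe_mk, AddHom.coe_mk] at this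
    simp [this, tlin, Function.update_comm hij]

theorem tbil_apply (b : Alg σ) (k : ℕ) (f : Fin (k + 1) → Alg σ) {i j : Fin (k + 1)} (hij : i ≠ j)
    (x y : Alg σ) : tbil b k f hij x y = tgen b k (Function.update (Function.update f i x) j y) := rfl

theorem tbil_nrm (b : Alg σ) (k : ℕ) (f : Fin (k + 1) → Alg σ) {i j : Fin (k + 1)} (hij : i ≠ j)
    (hf : ∀ l, nrm (f l) ≤ 1) (x y : Alg σ) :
    nrm (tbil b k f hij x y) ≤ nrm b ^ k * (nrm x * nrm y) := by
  classical
  rw [tbil_apply]
  refine (tgen_nrm b k _).trans (mul_le_mul_of_nonneg_left ?_ (pow_nonneg (nrm_nonneg _) k))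
  rw [← Finset.mul_prod_erase univ _ (mem_univ j),
    ← Finset.mul_prod_erase (univ.erase j) _ (mem_erase.mpr ⟨hij, mem_univ i⟩),
    Function.update_self, Function.update_of_ne hij, Function.update_self, ← mul_assoc,
    mul_comm (nrm y)]
  refine mul_le_of_le_one_right (mul_nonneg (nrm_nonneg _) (nrm_nonneg _))
    (prod_le_one (fun l _ => nrm_nonneg _) fun l hl => ?_)
  rw [mem_erase, mem_erase] at hl
  rw [Function.update_of_ne hl.2.1, Function.update_of_ne hl.1]
  exact hf l

end Vale.Agent.P321
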