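import Mathlib

/-!
Sums over product finsets: peeling coordinates.
-/

noncomputable section

open Finset

namespace Vale.Agent.P321

open scoped Classical in
theorem sum_piFinset_update {k : ℕ} {α : Type*} {M : Type*} [AddCommMonoid M]
    (t : Fin k → Finset α) (l : Fin k) (X : Finset α) (c : α) (F : (Fin k → α) → M) :
    ∑ f ∈ Fintype.piFinset (Function.update t l X), F f =
      ∑ f ∈ Fintype.piFinset (Function.update t l {c}), ∑ u ∈ X, F (Function.update f l u) := by
  rw [← sum_product']
  refine sum_nbij' (fun f => (Function.update f l c, f l)) (fun p => Function.update p.1 l p.2)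
    ?_ ?_ ?_ ?_ ?_
  · intro f hf
    rw [Fintype.mem_piFinset] at hf
    rw [mem_product, Fintype.mem_piFinset]
    refine ⟨fun i => ?_, by simpa using hf l⟩
    rcases eq_or_ne i l with h | h
    · subst h; simp
    · simpa [Function.update_of_ne h] using hf i
  · intro p hp
    rw [mem_product, Fintype.mem_piFinset] at hp
    rw [Fintype.mem_piFinset]
    intro i
    rcases eq_or_ne i l with h | h
    · subst h; simp [hp.2]
    · simpa [Function.update_of_ne h] using hp.1 i
  · intro f _
    simp
  · intro p hp
    rw [mem_product, Fintype.mem_piFinset] at hp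
    have h1 : p.1 l = c := by simpa using hp.1 l
    refine Prod.ext ?_ ?_
    · simp [← h1]
    · simp
  · intro f _
    simp

open scoped Classical in
/-- A sum of products with triangular dependencies is at most the product of one-step bounds. -/
theorem forest {k : ℕ} {α : Type*} (X : Fin k → Finset α) (W : Fin k → (Fin k → α) → ℝ)
    (rank : Fin k → ℕ) (hW : ∀ l f, 0 ≤ W l f)
    (dep : ∀ l f g, f l = g l → (∀ i, rank i < rank l → f i = g i) → W l f = W l g)
    (S : Fin k → ℝ) (hS : ∀ l, ∀ f, (∀ i, rank i < rank l → f i ∈ X i) →
      ∑ u ∈ X l, W l (Function.update f l u) ≤ S l) (hS0 : ∀ l, 0 ≤ S l) (f0 : Fin k → α) :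
    ∑ f ∈ Fintype.piFinset X, ∏ l, W l f ≤ ∏ l, S l := by
  suffices h : ∀ A : Finset (Fin k), (∀ l ∈ A, ∀ i, rank i < rank l → i ∈ A) →
      ∑ f ∈ Fintype.piFinset (fun i => if i ∈ A then X i else {f0 i}), ∏ l ∈ A, W l f
        ≤ ∏ l ∈ A, S l by
    simpa using h univ (fun _ _ i _ => mem_univ i)
  intro A
  induction A using Finset.strongInduction with
  | H A ih =>
    intro hA
    rcases A.eq_empty_or_nonempty with h | h
    · subst h
      simp [Fintype.piFinset_singleton]
    · obtain ⟨l, hl, hmax⟩ := exists_max_image A rank h
      set A' := A.erase l with hA'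
      have hA'cl : ∀ l' ∈ A', ∀ i, rank i < rank l' → i ∈ A' := by
        intro l' hl' i hi
        rw [hA', mem_erase] at hl'
        rw [hA', mem_erase]
        refine ⟨fun he => ?_, hA l' hl'.2 i hi⟩
        subst he
        exact absurd (hmax l' hl'.2) (not_le.mpr hi)
      have e1 : (fun i => if i ∈ A then X i else {f0 i}) =
          Function.update (fun i => if i ∈ A' then X i else {f0 i}) l (X l) := by
        funext i
        rcases eq_or_ne i l with h' | h'
        · subst h'; simp [hl]
        · simp [Function.update_of_ne h', hA', h']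
      have e2 : (fun i => if i ∈ A' then X i else {f0 i}) =
          Function.update (fun i => if i ∈ A' then X i else {f0 i}) l {f0 l} := by
        funext i
        rcases eq_or_ne i l with h' | h'
        · subst h'; simp [hA']
        · simp [Function.update_of_ne h']
      rw [e1, sum_piFinset_update _ l (X l) (f0 l), ← e2]
      have hprod : ∀ f u, ∏ l' ∈ A, W l' (Function.update f l u) =
          W l (Function.update f l u) * ∏ l' ∈ A', W l' f := by
        intro f u
        rw [← mul_prod_erase A _ hl]
        congr 1
        refine prod_congr rfl fun l' hl' => ?_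
        rw [mem_erase] at hl'
        refine dep l' _ _ (Function.update_of_ne hl'.1 _ _) fun i hi => ?_
        refine Function.update_of_ne (fun he => ?_) _ _
        subst he
        exact absurd (hmax l' hl'.2) (not_le.mpr hi)
      calc ∑ f ∈ Fintype.piFinset (fun i => if i ∈ A' then X i else {f0 i}),
            ∑ u ∈ X l, ∏ l' ∈ A, W l' (Function.update f l u)
          ≤ ∑ f ∈ Fintype.piFinset (fun i => if i ∈ A' then X i else {f0 i}),
              S l * ∏ l' ∈ A', W l' f := by
            refine sum_le_sum fun f hf => ?_
            simp only [hprod, ← sum_mul]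
            refine mul_le_mul_of_nonneg_right (hS l f fun i hi => ?_) (prod_nonneg fun _ _ => hW _ _)
            have hiA : i ∈ A' := mem_erase.mpr
              ⟨fun he => by subst he; exact lt_irrefl _ hi, hA l hl i hi⟩
            simpa [hiA] using (Fintype.mem_piFinset.mp hf) i
        _ ≤ S l * ∏ l' ∈ A', S l' := by
            rw [← mul_sum]
            exact mul_le_mul_of_nonneg_left (ih A' (erase_ssubset hl) hA'cl) (hS0 l)
        _ = ∏ l' ∈ A, S l' := mul_prod_erase A _ hl

end Vale.Agent.P321
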