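import Vale.Agent.P321.Exchange
import Vale.Agent.P321.Gw
import Vale.Agent.P321.Hyper
import Vale.Agent.P321.Split

/-!
Smoothed coefficient vectors of combinations of gap words.
-/

noncomputable section

open Finset

namespace Vale.Agent.P321

variable {σ : Type}

/-- Kernel width of a gap. -/
def wid (D g : ℕ) : ℕ := Nat.sqrt (g / D)

/-- Kernel range of a gap. -/
def rng (m D g : ℕ) : ℕ := (2 * m + 2) * wid D g + 1

/-- Kernel weight of a gap. -/
def wgt (m D g j : ℕ) : ℝ := ker (2 * m) (wid D g) j

/-- Overlap of the kernels of two gaps. -/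
def ov (m D g h : ℕ) : ℝ :=
  ∑ j ∈ range (rng m D g), ∑ j' ∈ range (rng m D h),
    if g + j = h + j' then |wgt m D g j| * |wgt m D h j'| else 0

theorem ov_nonneg (m D g h : ℕ) : 0 ≤ ov m D g h :=
  sum_nonneg fun _ _ => sum_nonneg fun _ _ => by split <;> positivity

theorem wid_mono (D : ℕ) {g h : ℕ} (hgh : g ≤ h) : wid D g ≤ wid D h :=
  Nat.sqrt_le_sqrt (Nat.div_le_div_right hgh)

theorem wid_sq_mul (D g : ℕ) : wid D g ^ 2 * D ≤ g :=
  le_trans (Nat.mul_le_mul_right D (Nat.sqrt_le' (g / D))) (Nat.div_mul_le_self g D)

theorem wid_mul_le (D g : ℕ) : wid D g * D ≤ g :=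
  le_trans (Nat.mul_le_mul_right D (Nat.le_self_pow two_ne_zero _)) (wid_sq_mul D g)

open scoped Classical in
/-- Shifting gaps by `J`, taking the mass from the sink `s`. -/
def shf {k : ℕ} (G : Fin (k + 1) → ℕ) (s : Fin (k + 1)) (J : Fin (k + 1) → ℕ) : Fin (k + 1) → ℕ :=
  Function.update (fun l => G l + J l) s (G s - ∑ l, J l)

/-- The smallness parameter of one exchange. -/
def gam (m D : ℕ) (tau : ℝ) : ℝ :=
  (2 * (m : ℝ) + 3) * Real.sqrt (4 * ((m : ℝ) + 1) * tau / D)

/-- The `ℓ¹` bound of a kernel. -/
def L1c (m : ℕ) : ℝ := ((m : ℝ) + 2) * ((2 * m : ℕ) + 4) * Lam (2 * m)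

theorem one_le_L1c (m : ℕ) : 1 ≤ L1c m := by
  have h := one_le_Lam (2 * m)
  have h2 : (1 : ℝ) ≤ ((m : ℝ) + 2) * ((2 * m : ℕ) + 4) := by push_cast; nlinarith [(Nat.cast_nonneg m : (0:ℝ) ≤ m)]
  exact one_le_mul_of_one_le_of_one_le h2 h

open scoped Classical in
/-- The range of shifts when the gaps in `A` are smoothed. -/
def shiftSet (m D : ℕ) {k : ℕ} (G : Fin (k + 1) → ℕ) (A : Finset (Fin (k + 1))) :
    Finset (Fin (k + 1) → ℕ) :=
  Fintype.piFinset fun l => if l ∈ A then range (rng m D (G l)) else {0}

/-- The weight of a shift. -/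
def shiftWgt (m D : ℕ) {k : ℕ} (G : Fin (k + 1) → ℕ) (A : Finset (Fin (k + 1)))
    (J : Fin (k + 1) → ℕ) : ℝ := ∏ l ∈ A, wgt m D (G l) (J l)

theorem gap_smooth {a b : Alg σ} (ha : nrm a ≤ 1) {tau : ℝ} (ht : 0 ≤ tau) (hs : Smooth a tau)
    (m D : ℕ) {k : ℕ} (hD : 4 * (k + 1) * (2 * m + 3) ≤ D) (hg : gam m D tau ≤ 1)
    (G : Fin (k + 1) → ℕ) (s : Fin (k + 1)) (hmax : ∀ l, G l ≤ G s) (A : Finset (Fin (k + 1)))
    (hA : s ∉ A) :
    nrm ((∑ J ∈ shiftSet m D G A,
        shiftWgt m D G A J • tgen b k (fun l => a ^ shf G s J l))
      - tgen b k (fun l => a ^ G l))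
      ≤ (A.card : ℝ) * L1c m ^ A.card * (nrm b ^ k * (L1c m * gam m D tau ^ (m + 1))) := by
  classical
  set err : ℝ := nrm b ^ k * (L1c m * gam m D tau ^ (m + 1)) with herr
  have hL := one_le_L1c m
  have hgam0 : 0 ≤ gam m D tau := by unfold gam; positivity
  have herr0 : 0 ≤ err := by have := nrm_nonneg b; positivity
  induction A using Finset.induction with
  | empty =>
    have e : shiftSet m D G ∅ = {fun _ => 0} := by simp [shiftSet, Fintype.piFinset_singleton]
    simp [e, shiftWgt, shf]
  | insert l A hl ih =>
    rw [mem_insert, not_or] at hA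
    specialize ih hA.2
    have hls : l ≠ s := fun h => hA.1 h.symm
    set t : Fin (k + 1) → Finset ℕ := fun i => if i ∈ A then range (rng m D (G i)) else {0} with ht'
    have hset : shiftSet m D G (insert l A) =
        Fintype.piFinset (Function.update t l (range (rng m D (G l)))) := by
      refine congrArg Fintype.piFinset (funext fun i => ?_)
      rcases eq_or_ne i l with h | h
      · subst h; simp
      · simp [ht', h]
    have hset0 : Fintype.piFinset (Function.update t l {0}) = shiftSet m D G A := by
      refine congrArg Fintype.piFinset (funext fun i => ?_)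
      rcases eq_or_ne i l with h | h
      · subst h; simp [hl]
      · simp [ht', h]
    rw [hset, sum_piFinset_update t l _ 0, hset0]
    have hJ : ∀ J ∈ shiftSet m D G A, J l = 0 ∧ J s = 0 ∧
        (∑ i, J i) + rng m D (G l) ≤ (k + 1) * (2 * m + 3) * max 1 (wid D (G s)) := by
      intro J hJ
      have hJ' := Fintype.mem_piFinset.mp hJ
      have h1 : J l = 0 := by simpa [hl] using hJ' l
      have h2 : J s = 0 := by simpa [hA.2] using hJ' s
      refine ⟨h1, h2, ?_⟩
      have hr : ∀ i, rng m D (G i) ≤ (2 * m + 3) * max 1 (wid D (G s)) := by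
        intro i
        unfold rng
        calc (2 * m + 2) * wid D (G i) + 1
            ≤ (2 * m + 2) * max 1 (wid D (G s)) + 1 * max 1 (wid D (G s)) := by
              gcongr
              · exact le_trans (wid_mono D (hmax i)) (le_max_right _ _)
              · simp
          _ = _ := by ring
      have hb : ∀ i, J i ≤ (2 * m + 3) * max 1 (wid D (G s)) := by
        intro i
        have := hJ' i
        split at this
        · rw [mem_range] at this; exact le_trans this.le (hr i)
        · rw [mem_singleton] at this; omega
      calc (∑ i, J i) + rng m D (G l)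
          = (∑ i ∈ univ.erase l, J i) + rng m D (G l) := by rw [sum_erase _ h1]
        _ ≤ (∑ _i ∈ univ.erase l, (2 * m + 3) * max 1 (wid D (G s))) +
              (2 * m + 3) * max 1 (wid D (G s)) := add_le_add (sum_le_sum fun i _ => hb i) (hr l)
        _ = (k + 1) * (2 * m + 3) * max 1 (wid D (G s)) := by
            rw [sum_const, card_erase_of_mem (mem_univ l), card_univ, Fintype.card_fin, smul_eq_mul]
            simp only [Nat.add_sub_cancel]
            ring
    have hstep : ∀ J ∈ shiftSet m D G A,
        nrm ((∑ j ∈ range (rng m D (G l)),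
          wgt m D (G l) j • tgen b k (fun i => a ^ shf G s (Function.update J l j) i))
          - tgen b k (fun i => a ^ shf G s J i)) ≤ err := by
      intro J hJm
      obtain ⟨h1, h2, h3⟩ := hJ J hJm
      rcases Nat.eq_zero_or_pos (wid D (G l)) with h0 | h0
      · have : rng m D (G l) = 1 := by rw [rng, h0]; simp
        rw [this, sum_range_one]
        have e : Function.update J l 0 = J := by rw [← h1, Function.update_eq_self]
        simp [wgt, h0, ker, e, herr0]
      · have hs1 : 1 ≤ wid D (G s) := le_trans h0 (wid_mono D (hmax l))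
        have hGl : D ≤ G l := le_trans (Nat.le_mul_of_pos_left D h0) (wid_mul_le D (G l))
        have hGs : 2 * ((∑ i, J i) + rng m D (G l)) ≤ G s := by
          rw [max_eq_right hs1] at h3
          calc 2 * ((∑ i, J i) + rng m D (G l)) ≤ 2 * ((k + 1) * (2 * m + 3) * wid D (G s)) := by
                omega
            _ ≤ wid D (G s) * D := by
                calc _ = wid D (G s) * (2 * (k + 1) * (2 * m + 3)) := by ring
                  _ ≤ _ := Nat.mul_le_mul_left _ (by linarith)
            _ ≤ G s := wid_mul_le D (G s)
        set H := G s - ∑ i, J i with hH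
        set f : Fin (k + 1) → Alg σ := fun i => a ^ shf G s J i
        have hB := tbil_nrm b k f hls (fun i => nrm_pow_le_one ha _)
        have hval : ∀ j, tgen b k (fun i => a ^ shf G s (Function.update J l j) i) =
            tbil b k f hls (a ^ (G l + j)) (a ^ (H - j)) := by
          intro j
          rw [tbil_apply]
          congr 1
          funext i
          have hsum : ∑ x, Function.update J l j x = (∑ x, J x) + j := by
            rw [sum_update_of_mem (mem_univ l),
              ← add_sum_erase univ J (mem_univ l), h1, zero_add, sdiff_singleton_eq_erase, add_comm]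
          rcases eq_or_ne i s with h | h
          · subst h
            rw [Function.update_self, shf, Function.update_self, hsum, hH, Nat.sub_sub]
          · rw [Function.update_of_ne h, shf, Function.update_of_ne h]
            rcases eq_or_ne i l with h' | h'
            · subst h'; simp
            · simp [f, shf, Function.update_of_ne h, Function.update_of_ne h']
        have hzero : tgen b k (fun i => a ^ shf G s J i) =
            tbil b k f hls (a ^ (G l)) (a ^ H) := by
          have := hval 0
          rw [← h1, Function.update_eq_self, h1] at this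
          simpa using this
        simp only [hval]
        rw [hzero]
        set δ := Real.sqrt (4 * ((m : ℝ) + 1) * tau / G l) with hδ
        have hsd : ∀ X : ℕ, m + 1 ≤ X → G l ≤ 2 * X → ∀ i ≤ m + 1,
            nrm (a ^ X * (a - 1) ^ i) ≤ δ ^ i := by
          intro X hX hGX i hi
          refine (pow_smooth ha ht hs hX hi).trans (pow_le_pow_left₀ (Real.sqrt_nonneg _) ?_ i)
          apply Real.sqrt_le_sqrt
          have hX0 : (0 : ℝ) < X := by exact_mod_cast (by omega : 0 < X)
          have hG0 : (0 : ℝ) < G l := by exact_mod_cast (by nlinarith : 0 < G l)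
          rw [div_le_div_iff₀ hX0 hG0]
          have : (G l : ℝ) ≤ 2 * X := by exact_mod_cast hGX
          calc 2 * ((m : ℝ) + 1) * tau * (G l) ≤ 2 * ((m : ℝ) + 1) * tau * (2 * X) :=
                mul_le_mul_of_nonneg_left this (by positivity)
            _ = _ := by ring
        have hDm : 2 * (m + 1) ≤ D := by nlinarith
        have hMδ : ((rng m D (G l) : ℕ) : ℝ) * δ ≤ gam m D tau := by
          have hsr : (1 : ℝ) ≤ wid D (G l) := by exact_mod_cast h0
          have hD0 : (0 : ℝ) < D := by exact_mod_cast (by omega : 0 < D)
          have hG0 : (0 : ℝ) < G l := by exact_mod_cast (by omega : 0 < G l)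
          have hwg : (wid D (G l) : ℝ) ^ 2 * D ≤ G l := by exact_mod_cast wid_sq_mul D (G l)
          calc ((rng m D (G l) : ℕ) : ℝ) * δ ≤ (2 * (m : ℝ) + 3) * wid D (G l) * δ := by
                refine mul_le_mul_of_nonneg_right ?_ (Real.sqrt_nonneg _)
                unfold rng; push_cast; linarith
            _ = (2 * (m : ℝ) + 3) * Real.sqrt ((wid D (G l) : ℝ) ^ 2 * (4 * ((m : ℝ) + 1) * tau / G l)) := by
                rw [Real.sqrt_mul (sq_nonneg _), Real.sqrt_sq (Nat.cast_nonneg _)]; ring
            _ ≤ gam m D tau := by
                unfold gam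
                refine mul_le_mul_of_nonneg_left (Real.sqrt_le_sqrt ?_) (by positivity)
                rw [mul_div_assoc', div_le_div_iff₀ hG0 hD0]
                calc (wid D (G l) : ℝ) ^ 2 * (4 * ((m : ℝ) + 1) * tau) * D
                    = (4 * ((m : ℝ) + 1) * tau) * ((wid D (G l) : ℝ) ^ 2 * D) := by ring
                  _ ≤ _ := mul_le_mul_of_nonneg_left hwg (by positivity)
        have hGls := hmax l
        have := exchange ha (tbil b k f hls) (pow_nonneg (nrm_nonneg b) k) hB m (wid D (G l)) (G l) H
          (δ := δ) (γ := gam m D tau) (Real.sqrt_nonneg _) hg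
          (show rng m D (G l) ≤ H by omega)
          (hsd (G l) (by omega) (by omega))
          (hsd (H - rng m D (G l)) (by omega) (by omega)) hMδ
        refine this.trans (le_of_eq ?_)
        rw [herr, L1c]; ring
    have hw : ∀ J ∈ shiftSet m D G A, ∀ j,
        shiftWgt m D G (insert l A) (Function.update J l j) =
          shiftWgt m D G A J * wgt m D (G l) j := by
      intro J _ j
      rw [shiftWgt, prod_insert hl, Function.update_self, mul_comm, shiftWgt]
      congr 1
      exact prod_congr rfl fun i hi => by
        rw [Function.update_of_ne fun h : i = l => hl (h ▸ hi)]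
    have e : (∑ J ∈ shiftSet m D G A, ∑ j ∈ range (rng m D (G l)),
        shiftWgt m D G (insert l A) (Function.update J l j) •
          tgen b k (fun i => a ^ shf G s (Function.update J l j) i)) - tgen b k (fun i => a ^ G i) =
        (∑ J ∈ shiftSet m D G A, shiftWgt m D G A J •
          ((∑ j ∈ range (rng m D (G l)),
            wgt m D (G l) j • tgen b k (fun i => a ^ shf G s (Function.update J l j) i))
            - tgen b k (fun i => a ^ shf G s J i))) +
        ((∑ J ∈ shiftSet m D G A, shiftWgt m D G A J • tgen b k (fun i => a ^ shf G s J i))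
          - tgen b k (fun i => a ^ G i)) := by
      simp only [smul_sub, sum_sub_distrib, smul_sum, smul_smul]
      rw [sum_congr rfl (fun J hJ => sum_congr rfl (fun j _ => by rw [hw J hJ j]))]
      abel
    rw [e, card_insert_of_notMem hl]
    refine (nrm_add _ _).trans ?_
    refine le_trans (add_le_add (le_trans (nrm_sum _ _)
      (sum_le_sum (g := fun J => |shiftWgt m D G A J| * err) fun J hJ => ?_)) ih) ?_
    · rw [nrm_smul]
      exact mul_le_mul_of_nonneg_left (hstep J hJ) (abs_nonneg _)
    · rw [← sum_mul]
      have hsumw : ∑ J ∈ shiftSet m D G A, |shiftWgt m D G A J| ≤ L1c m ^ A.card := by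
        simp only [shiftWgt, abs_prod]
        have hpr : ∀ J ∈ shiftSet m D G A, ∏ i ∈ A, |wgt m D (G i) (J i)| =
            ∏ i, (if i ∈ A then |wgt m D (G i) (J i)| else 1) := fun J _ => by
          rw [prod_ite_mem, univ_inter]
        rw [sum_congr rfl hpr, shiftSet, ← prod_univ_sum (fun l => if l ∈ A then range (rng m D (G l)) else {0})
          (fun i j => if i ∈ A then |wgt m D (G i) j| else 1)]
        calc ∏ i, ∑ j ∈ (if i ∈ A then range (rng m D (G i)) else {0}),
              (if i ∈ A then |wgt m D (G i) j| else 1)
            ≤ ∏ i, (if i ∈ A then L1c m else 1) := by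
              refine prod_le_prod (fun i _ => sum_nonneg fun j _ => by split <;> positivity)
                fun i _ => ?_
              split
              · refine (ker_l1 (2 * m) (wid D (G i))).trans ?_
                rw [L1c]
                refine mul_le_mul_of_nonneg_right ?_ (by linarith [one_le_Lam (2 * m)])
                push_cast; nlinarith [(Nat.cast_nonneg m : (0:ℝ) ≤ m)]
              · simp
          _ = L1c m ^ A.card := by rw [prod_ite_mem, univ_inter, prod_const]
      have hp : L1c m ^ A.card ≤ L1c m ^ (A.card + 1) := pow_le_pow_right₀ hL (by omega)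
      have := mul_le_mul_of_nonneg_right (hsumw.trans hp) herr0
      have := mul_le_mul_of_nonneg_right
        (mul_le_mul_of_nonneg_left hp (Nat.cast_nonneg A.card)) herr0
      push_cast
      linarith

end Vale.Agent.P321
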