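import Vale.Agent.P321.Kernel

/-!
The variation of the averaging kernels.
-/

noncomputable section

open Finset

namespace Vale.Agent.P321

theorem prod_diff_le {ι : Type*} (T : Finset ι) (f g : ι → ℝ) {B η : ℝ} (hB : 1 ≤ B) (hη : 0 ≤ η)
    (hf : ∀ i ∈ T, |f i| ≤ B) (hg : ∀ i ∈ T, |g i| ≤ B) (h : ∀ i ∈ T, |f i - g i| ≤ η) :
    |∏ i ∈ T, f i - ∏ i ∈ T, g i| ≤ (T.card : ℝ) * B ^ T.card * η := by
  classical
  induction T using Finset.induction with
  | empty => simp
  | insert i T hi ih =>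
    rw [prod_insert hi, prod_insert hi, card_insert_of_notMem hi]
    have e : f i * ∏ j ∈ T, f j - g i * ∏ j ∈ T, g j =
        (f i - g i) * ∏ j ∈ T, f j + g i * (∏ j ∈ T, f j - ∏ j ∈ T, g j) := by ring
    rw [e]
    refine (abs_add_le _ _).trans ?_
    rw [abs_mul, abs_mul]
    have h1 : |∏ j ∈ T, f j| ≤ B ^ T.card := by
      rw [abs_prod]
      refine (prod_le_prod (fun j _ => abs_nonneg _) fun j hj => hf j (mem_insert_of_mem hj)).trans ?_
      rw [prod_const]
    have h2 := ih (fun j hj => hf j (mem_insert_of_mem hj)) (fun j hj => hg j (mem_insert_of_mem hj))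
      (fun j hj => h j (mem_insert_of_mem hj))
    have hB0 : 0 ≤ B := by linarith
    have hp : B ^ T.card ≤ B ^ (T.card + 1) := pow_le_pow_right₀ hB (Nat.le_succ _)
    have hpn : 0 ≤ B ^ T.card := pow_nonneg hB0 _
    calc |f i - g i| * |∏ j ∈ T, f j| + |g i| * |∏ j ∈ T, f j - ∏ j ∈ T, g j|
        ≤ η * B ^ (T.card + 1) + B * ((T.card : ℝ) * B ^ T.card * η) := by
          refine add_le_add (mul_le_mul (h i (mem_insert_self i T)) (h1.trans hp) (abs_nonneg _) hη)
            (mul_le_mul (hg i (mem_insert_self i T)) h2 (abs_nonneg _) hB0)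
      _ = _ := by push_cast; ring

/-- The shifted difference of a kernel. -/
def dker (m s i : ℕ) : ℝ := (if 1 ≤ i then ker m s (i - 1) else 0) - ker m s i

/-- The bound on the variation. -/
def DLam (m : ℕ) : ℝ := 3 * ((m : ℝ) + 5) ^ 2 * ((m : ℝ) + 2) ^ (m + 1)

theorem one_le_DLam (m : ℕ) : 1 ≤ DLam m := by
  unfold DLam
  have h : (0 : ℝ) ≤ m := Nat.cast_nonneg m
  have h1 : (1 : ℝ) ≤ ((m : ℝ) + 2) ^ (m + 1) := one_le_pow₀ (by linarith)
  nlinarith

theorem dker_smooth {m s i : ℕ} (hs : 0 < s) (hi : 1 ≤ i) (hnd : ¬ s ∣ i) :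
    |dker m s i| ≤ (m : ℝ) * ((m : ℝ) + 2) ^ m / (s : ℝ) ^ 2 := by
  have hdiv : (i - 1) / s = i / s := by
    have := Nat.succ_div_of_not_dvd (a := i - 1) (b := s) (by rwa [show i - 1 + 1 = i by omega])
    rw [show i - 1 + 1 = i by omega] at this
    exact this.symm
  have hmod : i % s = (i - 1) % s + 1 := by
    have e1 := Nat.div_add_mod i s
    have e2 := Nat.div_add_mod (i - 1) s
    rw [hdiv] at e2
    generalize s * (i / s) = t at e1 e2
    omega
  rw [dker, if_pos hi]
  unfold ker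
  rw [if_neg hs.ne', if_neg hs.ne']
  have hcond : (s ≤ i - 1 ∧ i - 1 < (m + 2) * s) ↔ (s ≤ i ∧ i < (m + 2) * s) := by
    constructor
    · rintro ⟨h1, h2⟩
      refine ⟨by omega, ?_⟩
      rcases Nat.lt_or_ge i ((m + 2) * s) with h | h
      · exact h
      · exact absurd (show s ∣ i from ⟨m + 2, by rw [mul_comm]; omega⟩) hnd
    · rintro ⟨h1, h2⟩
      refine ⟨?_, by omega⟩
      rcases Nat.lt_or_ge (i - 1) s with h | h
      · exact absurd (show s ∣ i from ⟨1, by omega⟩) hnd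
      · exact h
  by_cases hc : s ≤ i ∧ i < (m + 2) * s
  · rw [if_pos hc, if_pos (hcond.mpr hc), hdiv, ← sub_div, abs_div,
      abs_of_nonneg (show (0 : ℝ) ≤ (s : ℝ) by positivity)]
    have hl : i / s ∈ Icc 1 (m + 1) := mem_Icc.mpr ⟨Nat.div_pos hc.1 hs,
      Nat.le_of_lt_succ (Nat.div_lt_of_lt_mul (by rw [mul_comm]; exact hc.2))⟩
    have hcard : ((Icc 1 (m + 1)).erase (i / s)).card = m := by
      rw [card_erase_of_mem hl, Nat.card_Icc]; omega
    have hms : i % s < s := Nat.mod_lt _ hs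
    have hm : |lw m s ((i - 1) % s) (i / s) - lw m s (i % s) (i / s)| ≤
        (m : ℝ) * ((m : ℝ) + 2) ^ m * (1 / s) := by
      have key : ∀ j < s, ∀ h ∈ (Icc 1 (m + 1)).erase (i / s),
          |(-((j : ℝ) + (h : ℝ) * s) / ((((i / s : ℕ) : ℝ) - h) * s))| ≤ (m : ℝ) + 2 ∧
          1 ≤ |((i / s : ℕ) : ℝ) - h| := by
        intro j hj h hh
        rw [mem_erase, mem_Icc] at hh
        have hne : (1 : ℝ) ≤ |((i / s : ℕ) : ℝ) - h| := by
          generalize i / s = l at hh ⊢
          rcases lt_or_gt_of_ne hh.1 with h' | h'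
          · have : (h : ℝ) + 1 ≤ l := by exact_mod_cast h'
            rw [abs_of_pos (by linarith)]; linarith
          · have : (l : ℝ) + 1 ≤ h := by exact_mod_cast h'
            rw [abs_of_neg (by linarith)]; linarith
        refine ⟨?_, hne⟩
        rw [abs_div, abs_neg, abs_mul, abs_of_nonneg (show (0 : ℝ) ≤ (j : ℝ) + h * s by positivity),
          abs_of_nonneg (show (0 : ℝ) ≤ (s : ℝ) by positivity),
          div_le_iff₀ (mul_pos (by linarith) (by exact_mod_cast hs))]
        have h1 : (j : ℝ) ≤ s := by exact_mod_cast hj.le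
        have h2 : (h : ℝ) ≤ m + 1 := by exact_mod_cast hh.2.2
        have h3 : 0 ≤ (s : ℝ) := by positivity
        have h4 := mul_le_mul_of_nonneg_left (le_mul_of_one_le_left h3 hne)
          (show (0 : ℝ) ≤ (m : ℝ) + 2 by positivity)
        nlinarith [mul_le_mul_of_nonneg_right h2 h3]
      have := prod_diff_le ((Icc 1 (m + 1)).erase (i / s))
        (fun h : ℕ => -((((i - 1) % s : ℕ) : ℝ) + (h : ℝ) * s) / ((((i / s : ℕ) : ℝ) - h) * s))
        (fun h : ℕ => -(((i % s : ℕ) : ℝ) + (h : ℝ) * s) / ((((i / s : ℕ) : ℝ) - h) * s))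
        (show (1 : ℝ) ≤ (m : ℝ) + 2 by linarith [(Nat.cast_nonneg m : (0 : ℝ) ≤ m)])
        (show (0 : ℝ) ≤ 1 / s by positivity)
        (fun h hh => (key _ (by omega) h hh).1) (fun h hh => (key _ hms h hh).1) (fun h hh => ?_)
      · rw [hcard] at this
        exact this
      · have hne := (key _ hms h hh).2
        rw [hmod]
        push_cast
        rw [← sub_div, abs_div, show -((((i - 1) % s : ℕ) : ℝ) + (h : ℝ) * s) -
          -((((i - 1) % s : ℕ) : ℝ) + 1 + (h : ℝ) * s) = 1 by ring, abs_one, abs_mul,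
          abs_of_nonneg (show (0 : ℝ) ≤ (s : ℝ) by positivity)]
        exact div_le_div_of_nonneg_left zero_le_one (by exact_mod_cast hs)
          (le_mul_of_one_le_left (by positivity) hne)
    calc |lw m s ((i - 1) % s) (i / s) - lw m s (i % s) (i / s)| / (s : ℝ)
        ≤ (m : ℝ) * ((m : ℝ) + 2) ^ m * (1 / s) / s := div_le_div_of_nonneg_right hm (by positivity)
      _ = _ := by ring
  · rw [if_neg hc, if_neg (fun h => hc (hcond.mp h)), sub_self, abs_zero]
    positivity

theorem dker_l1 {m s : ℕ} (hs : 0 < s) :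
    ∑ i ∈ range ((m + 2) * s + 2), |dker m s i| ≤ DLam m / s := by
  classical
  set N := (m + 2) * s + 2 with hN
  have hb : ∀ i, |dker m s i| ≤ 2 * Lam m / s := by
    intro i
    have h1 := abs_ker m s i
    have h2 := abs_ker m s (i - 1)
    rw [max_eq_right (show 1 ≤ s from hs)] at h1 h2
    unfold dker
    split
    · exact (abs_sub _ _).trans (by rw [show 2 * Lam m / (s : ℝ) = Lam m / s + Lam m / s by ring]; linarith)
    · rw [zero_sub, abs_neg]
      exact h1.trans (div_le_div_of_nonneg_right (by linarith [one_le_Lam m]) (by positivity))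
  rw [← sum_filter_add_sum_filter_not (range N) (fun i => s ∣ i)]
  have c1 : ((range N).filter fun i => s ∣ i).card ≤ m + 5 := by
    refine le_trans (card_le_card (t := (range (m + 5)).image fun l => l * s) fun i hi => ?_)
      (card_image_le.trans (card_range _).le)
    rw [mem_filter, mem_range] at hi
    obtain ⟨l, rfl⟩ := hi.2
    refine mem_image.mpr ⟨l, mem_range.mpr ?_, mul_comm _ _⟩
    by_contra hl
    have h1 : s * (m + 5) ≤ s * l := Nat.mul_le_mul_left s (not_lt.mp hl)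
    rw [hN] at hi
    nlinarith
  have s1 : ∑ i ∈ (range N).filter (fun i => s ∣ i), |dker m s i| ≤ ((m : ℝ) + 5) * (2 * Lam m / s) := by
    refine (sum_le_sum fun i _ => hb i).trans ?_
    rw [sum_const, nsmul_eq_mul]
    refine mul_le_mul_of_nonneg_right ?_ (div_nonneg (by linarith [one_le_Lam m]) (by positivity))
    exact_mod_cast c1
  have s2 : ∑ i ∈ (range N).filter (fun i => ¬ s ∣ i), |dker m s i| ≤
      (N : ℝ) * ((m : ℝ) * ((m : ℝ) + 2) ^ m / (s : ℝ) ^ 2) := by
    refine (sum_le_sum (g := fun _ => (m : ℝ) * ((m : ℝ) + 2) ^ m / (s : ℝ) ^ 2)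
      fun i hi => ?_).trans ?_
    · rw [mem_filter] at hi
      exact dker_smooth hs (Nat.pos_of_ne_zero fun h => hi.2 (h ▸ dvd_zero s)) hi.2
    · rw [sum_const, nsmul_eq_mul]
      refine mul_le_mul_of_nonneg_right ?_ (by positivity)
      exact_mod_cast (card_filter_le _ _).trans (card_range N).le
  refine (add_le_add s1 s2).trans ?_
  have hs1 : (1 : ℝ) ≤ s := by exact_mod_cast hs
  have hNs : (N : ℝ) ≤ ((m : ℝ) + 4) * s := by rw [hN]; push_cast; nlinarith
  have hm0 : (0 : ℝ) ≤ m := Nat.cast_nonneg m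
  have h3 : (N : ℝ) * ((m : ℝ) * ((m : ℝ) + 2) ^ m / (s : ℝ) ^ 2) ≤
      ((m : ℝ) + 4) * ((m : ℝ) * ((m : ℝ) + 2) ^ m) / s := by
    rw [mul_div_assoc', div_le_div_iff₀ (by positivity) (by linarith)]
    nlinarith [mul_le_mul_of_nonneg_right hNs (show (0 : ℝ) ≤ (m : ℝ) * ((m : ℝ) + 2) ^ m * s by positivity)]
  refine (add_le_add le_rfl h3).trans ?_
  rw [mul_div_assoc', ← add_div]
  refine div_le_div_of_nonneg_right ?_ (by linarith)
  unfold DLam Lam
  have hp : (0 : ℝ) ≤ ((m : ℝ) + 2) ^ m := by positivity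
  rw [pow_succ ((m : ℝ) + 2)]
  have hkey : 2 * ((m : ℝ) + 5) + ((m : ℝ) + 4) * m ≤ 3 * ((m : ℝ) + 5) ^ 2 * ((m : ℝ) + 2) := by
    nlinarith [mul_nonneg hm0 hm0, mul_nonneg (mul_nonneg hm0 hm0) hm0]
  have := mul_le_mul_of_nonneg_right hkey hp
  nlinarith

end Vale.Agent.P321
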