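import Vale.Agent.P321.Lattice

/-!
Balanced pairs of sets, and the cancellation of single marks.
-/

noncomputable section

open Finset Polynomial

namespace Vale.Agent.P321

/-- A pair of disjoint sets balanced for polynomials. -/
def tm : ℕ → Finset ℕ × Finset ℕ
  | 0 => ({0}, {1})
  | d + 1 => ((tm d).1 ∪ (tm d).2.image (fun v => 2 ^ (d + 1) + v),
      (tm d).2 ∪ (tm d).1.image (fun v => 2 ^ (d + 1) + v))

theorem tm_lt : ∀ d : ℕ, (∀ v ∈ (tm d).1, v < 2 ^ (d + 1)) ∧ (∀ v ∈ (tm d).2, v < 2 ^ (d + 1))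
  | 0 => by simp [tm]
  | d + 1 => by
    obtain ⟨h1, h2⟩ := tm_lt d
    have e : 2 ^ (d + 1 + 1) = 2 ^ (d + 1) + 2 ^ (d + 1) := by ring
    constructor
    all_goals
      intro v hv
      simp only [tm, mem_union, mem_image] at hv
      rcases hv with hv | ⟨u, hu, rfl⟩
      · have := h1 v
        have := h2 v
        rw [e]; have := Nat.two_pow_pos (d + 1)
        first
          | (have := h1 v hv; omega)
          | (have := h2 v hv; omega)
      · rw [e]
        first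
          | (have := h1 u hu; omega)
          | (have := h2 u hu; omega)

theorem tm_zero : ∀ d : ℕ, 0 ∈ (tm d).1 ∧ 0 ∉ (tm d).2
  | 0 => by simp [tm]
  | d + 1 => by
    obtain ⟨h1, h2⟩ := tm_zero d
    have := Nat.two_pow_pos (d + 1)
    refine ⟨by simp [tm, h1], ?_⟩
    simp only [tm, mem_union, mem_image, not_or, not_exists, not_and]
    exact ⟨h2, fun u _ => by omega⟩

theorem tm_balanced : ∀ d : ℕ, ∀ P : ℝ[X], P.natDegree ≤ d →
    ∑ v ∈ (tm d).1, P.eval (v : ℝ) = ∑ v ∈ (tm d).2, P.eval (v : ℝ)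
  | 0, P, hP => by
    rw [eq_C_of_natDegree_le_zero hP]
    simp [tm]
  | d + 1, P, hP => by
    obtain ⟨h1, h2⟩ := tm_lt d
    set c : ℝ := ((2 ^ (d + 1) : ℕ) : ℝ) with hc
    set Q := P - taylor c P with hQ
    have hQd : Q.natDegree ≤ d := by
      rw [natDegree_le_iff_coeff_eq_zero]
      intro i hi
      rw [hQ, coeff_sub]
      have hi' : d + 1 ≤ i := hi
      rcases eq_or_lt_of_le (le_trans hP hi') with h | h
      · subst h
        rw [coeff_taylor_natDegree, leadingCoeff, sub_self]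
      · rw [coeff_eq_zero_of_natDegree_lt h, coeff_eq_zero_of_natDegree_lt
          (by rw [natDegree_taylor]; exact h), sub_self]
    have hb := tm_balanced d Q hQd
    have hsum : ∀ X Y : Finset ℕ, (∀ v ∈ X, v < 2 ^ (d + 1)) →
        ∑ v ∈ X ∪ Y.image (fun v => 2 ^ (d + 1) + v), P.eval (v : ℝ) =
          ∑ v ∈ X, P.eval (v : ℝ) + ∑ v ∈ Y, (taylor c P).eval (v : ℝ) := by
      intro X Y hX
      rw [sum_union, sum_image (fun a _ b _ h => by omega)]
      · congr 1
        refine sum_congr rfl fun v _ => ?_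
        rw [taylor_eval, hc]; push_cast; ring_nf
      · rw [disjoint_left]
        intro v hv hv'
        rw [mem_image] at hv'
        obtain ⟨u, -, rfl⟩ := hv'
        have := hX _ hv; omega
    rw [tm, hsum _ _ h1, hsum _ _ h2]
    simp only [hQ, eval_sub, sum_sub_distrib] at hb
    linarith

/-- The signed indicator of a balanced pair. -/
def sgnW (U V : Finset ℕ) (j : ℕ) : ℝ :=
  (if j ∈ U then 1 else 0) - (if j ∈ V then 1 else 0)

theorem sgnW_balanced {d L : ℕ} (hL : 2 ^ (d + 1) ≤ L) (P : ℝ[X]) (hP : P.natDegree ≤ d) :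
    ∑ j ∈ range L, sgnW (tm d).1 (tm d).2 j * P.eval (j : ℝ) = 0 := by
  obtain ⟨h1, h2⟩ := tm_lt d
  have e1 : range L ∩ (tm d).1 = (tm d).1 :=
    inter_eq_right.mpr fun v hv => mem_range.mpr (lt_of_lt_of_le (h1 v hv) hL)
  have e2 : range L ∩ (tm d).2 = (tm d).2 :=
    inter_eq_right.mpr fun v hv => mem_range.mpr (lt_of_lt_of_le (h2 v hv) hL)
  simp only [sgnW, sub_mul, ite_mul, one_mul, zero_mul, sum_sub_distrib, sum_ite_mem, e1, e2]
  rw [tm_balanced d P hP, sub_self]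

theorem abs_sgnW (U V : Finset ℕ) (j : ℕ) : |sgnW U V j| ≤ 1 := by
  unfold sgnW; split_ifs <;> norm_num

variable {σ : Type}

/-- Multiplication with a fixed middle factor, as a bilinear map. -/
def midMul (d : Alg σ) : Alg σ →ₗ[ℝ] Alg σ →ₗ[ℝ] Alg σ :=
  LinearMap.mk₂ ℝ (fun x y => x * d * y) (fun x x' y => by simp [add_mul])
    (fun c x y => by simp [smul_mul_assoc]) (fun x y y' => by simp [mul_add])
    (fun c x y => by simp [mul_smul_comm])

theorem lin_kill {a d : Alg σ} (ha : IsProb a) {tau : ℝ} (ht : 0 ≤ tau) (hs : Smooth a tau)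
    (m G0 G H L : ℕ) (w : ℕ → ℝ)
    (hw : ∀ P : ℝ[X], P.natDegree ≤ 2 * m → ∑ j ∈ range L, w j * P.eval (j : ℝ) = 0)
    (hL : L ≤ H) (hGm : m + 1 ≤ G0) (hG : G0 ≤ G) (hHL : G0 ≤ H - L)
    (hγ : (L : ℝ) * Real.sqrt (2 * ((m : ℝ) + 1) * tau / G0) ≤ 1) :
    nrm (∑ j ∈ range L, w j • (a ^ (G + j) * d * a ^ (H - j))) ≤
      nrm d * ((m : ℝ) + 2) * (∑ j ∈ range L, |w j|) *
        ((L : ℝ) * Real.sqrt (2 * ((m : ℝ) + 1) * tau / G0)) ^ (m + 1) := by
  have hB : ∀ x y, nrm (midMul d x y) ≤ nrm d * (nrm x * nrm y) := fun x y =>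
    (nrm_mul3 x d y).trans (le_of_eq (by ring))
  have hh : ∀ X : ℕ, G0 ≤ X → ∀ i ≤ m + 1, nrm (a ^ X * (a - 1) ^ i) ≤
      Real.sqrt (2 * ((m : ℝ) + 1) * tau / G0) ^ i := by
    intro X hX i hi
    refine (pow_smooth ha.nrm_eq.le ht hs (le_trans hGm hX) hi).trans
      (pow_le_pow_left₀ (Real.sqrt_nonneg _) (Real.sqrt_le_sqrt ?_) i)
    exact div_le_div_of_nonneg_left (by positivity) (by exact_mod_cast (by omega : 0 < G0))
      (by exact_mod_cast hX)
  have := exchange_gen ha.nrm_eq.le (midMul d) (nrm_nonneg d) hB m G H L w 0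
    (fun P hP => by rw [hw P hP, zero_mul]) (Real.sqrt_nonneg _) hγ hL (hh G hG) (hh _ hHL) le_rfl
  rw [zero_smul, sub_zero, abs_zero, add_zero] at this
  exact this.trans (le_of_eq (by ring))

end Vale.Agent.P321
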