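import Vale.Agent.P321.Tilt

/-!
A sparse word of tilted units is close to the plain power.
-/

noncomputable section

open Finset

namespace Vale.Agent.P321

variable {σ : Type}

/-- A uniform bound on the smoothing errors of up to `K` marks. -/
def uerr (m D K : ℕ) (tau : ℝ) (n : ℕ) : ℝ :=
  ((K : ℝ) + 2) ^ 2 * ((n : ℝ) + 1) ^ (K + 1) * L1c m ^ (K + 1) * gam m D tau ^ (m + 1)

theorem serr_le_uerr {m D K k n : ℕ} {tau r : ℝ} (hr0 : 0 ≤ r) (hr : r ≤ 1) (hk : k ≤ K) :
    (n : ℝ) ^ k * serr m D k tau r ≤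
      (K : ℝ) * ((n : ℝ) + 1) ^ K * L1c m ^ (K + 1) * gam m D tau ^ (m + 1) := by
  have hL := one_le_L1c m
  have hg : 0 ≤ gam m D tau := by unfold gam; positivity
  have h1 : (n : ℝ) ^ k ≤ ((n : ℝ) + 1) ^ K :=
    (pow_le_pow_left₀ (Nat.cast_nonneg n) (by linarith) k).trans
      (pow_le_pow_right₀ (by have : (0 : ℝ) ≤ n := Nat.cast_nonneg n; linarith) hk)
  have h2 : serr m D k tau r ≤ (K : ℝ) * L1c m ^ (K + 1) * gam m D tau ^ (m + 1) := by
    unfold serr
    calc (k : ℝ) * L1c m ^ k * (r ^ k * (L1c m * gam m D tau ^ (m + 1)))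
        ≤ (K : ℝ) * L1c m ^ K * (1 * (L1c m * gam m D tau ^ (m + 1))) := by
          gcongr
          exact pow_le_one₀ hr0 hr
      _ = _ := by ring
  calc (n : ℝ) ^ k * serr m D k tau r ≤
      ((n : ℝ) + 1) ^ K * ((K : ℝ) * L1c m ^ (K + 1) * gam m D tau ^ (m + 1)) :=
        mul_le_mul h1 h2 (serr_nonneg m D k hr0) (by positivity)
    _ = _ := by ring

theorem lattice_trunc {a : Alg σ} (ha : IsProb a) {f : FreeMonoid σ → ℝ} {r : ℝ}
    (hf : IsTilt a f r) (hr : r ≤ 1) {tau : ℝ} (ht : 0 ≤ tau) (hs : Smooth a tau)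
    {m D K c0 P J N : ℕ} (hD : 4 * (K + 1) * (2 * m + 3) ≤ D) (hg : gam m D tau ≤ 1)
    {U : Finset ℕ} (hU : Sparse U c0 P) (hP : 0 < P) (hJ : N / P ≤ J) :
    nrm (wd a (a + dlt a f) U N - ∑ k ∈ range (K + 1), Xk a (dlt a f) U k N) ≤
      (U.card : ℝ) * ((K : ℝ) + 1) * Real.sqrt ((kap 1 * r ^ 2 * Sbd m D c0 P J) ^ K)
        + uerr m D K tau U.card := by
  classical
  have hL := one_le_L1c m
  have hg0 : 0 ≤ gam m D tau := by unfold gam; positivity
  set rho := kap 1 * r ^ 2 * Sbd m D c0 P J with hrho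
  set e0 := (K : ℝ) * ((U.card : ℝ) + 1) ^ K * L1c m ^ (K + 1) * gam m D tau ^ (m + 1) with he0
  have hX : ∀ u ∈ (range N).filter (fun i => i ∈ U),
      nrm (Xk a (dlt a f) U K u) ≤ ((K : ℝ) + 1) * Real.sqrt (rho ^ K) + e0 := by
    intro u hu
    rw [mem_filter, mem_range] at hu
    obtain ⟨c', h1, h2, h3⟩ := Xk_coef (p := 1) (k := K) (n := u) ha hf ht hs hD hg hU hP
      (le_trans (Nat.div_le_div_right hu.1.le) hJ)
    have hmom := moment_bound ha (fun w _ => hf.1 w) hf.2 (cf_dlt a f) le_rfl u c' h1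
    have hn := hmom.nrm_le (ha.pow u)
    have hn' : nrm (psi a (dlt a f) c') ≤ ((K : ℝ) + 1) * Real.sqrt (rho ^ K) := by
      refine hn.trans ((Real.sqrt_le_sqrt h2).trans (le_of_eq ?_))
      rw [Real.sqrt_mul (sq_nonneg _), Real.sqrt_sq (by positivity)]
    calc nrm (Xk a (dlt a f) U K u)
        ≤ nrm (Xk a (dlt a f) U K u - psi a (dlt a f) c') + nrm (psi a (dlt a f) c') := by
          have := nrm_add (Xk a (dlt a f) U K u - psi a (dlt a f) c') (psi a (dlt a f) c')
          rwa [sub_add_cancel] at this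
      _ ≤ e0 + ((K : ℝ) + 1) * Real.sqrt (rho ^ K) :=
          add_le_add (h3.trans (serr_le_uerr hf.nonneg hr le_rfl)) hn'
      _ = _ := by ring
  refine (expand_trunc ha.nrm_eq.le (isProb_tilt ha hf hr).nrm_eq.le U K N).trans ?_
  refine (mul_le_of_le_one_left (sum_nonneg fun _ _ => nrm_nonneg _)
    ((nrm_dlt ha hf).trans hr)).trans ((sum_le_sum hX).trans ?_)
  rw [sum_const, nsmul_eq_mul]
  have hcard : (((range N).filter (fun i => i ∈ U)).card : ℝ) ≤ U.card := by
    exact_mod_cast card_le_card fun i hi => (mem_filter.mp hi).2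
  have he : 0 ≤ e0 := by rw [he0]; positivity
  refine (mul_le_mul_of_nonneg_right hcard (by positivity)).trans ?_
  have : (U.card : ℝ) * e0 ≤ uerr m D K tau U.card := by
    rw [he0, uerr, show (U.card : ℝ) * ((K : ℝ) * ((U.card : ℝ) + 1) ^ K * L1c m ^ (K + 1) * gam m D tau ^ (m + 1))
      = ((U.card : ℝ) * (K : ℝ) * ((U.card : ℝ) + 1) ^ K) * L1c m ^ (K + 1) * gam m D tau ^ (m + 1) by ring]
    refine mul_le_mul_of_nonneg_right (mul_le_mul_of_nonneg_right ?_ (by positivity)) (by positivity)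
    have h0 : (0 : ℝ) ≤ U.card := Nat.cast_nonneg _
    have hK : (0 : ℝ) ≤ K := Nat.cast_nonneg _
    calc (U.card : ℝ) * K * ((U.card : ℝ) + 1) ^ K
        ≤ ((U.card : ℝ) + 1) * ((K : ℝ) + 2) ^ 2 * ((U.card : ℝ) + 1) ^ K := by
          gcongr
          · linarith
          · nlinarith
      _ = _ := by ring
  linarith

theorem lattice_close {a : Alg σ} (ha : IsProb a) {f : FreeMonoid σ → ℝ} {r : ℝ}
    (hf : IsTilt a f r) (hr : r ≤ 1) {tau : ℝ} (ht : 0 ≤ tau) (hs : Smooth a tau)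
    {m D K c0 P J N : ℕ} (hD : 4 * (K + 1) * (2 * m + 3) ≤ D) (hg : gam m D tau ≤ 1)
    {U : Finset ℕ} (hU : Sparse U c0 P) (hP : 0 < P) (hJ : N / P ≤ J)
    (hrho : kap 1 * r ^ 2 * Sbd m D c0 P J ≤ 1) :
    nrm (wd a (a + dlt a f) U N - a ^ N) ≤
      ((K : ℝ) + 1) ^ 2 * Real.sqrt (kap 1 * r ^ 2 * Sbd m D c0 P J)
        + (U.card : ℝ) * ((K : ℝ) + 1) * Real.sqrt ((kap 1 * r ^ 2 * Sbd m D c0 P J) ^ K)
        + ((K : ℝ) + 1) * uerr m D K tau U.card := by
  classical
  have hL := one_le_L1c m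
  have hg0 : 0 ≤ gam m D tau := by unfold gam; positivity
  set rho := kap 1 * r ^ 2 * Sbd m D c0 P J with hrd
  have hrho0 : 0 ≤ rho := by
    rw [hrd]; have := kap_pos 1; have := Sbd_nonneg m D c0 P J; positivity
  have hue : (K : ℝ) * ((U.card : ℝ) + 1) ^ K * L1c m ^ (K + 1) * gam m D tau ^ (m + 1) ≤
      uerr m D K tau U.card := by
    unfold uerr
    have h0 : (0 : ℝ) ≤ U.card := Nat.cast_nonneg _
    have hK : (0 : ℝ) ≤ K := Nat.cast_nonneg _
    gcongr ?_ * ?_ * _ * _
    · nlinarith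
    · exact pow_le_pow_right₀ (by linarith) (Nat.le_succ K)
  have hX : ∀ k ∈ range K, nrm (Xk a (dlt a f) U (k + 1) N) ≤
      ((K : ℝ) + 1) * Real.sqrt rho + uerr m D K tau U.card := by
    intro k hk
    rw [mem_range] at hk
    have hD' : 4 * (k + 1 + 1) * (2 * m + 3) ≤ D := le_trans (by gcongr; omega) hD
    obtain ⟨c', h1, h2, h3⟩ := Xk_coef (p := 1) (k := k + 1) (n := N) ha hf ht hs hD' hg hU hP hJ
    have hmom := moment_bound ha (fun w _ => hf.1 w) hf.2 (cf_dlt a f) le_rfl N c' h1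
    have hn := (hmom.nrm_le (ha.pow N)).trans (Real.sqrt_le_sqrt h2)
    have h4 : Real.sqrt ((((k + 1 : ℕ) : ℝ) + 1) ^ 2 * rho ^ (k + 1)) ≤ ((K : ℝ) + 1) * Real.sqrt rho := by
      rw [Real.sqrt_mul (sq_nonneg _), Real.sqrt_sq (by positivity)]
      gcongr
      · exact_mod_cast hk
      · exact pow_le_of_le_one hrho0 hrho (by omega)
    calc nrm (Xk a (dlt a f) U (k + 1) N)
        ≤ nrm (Xk a (dlt a f) U (k + 1) N - psi a (dlt a f) c') + nrm (psi a (dlt a f) c') := by
          have := nrm_add (Xk a (dlt a f) U (k + 1) N - psi a (dlt a f) c') (psi a (dlt a f) c')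
          rwa [sub_add_cancel] at this
      _ ≤ uerr m D K tau U.card + ((K : ℝ) + 1) * Real.sqrt rho :=
          add_le_add ((h3.trans (serr_le_uerr hf.nonneg hr (by omega : k + 1 ≤ K))).trans hue)
            (hn.trans h4)
      _ = _ := by ring
  have h1 := lattice_trunc ha hf hr ht hs hD hg hU hP hJ (K := K)
  have h2 : nrm ((∑ k ∈ range (K + 1), Xk a (dlt a f) U k N) - a ^ N) ≤
      (K : ℝ) * (((K : ℝ) + 1) * Real.sqrt rho + uerr m D K tau U.card) := by
    rw [sum_range_succ', Xk_zero, add_sub_cancel_right]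
    refine ((nrm_sum _ _).trans (sum_le_sum hX)).trans ?_
    simp; linarith
  have hu0 : 0 ≤ uerr m D K tau U.card := le_trans (by positivity) hue
  have hsq : 0 ≤ Real.sqrt rho := Real.sqrt_nonneg _
  refine (nrm_tri _ (∑ k ∈ range (K + 1), Xk a (dlt a f) U k N) _).trans ?_
  refine (add_le_add h1 h2).trans ?_
  nlinarith

/-- Tilt from a pointwise bound. -/
theorem clip_tilt {a y z : Alg σ} (ha : IsProb a) (hy : IsProb y) {R e1 e2 : ℝ} (hR : 0 ≤ R)
    (h1 : nrm (y - a - z) ≤ e1)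
    (h2 : ∀ S : Finset (FreeMonoid σ), ∑ w ∈ S, max (|cf z w| - R * cf a w) 0 ≤ e2) :
    ∃ f, IsTilt a f (2 * R) ∧ nrm (y - (a + dlt a f)) ≤ 2 * (e1 + e2) := by
  classical
  set f1 : FreeMonoid σ → ℝ := fun w => max (-R) (min R (cf z w / cf a w)) with hf1
  have hb : ∀ w, |f1 w| ≤ R := fun w => by
    rw [abs_le, hf1]
    exact ⟨le_max_left _ _, max_le (by linarith) (min_le_left _ _)⟩
  have hpt : ∀ w, |cf z w - cf a w * f1 w| ≤ max (|cf z w| - R * cf a w) 0 := by
    intro w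
    rcases (ha.1 w).eq_or_lt with h | h
    · rw [← h]; simp
    · have e : cf a w * f1 w = max (-(R * cf a w)) (min (R * cf a w) (cf z w)) := by
        rw [hf1, mul_max_of_nonneg _ _ h.le, mul_min_of_nonneg _ _ h.le, mul_div_cancel₀ _ h.ne']
        ring_nf
      rw [e]
      have hRa : 0 ≤ R * cf a w := mul_nonneg hR h.le
      rcases le_total (R * cf a w) (cf z w) with h' | h'
      · rw [min_eq_left h', max_eq_right (by linarith), abs_of_nonneg (by linarith)]
        exact le_max_of_le_left (by linarith [le_abs_self (cf z w)])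
      · rw [min_eq_right h']
        rcases le_total (-(R * cf a w)) (cf z w) with h'' | h''
        · rw [max_eq_right h'', sub_self, abs_zero]; exact le_max_right _ _
        · rw [max_eq_left h'', abs_of_nonpos (by linarith)]
          exact le_max_of_le_left (by linarith [neg_le_abs (cf z w)])
  have hd : nrm (z - dlt a f1) ≤ e2 := by
    rw [nrm]
    refine le_trans (sum_le_sum fun w _ => ?_) (h2 _)
    rw [cf_sub, cf_dlt]
    exact hpt w
  set mu := ∑ w ∈ supp a, cf a w * f1 w with hmu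
  have hmass : mass (dlt a f1) = mu := by
    rw [dlt, mass_sum, sum_congr rfl (fun w _ => mass_pt w _)]
  have hmu_le : |mu| ≤ e1 + e2 := by
    have e : -mu = mass ((y - a - z) + (z - dlt a f1)) := by
      have e1' : (y - a - z) + (z - dlt a f1) = y + (-1 : ℝ) • a + (-1 : ℝ) • dlt a f1 := by
        simp only [neg_smul, one_smul]; abel
      rw [e1', mass_add, mass_add, mass_smul, mass_smul, hy.2, ha.2, hmass]; ring
    calc |mu| = |-mu| := (abs_neg mu).symm
      _ ≤ nrm ((y - a - z) + (z - dlt a f1)) := by rw [e]; exact abs_mass_le _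
      _ ≤ e1 + e2 := (nrm_add _ _).trans (add_le_add h1 hd)
  have hmuR : |mu| ≤ R := by
    rw [hmu]
    refine (abs_sum_le_sum_abs _ _).trans ?_
    calc ∑ w ∈ supp a, |cf a w * f1 w| ≤ ∑ w ∈ supp a, cf a w * R := by
          refine sum_le_sum fun w _ => ?_
          rw [abs_mul, abs_of_nonneg (ha.1 w)]
          exact mul_le_mul_of_nonneg_left (hb w) (ha.1 w)
      _ = R := by rw [← sum_mul, show ∑ w ∈ supp a, cf a w = 1 from ha.2, one_mul]
  refine ⟨fun w => f1 w - mu, ⟨fun w => ?_, ?_⟩, ?_⟩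
  · exact (abs_sub _ _).trans (by linarith [hb w])
  · simp only [mul_sub, sum_sub_distrib, ← sum_mul, show ∑ w ∈ supp a, cf a w = 1 from ha.2]
    rw [← hmu]; ring
  · have e : y - (a + dlt a (fun w => f1 w - mu)) = (y - a - z) + (z - dlt a f1) + mu • a :=
      ext_cf fun w => by simp [cf_dlt]; ring
    rw [e]
    refine (nrm_add _ _).trans ((add_le_add (nrm_add _ _) le_rfl).trans ?_)
    rw [nrm_smul, ha.nrm_eq, mul_one]
    linarith

/-- Coefficientwise domination. -/
def Dom (x y : Alg σ) : Prop := ∀ w, |cf x w| ≤ cf y w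

theorem Dom.mul {x y x' y' : Alg σ} (h : Dom x y) (h' : Dom x' y') : Dom (x * x') (y * y') := by
  classical
  intro w
  rw [cf_mul x x' (S := supp x ∪ supp y) (T := supp x' ∪ supp y') subset_union_left subset_union_left,
    cf_mul y y' (S := supp x ∪ supp y) (T := supp x' ∪ supp y') subset_union_right subset_union_right]
  refine (abs_sum_le_sum_abs _ _).trans (sum_le_sum fun uv _ => ?_)
  rw [abs_mul]
  exact mul_le_mul (h _) (h' _) (abs_nonneg _) (le_trans (abs_nonneg _) (h _))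

theorem Dom.add {x y x' y' : Alg σ} (h : Dom x y) (h' : Dom x' y') : Dom (x + x') (y + y') :=
  fun w => by rw [cf_add, cf_add]; exact (abs_add_le _ _).trans (add_le_add (h w) (h' w))

theorem Dom.refl {x : Alg σ} (h : Pos x) : Dom x x := fun w => (abs_of_nonneg (h w)).le

theorem Dom.smul {x y : Alg σ} (c : ℝ) (h : Dom x y) : Dom (c • x) (|c| • y) := fun w => by
  rw [cf_smul, cf_smul, abs_mul]; exact mul_le_mul_of_nonneg_left (h w) (abs_nonneg _)

theorem dom_dlt {a : Alg σ} (ha : IsProb a) {f : FreeMonoid σ → ℝ} {r : ℝ} (h : IsTilt a f r) :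
    Dom (dlt a f) (r • a) := fun w => by
  rw [cf_dlt, cf_smul, abs_mul, abs_of_nonneg (ha.1 w), mul_comm]
  exact mul_le_mul_of_nonneg_right (h.1 w) (ha.1 w)

theorem dom_wd {a : Alg σ} (ha : IsProb a) {f : FreeMonoid σ → ℝ} {r : ℝ} (h : IsTilt a f r)
    (S : Finset ℕ) : ∀ N : ℕ,
    Dom (wd a (dlt a f) S N) (r ^ ((range N).filter (fun i => i ∈ S)).card • a ^ N)
  | 0 => by simpa using Dom.refl Pos.one
  | N + 1 => by
    rw [wd_succ, range_add_one, filter_insert]
    by_cases hN : N ∈ S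
    · rw [if_pos hN, if_pos hN, card_insert_of_notMem (by simp), pow_succ, pow_succ a,
        ← smul_smul, ← mul_smul_comm, ← smul_mul_assoc]
      exact (dom_wd ha h S N).mul (dom_dlt ha h)
    · rw [if_neg hN, if_neg hN, pow_succ a, ← smul_mul_assoc]
      exact (dom_wd ha h S N).mul (Dom.refl ha.1)

theorem pos_wd {a b : Alg σ} (ha : Pos a) (hb : Pos b) (S : Finset ℕ) : ∀ N, Pos (wd a b S N)
  | 0 => Pos.one
  | N + 1 => by
    rw [wd_succ]
    refine (pos_wd ha hb S N).mul ?_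
    split <;> assumption

theorem isProb_wd {a b : Alg σ} (ha : IsProb a) (hb : IsProb b) (S : Finset ℕ) :
    ∀ N, IsProb (wd a b S N)
  | 0 => IsProb.one
  | N + 1 => by
    rw [wd_succ]
    refine (isProb_wd ha hb S N).mul ?_
    split <;> assumption

theorem wd_lower {a : Alg σ} (ha : IsProb a) {f : FreeMonoid σ → ℝ} {r : ℝ} (h : IsTilt a f r)
    (hr : r ≤ 1) (S : Finset ℕ) : ∀ N w, (1 - r) ^ ((range N).filter (fun i => i ∈ S)).card *
      cf (a ^ N) w ≤ cf (wd a (a + dlt a f) S N) w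
  | 0, w => by simp
  | N + 1, w => by
    classical
    have hb := isProb_tilt ha h hr
    have hW := pos_wd ha.1 hb.1 S N
    rw [wd_succ, pow_succ a, range_add_one, filter_insert]
    set c := ((range N).filter (fun i => i ∈ S)).card with hc
    set W := wd a (a + dlt a f) S N
    have h1 : 0 ≤ 1 - r := by linarith
    by_cases hN : N ∈ S
    · rw [if_pos hN, if_pos hN, card_insert_of_notMem (by simp), ← hc, pow_succ,
        cf_mul (a ^ N) a (S := supp (a ^ N) ∪ supp W) (T := supp a ∪ supp (a + dlt a f))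
          subset_union_left subset_union_left,
        cf_mul W (a + dlt a f) (S := supp (a ^ N) ∪ supp W) (T := supp a ∪ supp (a + dlt a f))
          subset_union_right subset_union_right, mul_sum]
      refine sum_le_sum fun uv _ => ?_
      have h2 : (1 - r) * cf a uv.2 ≤ cf (a + dlt a f) uv.2 := by
        rw [cf_add, cf_dlt]
        have := abs_le.mp (h.1 uv.2)
        nlinarith [ha.1 uv.2]
      calc (1 - r) ^ c * (1 - r) * (cf (a ^ N) uv.1 * cf a uv.2)
          = ((1 - r) ^ c * cf (a ^ N) uv.1) * ((1 - r) * cf a uv.2) := by ring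
        _ ≤ _ := mul_le_mul (wd_lower ha h hr S N uv.1) h2 (mul_nonneg h1 (ha.1 _)) (hW _)
    · rw [if_neg hN, if_neg hN, ← hc,
        cf_mul (a ^ N) a (S := supp (a ^ N) ∪ supp W) (T := supp a) subset_union_left subset_rfl,
        cf_mul W a (S := supp (a ^ N) ∪ supp W) (T := supp a) subset_union_right subset_rfl, mul_sum]
      refine sum_le_sum fun uv _ => ?_
      rw [← mul_assoc]
      exact mul_le_mul_of_nonneg_right (wd_lower ha h hr S N uv.1) (ha.1 _)

end Vale.Agent.P321
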