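import Vale.Agent.P321.Alg

/-!
Coefficient vectors over two letters and the moment bound for their images.
-/

noncomputable section

open Finset

namespace Vale.Agent.P321

variable {σ : Type}

/-- The monoid map sending `false` to `a` and `true` to `b`. -/
def psiM (a b : Alg σ) : FreeMonoid Bool →* Alg σ :=
  FreeMonoid.lift fun c => if c then b else a

/-- The algebra map sending `false` to `a` and `true` to `b`. -/
def psi (a b : Alg σ) : Alg Bool →ₐ[ℝ] Alg σ :=
  MonoidAlgebra.lift ℝ (Alg σ) (FreeMonoid Bool) (psiM a b)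

theorem psi_pt (a b : Alg σ) (w : FreeMonoid Bool) (r : ℝ) :
    psi a b (pt w r) = r • psiM a b w := MonoidAlgebra.lift_single ..

@[simp] theorem psiM_of (a b : Alg σ) (c : Bool) :
    psiM a b (FreeMonoid.of c) = if c then b else a := FreeMonoid.lift_eval_of _ _

/-- Number of marked letters. -/
def cnt (w : FreeMonoid Bool) : ℕ := w.toList.count true

/-- Length of a word. -/
def len (w : FreeMonoid Bool) : ℕ := w.toList.length

theorem cnt_of_mul (c : Bool) (v : FreeMonoid Bool) :
    cnt (FreeMonoid.of c * v) = cnt v + if c then 1 else 0 := by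
  cases c <;> simp [cnt, FreeMonoid.toList_mul, FreeMonoid.toList_of]

theorem len_of_mul (c : Bool) (v : FreeMonoid Bool) :
    len (FreeMonoid.of c * v) = len v + 1 := by
  simp [len, FreeMonoid.toList_mul, FreeMonoid.toList_of, add_comm]

/-- All words in the support have length `N`. -/
def Homog (N : ℕ) (c : Alg Bool) : Prop := ∀ w, cf c w ≠ 0 → len w = N

/-- Weighted square sum. -/
def wsq (K : ℝ) (c : Alg Bool) : ℝ := ∑ w ∈ supp c, K ^ cnt w * cf c w ^ 2

theorem wsq_eq (K : ℝ) (c : Alg Bool) {S : Finset (FreeMonoid Bool)} (h : supp c ⊆ S) :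
    wsq K c = ∑ w ∈ S, K ^ cnt w * cf c w ^ 2 :=
  sum_cf_subset c h (fun w r => K ^ cnt w * r ^ 2) (fun w => by simp)

theorem wsq_nonneg {K : ℝ} (hK : 0 ≤ K) (c : Alg Bool) : 0 ≤ wsq K c :=
  sum_nonneg fun _ _ => by positivity

open scoped Classical in
theorem cf_of_mul (c : Bool) (x : Alg Bool) (w : FreeMonoid Bool) :
    cf (pt (FreeMonoid.of c) 1 * x) w =
      ∑ v ∈ (supp x).filter (fun v => FreeMonoid.of c * v = w), cf x v := by
  rw [cf_mul _ x (S := {FreeMonoid.of c}) (T := supp x) ?_ subset_rfl]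
  · refine sum_nbij' (fun uv => uv.2) (fun v => (FreeMonoid.of c, v)) ?_ ?_ ?_ ?_ ?_
    · intro uv h
      rw [mem_filter] at h ⊢
      rw [mem_product, mem_singleton] at *
      exact ⟨h.1.2, by rw [← h.1.1]; exact h.2⟩
    · intro v h
      rw [mem_filter] at h ⊢
      rw [mem_product, mem_singleton] at *
      exact ⟨⟨rfl, h.1⟩, h.2⟩
    · intro uv h
      rw [mem_filter, mem_product, mem_singleton] at h
      exact Prod.ext h.1.1.symm rfl
    · intro v _; rfl
    · intro uv h
      simp only [mem_filter, mem_product, mem_singleton] at h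
      rw [cf_pt, if_pos h.1.1.symm, one_mul]
  · intro v hv
    rw [mem_supp, cf_pt] at hv
    simp only [mem_singleton]
    by_contra h
    exact hv (by rw [if_neg (Ne.symm h)])

theorem cf_of_mul_of (c d : Bool) (x : Alg Bool) (v : FreeMonoid Bool) :
    cf (pt (FreeMonoid.of c) 1 * x) (FreeMonoid.of d * v) = if c = d then cf x v else 0 := by
  classical
  rw [cf_of_mul]
  have hinj : ∀ v', FreeMonoid.of c * v' = FreeMonoid.of d * v → c = d ∧ v' = v := by
    intro v' h
    have := congrArg FreeMonoid.toList h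
    simp only [FreeMonoid.toList_mul, FreeMonoid.toList_of, List.singleton_append,
      List.cons.injEq] at this
    exact ⟨this.1, FreeMonoid.toList.injective this.2⟩
  split
  · rename_i hcd
    subst hcd
    rw [show (supp x).filter (fun v' => FreeMonoid.of c * v' = FreeMonoid.of c * v) =
      (supp x).filter (fun v' => v = v') from
        filter_congr fun v' _ => ⟨fun h => (hinj v' h).2.symm, fun h => by rw [h]⟩, filter_eq]
    split
    · simp
    · rename_i h; simp [not_mem_supp h]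
  · rename_i hcd
    exact sum_eq_zero fun v' hv' => absurd (hinj v' (mem_filter.mp hv').2).1 hcd

theorem cf_of_mul_one (c : Bool) (x : Alg Bool) :
    cf (pt (FreeMonoid.of c) 1 * x) 1 = 0 := by
  classical
  rw [cf_of_mul]
  refine sum_eq_zero fun v hv => ?_
  have := congrArg len (mem_filter.mp hv).2
  rw [len_of_mul] at this
  simp [len] at this

open scoped Classical in
/-- Removing the first letter `c`. -/
def peel (c : Bool) (x : Alg Bool) : Alg Bool :=
  ∑ v ∈ (supp x).image (fun w => FreeMonoid.ofList w.toList.tail),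
    pt v (cf x (FreeMonoid.of c * v))

theorem cf_peel (c : Bool) (x : Alg Bool) (v : FreeMonoid Bool) :
    cf (peel c x) v = cf x (FreeMonoid.of c * v) := by
  classical
  rw [peel, cf_sum]
  simp only [cf_pt]
  rw [sum_ite_eq']
  split
  · rfl
  · rename_i h
    by_contra hne
    apply h
    rw [mem_image]
    exact ⟨FreeMonoid.of c * v, mem_supp.mpr (fun h' => hne h'.symm),
      by simp [FreeMonoid.toList_mul, FreeMonoid.toList_of]⟩

theorem word_cases (w : FreeMonoid Bool) :
    w = 1 ∨ ∃ c v, w = FreeMonoid.of c * v := by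
  rcases hl : w.toList with _ | ⟨c, l⟩
  · left; exact FreeMonoid.toList.injective (by simpa using hl)
  · right
    exact ⟨c, FreeMonoid.ofList l, FreeMonoid.toList.injective
      (by simp [FreeMonoid.toList_mul, FreeMonoid.toList_of, hl])⟩

theorem peel_decomp {N : ℕ} {x : Alg Bool} (hx : Homog (N + 1) x) :
    x = pt (FreeMonoid.of false) 1 * peel false x + pt (FreeMonoid.of true) 1 * peel true x := by
  refine ext_cf fun w => ?_
  rcases word_cases w with h | ⟨c, v, h⟩
  · subst h
    rw [cf_add, cf_of_mul_one, cf_of_mul_one, add_zero]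
    by_contra hne
    have := hx 1 hne
    simp [len] at this
  · subst h
    rw [cf_add, cf_of_mul_of, cf_of_mul_of, cf_peel, cf_peel]
    cases c <;> simp

theorem homog_peel {N : ℕ} {x : Alg Bool} (hx : Homog (N + 1) x) (c : Bool) :
    Homog N (peel c x) := by
  intro v hv
  rw [cf_peel] at hv
  have := hx _ hv
  rw [len_of_mul] at this
  omega

theorem wsq_peel {N : ℕ} {x : Alg Bool} (hx : Homog (N + 1) x) (K : ℝ) :
    wsq K x = wsq K (peel false x) + K * wsq K (peel true x) := by
  classical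
  set T := (supp x).image (fun w => FreeMonoid.ofList w.toList.tail) with hT
  have hsub : ∀ c, supp (peel c x) ⊆ T := by
    intro c v hv
    rw [mem_supp, cf_peel] at hv
    rw [hT, mem_image]
    exact ⟨_, mem_supp.mpr hv, by simp [FreeMonoid.toList_mul, FreeMonoid.toList_of]⟩
  have hx' : supp x ⊆ T.image (fun v => FreeMonoid.of false * v) ∪
      T.image (fun v => FreeMonoid.of true * v) := by
    intro w hw
    rcases word_cases w with h | ⟨c, v, h⟩
    · have := hx w (mem_supp.mp hw)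
      simp [h, len] at this
    · have hv : v ∈ T := mem_image.mpr ⟨w, hw, by
        simp [h, FreeMonoid.toList_mul, FreeMonoid.toList_of]⟩
      rw [mem_union, mem_image, mem_image]
      cases c
      · exact Or.inl ⟨v, hv, h.symm⟩
      · exact Or.inr ⟨v, hv, h.symm⟩
  have inj : ∀ c : Bool, Function.Injective fun v : FreeMonoid Bool => FreeMonoid.of c * v :=
    fun c => mul_right_injective _
  rw [wsq_eq K x hx', sum_union, sum_image (fun a _ b _ h => inj false h),
    sum_image (fun a _ b _ h => inj true h), wsq_eq K _ (hsub false), wsq_eq K _ (hsub true),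
    mul_sum]
  · congr 1
    · exact sum_congr rfl fun v _ => by rw [cnt_of_mul, cf_peel]; simp
    · exact sum_congr rfl fun v _ => by rw [cnt_of_mul, cf_peel]; simp [pow_succ]; ring
  · rw [disjoint_left]
    intro w h1 h2
    rw [mem_image] at h1 h2
    obtain ⟨v1, -, e1⟩ := h1
    obtain ⟨v2, -, e2⟩ := h2
    have := congrArg FreeMonoid.toList (e1.trans e2.symm)
    simp [FreeMonoid.toList_mul, FreeMonoid.toList_of] at this

/-- The constant in the elementary inequality. -/
def kap (p : ℕ) : ℝ := 2 * 4 ^ p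

theorem kap_pos (p : ℕ) : 0 < kap p := by unfold kap; positivity

theorem pow_ineq {p : ℕ} (hp : 1 ≤ p) (x y : ℝ) :
    (x + y) ^ (2 * p) ≤ (x ^ 2 + kap p * y ^ 2) ^ p + 2 * p * x ^ (2 * p - 1) * y := by
  obtain ⟨q, rfl⟩ : ∃ q, p = q + 1 := ⟨p - 1, by omega⟩
  set n := 2 * (q + 1) with hn
  have hsplit : (x + y) ^ n = (∑ i ∈ range (n - 1), x ^ i * y ^ (n - i) * (n.choose i : ℝ))
      + x ^ (n - 1) * y * n + x ^ n := by
    rw [add_pow, show n + 1 = (n - 1) + 1 + 1 by omega, sum_range_succ, sum_range_succ,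
      show n - 1 + 1 = n by omega, show n - (n - 1) = 1 by omega]
    have : n.choose (n - 1) = n := by
      rw [Nat.choose_symm (show 1 ≤ n by omega), Nat.choose_one_right]
    rw [this]; simp
  set M := x ^ (2 * q) * y ^ 2 + y ^ (2 * q + 2) with hM
  have e2q : ∀ t : ℝ, t ^ (2 * q) = |t| ^ (2 * q) := fun t => (Even.pow_abs ⟨q, by ring⟩ t).symm
  have hxq : ∀ t : ℝ, 0 ≤ t ^ (2 * q) := fun t => by rw [pow_mul]; positivity
  have hterm : ∀ i ∈ range (n - 1), x ^ i * y ^ (n - i) * (n.choose i : ℝ) ≤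
      M * (n.choose i : ℝ) := by
    intro i hi
    rw [mem_range] at hi
    refine mul_le_mul_of_nonneg_right ((le_abs_self _).trans ?_) (Nat.cast_nonneg _)
    rw [abs_mul, abs_pow, abs_pow, hM]
    have h1 : n - i = (2 * q - i) + 2 := by omega
    have hy2 : y ^ 2 = |y| ^ 2 := (sq_abs y).symm
    have hy' : y ^ (2 * q + 2) = |y| ^ (2 * q) * |y| ^ 2 := by
      rw [pow_add, e2q, hy2]
    rw [e2q x, hy', hy2, h1, pow_add, ← mul_assoc]
    rcases le_total |y| |x| with hle | hle
    · have : |x| ^ i * |y| ^ (2 * q - i) ≤ |x| ^ (2 * q) := by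
        calc |x| ^ i * |y| ^ (2 * q - i) ≤ |x| ^ i * |x| ^ (2 * q - i) := by gcongr
          _ = |x| ^ (2 * q) := by rw [← pow_add, show i + (2 * q - i) = 2 * q by omega]
      nlinarith [mul_le_mul_of_nonneg_right this (sq_nonneg |y|), pow_nonneg (abs_nonneg y) (2 * q),
        mul_nonneg (pow_nonneg (abs_nonneg y) (2 * q)) (sq_nonneg |y|)]
    · have : |x| ^ i * |y| ^ (2 * q - i) ≤ |y| ^ (2 * q) := by
        calc |x| ^ i * |y| ^ (2 * q - i) ≤ |y| ^ i * |y| ^ (2 * q - i) := by gcongr
          _ = |y| ^ (2 * q) := by rw [← pow_add, show i + (2 * q - i) = 2 * q by omega]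
      nlinarith [mul_le_mul_of_nonneg_right this (sq_nonneg |y|), pow_nonneg (abs_nonneg x) (2 * q),
        mul_nonneg (pow_nonneg (abs_nonneg x) (2 * q)) (sq_nonneg |y|)]
  have hMn : 0 ≤ M := by
    rw [hM, show 2 * q + 2 = 2 * (q + 1) by ring, pow_mul y]
    have := hxq x
    positivity
  have hsum : ∑ i ∈ range (n - 1), x ^ i * y ^ (n - i) * (n.choose i : ℝ) ≤ M * 4 ^ (q + 1) := by
    refine (sum_le_sum hterm).trans ?_
    rw [← mul_sum]
    refine mul_le_mul_of_nonneg_left ?_ hMn
    have : ∑ i ∈ range (n - 1), n.choose i ≤ ∑ i ∈ range (n + 1), n.choose i :=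
      sum_le_sum_of_subset (range_subset_range.mpr (by omega))
    rw [Nat.sum_range_choose, hn, pow_mul, show 2 ^ 2 = 4 from rfl] at this
    exact_mod_cast this
  set B := kap (q + 1) * y ^ 2 with hB
  have hBn : 0 ≤ B := by rw [hB]; have := kap_pos (q + 1); positivity
  have hA : (0 : ℝ) ≤ x ^ 2 := sq_nonneg x
  have h1 : (x ^ 2) ^ (q + 1) + (x ^ 2) ^ q * B ≤ (x ^ 2 + B) ^ (q + 1) := by
    rw [pow_succ (x ^ 2 + B), mul_add, pow_succ (x ^ 2)]
    gcongr <;> linarith
  have h2 : (x ^ 2) ^ (q + 1) + B ^ (q + 1) ≤ (x ^ 2 + B) ^ (q + 1) :=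
    pow_add_pow_le hA hBn (by omega)
  have hxn : x ^ n = (x ^ 2) ^ (q + 1) := by rw [hn, pow_mul]
  have h3 : kap (q + 1) * (x ^ (2 * q) * y ^ 2) = (x ^ 2) ^ q * B := by
    rw [hB, pow_mul]; ring
  have h4 : kap (q + 1) * y ^ (2 * q + 2) ≤ B ^ (q + 1) := by
    rw [hB, mul_pow, show 2 * q + 2 = 2 * (q + 1) by ring, pow_mul]
    refine mul_le_mul_of_nonneg_right ?_ (by positivity)
    refine le_self_pow₀ ?_ (by omega)
    unfold kap
    have : (1 : ℝ) ≤ 4 ^ (q + 1) := one_le_pow₀ (by norm_num)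
    linarith
  have h5 : M * 4 ^ (q + 1) = (kap (q + 1) * (x ^ (2 * q) * y ^ 2) +
      kap (q + 1) * y ^ (2 * q + 2)) / 2 := by
    rw [hM]; unfold kap; ring
  rw [hsplit, hxn]
  have : x ^ (n - 1) * y * (n : ℝ) = 2 * ((q + 1 : ℕ) : ℝ) * x ^ (n - 1) * y := by
    rw [hn]; push_cast; ring
  rw [this]
  linarith

theorem mink {ι : Type*} (s : Finset ι) (w x y : ι → ℝ) (p : ℕ) (hw : ∀ i ∈ s, 0 ≤ w i)
    (hx : ∀ i ∈ s, 0 ≤ x i) (hy : ∀ i ∈ s, 0 ≤ y i) {A B : ℝ} (hA : 0 ≤ A) (hB : 0 ≤ B)
    (hp : 1 ≤ p) (h1 : ∑ i ∈ s, w i * x i ^ p ≤ A ^ p) (h2 : ∑ i ∈ s, w i * y i ^ p ≤ B ^ p) :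
    ∑ i ∈ s, w i * (x i + y i) ^ p ≤ (A + B) ^ p := by
  have key : ∀ {u : ι → ℝ}, (∀ i ∈ s, 0 ≤ u i) → ∑ i ∈ s, w i * u i ^ p ≤ (0 : ℝ) ^ p →
      ∀ i ∈ s, w i = 0 ∨ u i = 0 := by
    intro u hu h i hi
    rw [zero_pow (by omega)] at h
    have hn : ∀ j ∈ s, 0 ≤ w j * u j ^ p := fun j hj => mul_nonneg (hw j hj) (pow_nonneg (hu j hj) p)
    have := (sum_eq_zero_iff_of_nonneg hn).mp (le_antisymm h (sum_nonneg hn)) i hi
    rcases mul_eq_zero.mp this with h' | h'
    · exact Or.inl h'
    · exact Or.inr ((pow_eq_zero_iff (by omega)).mp h')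
  rcases hA.eq_or_lt with hA' | hA'
  · subst hA'
    rw [zero_add]
    refine le_trans (le_of_eq (sum_congr rfl fun i hi => ?_)) h2
    rcases key hx h1 i hi with h | h <;> simp [h]
  rcases hB.eq_or_lt with hB' | hB'
  · subst hB'
    rw [add_zero]
    refine le_trans (le_of_eq (sum_congr rfl fun i hi => ?_)) h1
    rcases key hy h2 i hi with h | h <;> simp [h]
  have hconv : ∀ i ∈ s, (x i + y i) ^ p ≤
      (A + B) ^ p * (A / (A + B) * (x i / A) ^ p + B / (A + B) * (y i / B) ^ p) := by
    intro i hi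
    have h := (convexOn_pow p).2 (show x i / A ∈ Set.Ici (0:ℝ) from div_nonneg (hx i hi) hA)
      (show y i / B ∈ Set.Ici (0:ℝ) from div_nonneg (hy i hi) hB)
      (show 0 ≤ A / (A + B) by positivity) (show 0 ≤ B / (A + B) by positivity)
      (by rw [← add_div, div_self (by positivity)])
    simp only [smul_eq_mul] at h
    rw [show A / (A + B) * (x i / A) + B / (A + B) * (y i / B) = (x i + y i) / (A + B) by
      field_simp, div_pow, div_le_iff₀ (by positivity)] at h
    linarith
  refine (sum_le_sum fun i hi => mul_le_mul_of_nonneg_left (hconv i hi) (hw i hi)).trans ?_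
  have e : ∀ i, w i * ((A + B) ^ p * (A / (A + B) * (x i / A) ^ p + B / (A + B) * (y i / B) ^ p)) =
      (A + B) ^ p * (A / (A + B)) / A ^ p * (w i * x i ^ p) +
      (A + B) ^ p * (B / (A + B)) / B ^ p * (w i * y i ^ p) := by
    intro i; rw [div_pow, div_pow]; field_simp
  rw [sum_congr rfl (fun i _ => e i), sum_add_distrib, ← mul_sum, ← mul_sum]
  refine (add_le_add (mul_le_mul_of_nonneg_left h1 (by positivity))
    (mul_le_mul_of_nonneg_left h2 (by positivity))).trans (le_of_eq ?_)
  field_simp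

end Vale.Agent.P321
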