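import Vale.Agent.P321.GapNorm

/-!
Overlap bounds and chains of positions.
-/

noncomputable section

open Finset

namespace Vale.Agent.P321

/-- The constant in the overlap bound. -/
def ovA (m : ℕ) : ℝ := L1c m * Lam (2 * m)

theorem ovA_pos (m : ℕ) : 0 < ovA m :=
  mul_pos (by linarith [one_le_L1c m]) (by linarith [one_le_Lam (2 * m)])

/-- The explicit overlap bound. -/
def ovb (m D g h : ℕ) : ℝ :=
  if g ≤ h + (2 * m + 2) * wid D g ∧ h ≤ g + (2 * m + 2) * wid D g then
    ovA m / (max 1 (wid D g) : ℕ) else 0

theorem ovb_nonneg (m D g h : ℕ) : 0 ≤ ovb m D g h := by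
  unfold ovb; split
  · have := ovA_pos m; positivity
  · rfl

theorem wgt_l1 (m D g : ℕ) : ∑ j ∈ range (rng m D g), |wgt m D g j| ≤ L1c m := by
  refine (ker_l1 (2 * m) (wid D g)).trans ?_
  rw [L1c]
  refine mul_le_mul_of_nonneg_right ?_ (by linarith [one_le_Lam (2 * m)])
  push_cast; nlinarith [(Nat.cast_nonneg m : (0:ℝ) ≤ m)]

theorem ov_le_ovb (m D g h : ℕ) : ov m D g h ≤ ovb m D g h := by
  have hA := ovA_pos m
  have hb : ∀ g' g'' : ℕ, g' ≤ g'' → ∀ j, |wgt m D g'' j| ≤ Lam (2 * m) / (max 1 (wid D g') : ℕ) := by
    intro g' g'' hle j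
    refine (abs_ker (2 * m) (wid D g'') j).trans ?_
    refine div_le_div_of_nonneg_left (by linarith [one_le_Lam (2 * m)])
      (by positivity) ?_
    exact_mod_cast max_le_max le_rfl (wid_mono D hle)
  by_cases hcond : g ≤ h + (2 * m + 2) * wid D g ∧ h ≤ g + (2 * m + 2) * wid D g
  · rw [ovb, if_pos hcond]
    rcases le_total g h with hgh | hgh
    · have : ∀ j ∈ range (rng m D g), (∑ j' ∈ range (rng m D h),
          if g + j = h + j' then |wgt m D g j| * |wgt m D h j'| else 0) ≤
          |wgt m D g j| * (Lam (2 * m) / (max 1 (wid D g) : ℕ)) := by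
        intro j _
        have e : ∀ j', (if g + j = h + j' then |wgt m D g j| * |wgt m D h j'| else 0) ≤
            (if g + j - h = j' then |wgt m D g j| * (Lam (2 * m) / (max 1 (wid D g) : ℕ)) else 0) := by
          intro j'
          split
          · rename_i he
            rw [if_pos (by omega)]
            exact mul_le_mul_of_nonneg_left (hb g h hgh j') (abs_nonneg _)
          · split
            · have := one_le_Lam (2 * m); positivity
            · rfl
        refine (sum_le_sum fun j' _ => e j').trans ?_
        rw [sum_ite_eq]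
        split
        · rfl
        · have := one_le_Lam (2 * m); positivity
      refine (sum_le_sum this).trans ?_
      rw [← sum_mul, ovA, mul_div_assoc]
      exact mul_le_mul_of_nonneg_right (wgt_l1 m D g) (by have := one_le_Lam (2 * m); positivity)
    · rw [ov, sum_comm]
      have : ∀ j' ∈ range (rng m D h), (∑ j ∈ range (rng m D g),
          if g + j = h + j' then |wgt m D g j| * |wgt m D h j'| else 0) ≤
          |wgt m D h j'| * (Lam (2 * m) / (max 1 (wid D g) : ℕ)) := by
        intro j' _
        have e : ∀ j, (if g + j = h + j' then |wgt m D g j| * |wgt m D h j'| else 0) ≤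
            (if h + j' - g = j then |wgt m D h j'| * (Lam (2 * m) / (max 1 (wid D g) : ℕ)) else 0) := by
          intro j
          split
          · rename_i he
            rw [if_pos (by omega), mul_comm]
            exact mul_le_mul_of_nonneg_left (hb g g le_rfl j) (abs_nonneg _)
          · split
            · have := one_le_Lam (2 * m); positivity
            · rfl
        refine (sum_le_sum fun j _ => e j).trans ?_
        rw [sum_ite_eq]
        split
        · rfl
        · have := one_le_Lam (2 * m); positivity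
      refine (sum_le_sum this).trans ?_
      rw [← sum_mul, ovA, mul_div_assoc]
      exact mul_le_mul_of_nonneg_right (wgt_l1 m D h) (by have := one_le_Lam (2 * m); positivity)
  · rw [ovb, if_neg hcond]
    refine sum_nonpos fun j hj => sum_nonpos fun j' hj' => ?_
    rw [if_neg]
    intro he
    apply hcond
    rw [mem_range, rng] at hj hj'
    rcases le_total g h with hgh | hgh
    · constructor <;> omega
    · have := Nat.mul_le_mul_left (2 * m + 2) (wid_mono D hgh)
      constructor <;> omega

/-- Left end of gap `l`. -/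
def loP {k : ℕ} (t : Fin k → ℕ) (l : Fin (k + 1)) : ℕ :=
  if h : l.val = 0 then 0 else t ⟨l.val - 1, by omega⟩ + 1

/-- Right end of gap `l`. -/
def hiP {k : ℕ} (N : ℕ) (t : Fin k → ℕ) (l : Fin (k + 1)) : ℕ :=
  if h : l.val < k then t ⟨l.val, h⟩ else N

/-- The gaps of an increasing tuple in `[0, N)`. -/
def gaps {k : ℕ} (N : ℕ) (t : Fin k → ℕ) (l : Fin (k + 1)) : ℕ := hiP N t l - loP t l

theorem gaps_zero {k : ℕ} (N : ℕ) (t : Fin (k + 1) → ℕ) : gaps N t 0 = t 0 := by
  simp [gaps, hiP, loP]

theorem gaps_succ {k : ℕ} {N : ℕ} {t : Fin (k + 1) → ℕ} (hm : StrictMono t) (l : Fin (k + 1)) :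
    gaps N t l.succ = gaps (N - (t 0 + 1)) (fun i => t i.succ - (t 0 + 1)) l := by
  have h2 : ∀ i : Fin k, t 0 + 1 ≤ t i.succ := fun i => Nat.succ_le_of_lt (hm (Fin.succ_pos i))
  unfold gaps hiP loP
  simp only [Fin.val_succ, Nat.add_one_ne_zero, dite_false, Nat.add_sub_cancel]
  obtain ⟨v, hv⟩ := l
  rcases v with _ | v
  · simp only [dite_true, Fin.succ_mk, Nat.sub_zero]
    by_cases hk : 0 < k
    · simp [hk]
    · simp [hk]
  · have hb := h2 ⟨v, by omega⟩
    simp only [Fin.succ_mk, Nat.add_one_ne_zero, dite_false, Nat.add_sub_cancel] at hb ⊢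
    by_cases hk : v + 1 < k
    · have hc := h2 ⟨v + 1, hk⟩
      simp only [Fin.succ_mk] at hc
      simp only [hk, show v + 1 + 1 < k + 1 by omega, dite_true]
      omega
    · simp only [hk, show ¬ v + 1 + 1 < k + 1 by omega, dite_false]
      omega

theorem gaps_total : ∀ {k : ℕ} {N : ℕ} {t : Fin k → ℕ}, StrictMono t → (∀ i, t i < N) →
    (∑ l, gaps N t l) + k = N
  | 0, N, t, _, _ => by simp [gaps, hiP, loP]
  | k + 1, N, t, hm, hN => by
    rw [Fin.sum_univ_succ, gaps_zero]
    simp only [gaps_succ hm]
    have hm' : StrictMono fun i : Fin k => t i.succ - (t 0 + 1) := by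
      intro i j hij
      have h1 := hm (Fin.succ_pos i)
      have h2 := hm (Fin.succ_lt_succ_iff.mpr hij)
      dsimp only
      omega
    have hN' : ∀ i : Fin k, t i.succ - (t 0 + 1) < N - (t 0 + 1) := by
      intro i
      have h1 := hm (Fin.succ_pos i)
      have h2 := hN i.succ
      omega
    have := gaps_total hm' hN'
    have := hN 0
    omega

/-- One step of a chain from the left. -/
def fwd (m D a b u v : ℕ) : ℝ := if a ≤ u ∧ b ≤ v then ovb m D (u - a) (v - b) else 0

/-- One step of a chain from the right. -/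
def bwd (m D a b u v : ℕ) : ℝ :=
  if u < a ∧ v < b then ovb m D (a - (u + 1)) (b - (v + 1)) else 0

theorem fwd_nonneg (m D a b u v : ℕ) : 0 ≤ fwd m D a b u v := by
  unfold fwd; split
  · exact ovb_nonneg ..
  · rfl

theorem bwd_nonneg (m D a b u v : ℕ) : 0 ≤ bwd m D a b u v := by
  unfold bwd; split
  · exact ovb_nonneg ..
  · rfl

open scoped Classical in
theorem chain_bound {m D k N : ℕ} (X : Fin k → Finset ℕ) (T : Finset (Fin k → ℕ))
    (hT : ∀ t ∈ T, StrictMono t ∧ (∀ i, t i < N) ∧ ∀ i, t i ∈ X i) (s : Fin (k + 1))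
    (S : Fin k → ℝ) (hS0 : ∀ l, 0 ≤ S l)
    (hf : ∀ l : Fin k, l.val < s.val → ∀ a b, (l.val = 0 → a = 0 ∧ b = 0) →
      ∑ u ∈ X l, ∑ v ∈ X l, fwd m D a b u v ≤ S l)
    (hb : ∀ l : Fin k, s.val ≤ l.val → ∀ a b, a ≤ N → (l.val + 1 = k → a = N ∧ b = N) →
      ∑ u ∈ X l, ∑ v ∈ X l, bwd m D a b u v ≤ S l) :
    ∑ t ∈ T, ∑ t' ∈ T, ∏ l ∈ univ.erase s, ov m D (gaps N t l) (gaps N t' l) ≤ ∏ l, S l := by
  let W : Fin k → (Fin k → ℕ × ℕ) → ℝ := fun l f =>
    if l.val < s.val then
      fwd m D (loP (fun i => (f i).1) l.castSucc) (loP (fun i => (f i).2) l.castSucc) (f l).1 (f l).2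
    else if hiP N (fun i => (f i).1) l.succ ≤ N then
      bwd m D (hiP N (fun i => (f i).1) l.succ) (hiP N (fun i => (f i).2) l.succ) (f l).1 (f l).2
    else 0
  have hW : ∀ l f, 0 ≤ W l f := fun l f => by
    simp only [W]; split_ifs
    · exact fwd_nonneg ..
    · exact bwd_nonneg ..
    · rfl
  let rank : Fin k → ℕ := fun l => if l.val < s.val then l.val else s.val + (k - l.val)
  have dep : ∀ l f g, f l = g l → (∀ i, rank i < rank l → f i = g i) → W l f = W l g := by
    intro l f g hl hd
    simp only [W]
    split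
    · rename_i h
      rw [hl]
      rcases Nat.eq_zero_or_pos l.val with h0 | h0
      · simp [loP, h0]
      · have hp := hd ⟨l.val - 1, by omega⟩ (by
          simp only [rank]
          rw [if_pos (show l.val - 1 < s.val by omega), if_pos h]; omega)
        simp [loP, show ¬ l.val = 0 by omega, hp]
    · rename_i h
      rw [hl]
      by_cases hk : l.val + 1 < k
      · have hp := hd ⟨l.val + 1, hk⟩ (by
          simp only [rank]
          rw [if_neg (show ¬ l.val + 1 < s.val by omega), if_neg h]; omega)
        simp [hiP, hk, hp]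
      · simp [hiP, hk]
  have key := forest (fun l => X l ×ˢ X l) W rank hW dep S ?_ hS0 (fun _ => ((0 : ℕ), (0 : ℕ)))
  · refine le_trans ?_ key
    have hpair : ∀ t ∈ T, ∀ t' ∈ T,
        ∏ l ∈ univ.erase s, ov m D (gaps N t l) (gaps N t' l) ≤
          ∏ l, W l (fun i => (t i, t' i)) := by
      intro t ht t' ht'
      obtain ⟨hm, hN, -⟩ := hT t ht
      obtain ⟨hm', hN', -⟩ := hT t' ht'
      have eimg : univ.erase s = univ.image s.succAbove := by
        rw [Fin.image_succAbove_univ, ← compl_singleton]
      rw [eimg, prod_image (fun a _ b _ h => Fin.succAbove_right_injective h)]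
      refine prod_le_prod (fun l _ => ov_nonneg ..) fun l _ => (ov_le_ovb ..).trans (le_of_eq ?_)
      simp only [W]
      by_cases h : l.val < s.val
      · rw [if_pos h, Fin.succAbove_of_castSucc_lt _ _ (by exact h)]
        have hlo : ∀ {x : Fin k → ℕ}, StrictMono x → loP x l.castSucc ≤ x l := by
          intro x hx
          rcases Nat.eq_zero_or_pos l.val with h0 | h0
          · simp [loP, h0]
          · simp only [loP, Fin.val_castSucc, show ¬ l.val = 0 by omega, dite_false]
            exact Nat.succ_le_of_lt (hx (show (⟨l.val - 1, by omega⟩ : Fin k) < l from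
              Fin.lt_def.mpr (by simp; omega)))
        rw [fwd, if_pos ⟨hlo hm, hlo hm'⟩]
        simp [gaps, hiP]
      · rw [if_neg h, Fin.succAbove_of_le_castSucc _ _ (by simpa [Fin.le_def] using h)]
        have hhi : ∀ {x : Fin k → ℕ}, StrictMono x → (∀ i, x i < N) → x l < hiP N x l.succ := by
          intro x hx hxN
          by_cases hk : l.val + 1 < k
          · simp only [hiP, Fin.val_succ, hk, dite_true]
            exact hx (show l < ⟨l.val + 1, hk⟩ from Fin.lt_def.mpr (by simp))
          · simp only [hiP, Fin.val_succ, hk, dite_false]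
            exact hxN l
        have hle : hiP N t l.succ ≤ N := by
          unfold hiP; split
          · exact (hN _).le
          · exact le_rfl
        rw [if_pos (show hiP N (fun i => t i) l.succ ≤ N from hle), bwd,
          if_pos ⟨hhi hm hN, hhi hm' hN'⟩]
        simp [gaps, loP]
    refine (sum_le_sum fun t ht => sum_le_sum fun t' ht' => hpair t ht t' ht').trans ?_
    rw [← sum_product']
    have einj : Set.InjOn (fun p : (Fin k → ℕ) × (Fin k → ℕ) => fun i => (p.1 i, p.2 i))
        (T ×ˢ T : Finset _) := fun p _ q _ h => Prod.ext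
      (funext fun i => congrArg Prod.fst (congrFun h i))
      (funext fun i => congrArg Prod.snd (congrFun h i))
    rw [← sum_image einj (f := fun f => ∏ l, W l f)]
    refine sum_le_sum_of_subset_of_nonneg ?_ fun f _ _ => prod_nonneg fun l _ => hW l f
    intro f hf'
    rw [mem_image] at hf'
    obtain ⟨p, hp, rfl⟩ := hf'
    rw [mem_product] at hp
    rw [Fintype.mem_piFinset]
    intro i
    exact mem_product.mpr ⟨(hT _ hp.1).2.2 i, (hT _ hp.2).2.2 i⟩
  · intro l f _
    rw [sum_product]
    simp only [W, Function.update_self]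
    split
    · rename_i h
      have e : ∀ (pr : ℕ × ℕ → ℕ) (u : ℕ × ℕ),
          loP (fun i => pr (Function.update f l u i)) l.castSucc = loP (fun i => pr (f i)) l.castSucc := by
        intro pr u
        rcases Nat.eq_zero_or_pos l.val with h0 | h0
        · simp [loP, h0]
        · simp only [loP, Fin.val_castSucc, show ¬ l.val = 0 by omega, dite_false]
          rw [Function.update_of_ne (fun hh => by have := congrArg Fin.val hh; simp at this; omega)]
      simp only [e Prod.fst, e Prod.snd]
      exact hf l h _ _ fun h0 => by simp [loP, h0]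
    · rename_i h
      have e : ∀ (pr : ℕ × ℕ → ℕ) (u : ℕ × ℕ),
          hiP N (fun i => pr (Function.update f l u i)) l.succ = hiP N (fun i => pr (f i)) l.succ := by
        intro pr u
        by_cases hk : l.val + 1 < k
        · simp only [hiP, Fin.val_succ, hk, dite_true]
          rw [Function.update_of_ne (fun hh => by have := congrArg Fin.val hh; simp at this)]
        · simp [hiP, hk]
      simp only [e Prod.fst, e Prod.snd]
      by_cases hle : hiP N (fun i => (f i).1) l.succ ≤ N
      · simp only [hle, if_true]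
        exact hb l (by omega) _ _ hle fun h0 => by simp [hiP, show ¬ l.val + 1 < k by omega]
      · simp only [hle, if_false, sum_const_zero]
        exact hS0 l

end Vale.Agent.P321
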