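import Vale.Agent.P321.Gain
import Vale.Agent.P321.Flat
import Vale.Agent.P321.Asymp

/-!
Power bounds for the error terms of one round.
-/

noncomputable section

open Filter Topology

namespace Vale.Agent.P321

theorem kerr_BO (m : ℕ) {pf : ℕ → ℕ} {τ : ℕ → ℝ} {et ep e : ℝ} (ht : BO τ et)
    (hp : ∀ᶠ g : ℕ in atTop, (g : ℝ) ^ ep ≤ (pf g : ℝ))
    (he : (et - ep) / 2 * ((m + 1 : ℕ) : ℝ) ≤ e) :
    BO (fun g => kerr m (pf g) (τ g)) e := by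
  have h := ((((((ht.cmul (4 * ((m : ℝ) + 1))).div hp).sqrt).cmul (patLen m : ℝ)).pow (m + 1)).cmul
    (((m : ℝ) + 2) * (patLen m : ℝ))).mono he
  exact h

theorem gam_BO (m : ℕ) {Df : ℕ → ℕ} {τ : ℕ → ℝ} {et ep e : ℝ} (ht : BO τ et)
    (hp : ∀ᶠ g : ℕ in atTop, (g : ℝ) ^ ep ≤ (Df g : ℝ)) (he : (et - ep) / 2 ≤ e) :
    BO (fun g => gam m (Df g) (τ g)) e :=
  (((((ht.cmul (4 * ((m : ℝ) + 1))).div hp).sqrt).cmul (2 * (m : ℝ) + 3))).mono he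

theorem uerr_BO (m K : ℕ) {Df nf : ℕ → ℕ} {τ : ℕ → ℝ} {en eg e : ℝ}
    (hn : BO (fun g => (nf g : ℝ)) en) (hn0 : 0 ≤ en)
    (hg : BO (fun g => gam m (Df g) (τ g)) eg)
    (he : en * ((K + 1 : ℕ) : ℝ) + eg * ((m + 1 : ℕ) : ℝ) ≤ e) :
    BO (fun g => uerr m (Df g) K (τ g) (nf g)) e := by
  have h1 := (((hn.add (BO.const' 1 hn0)).pow (K + 1)).cmul (((K : ℝ) + 2) ^ 2)).mulc
    (L1c m ^ (K + 1))
  exact (h1.mul (hg.pow (m + 1))).mono he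

theorem Sbd_BO (m c0 : ℕ) {Df Pf Jf : ℕ → ℕ} {ej ep e : ℝ} (hj : BO (fun g => (Jf g : ℝ)) ej)
    (hj0 : 0 ≤ ej) (hp : ∀ᶠ g : ℕ in atTop, (g : ℝ) ^ ep ≤ (Pf g : ℝ))
    (hD : ∀ᶠ g : ℕ in atTop, Df g ≤ Pf g) (h1 : ej - ep ≤ e) (h2 : ej / 2 ≤ e) :
    BO (fun g => Sbd m (Df g) c0 (Pf g) (Jf g)) e := by
  have hsq : BO (fun g => Real.sqrt ((Df g : ℝ) * (Jf g : ℝ) / (Pf g : ℝ))) e := by
    refine BO.of_le (hj.sqrt.mono h2) ?_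
    filter_upwards [hD] with g hg
    rw [abs_of_nonneg (Real.sqrt_nonneg _)]
    refine Real.sqrt_le_sqrt ?_
    rcases Nat.eq_zero_or_pos (Pf g) with h | h
    · simp [h]
    · rw [div_le_iff₀ (by exact_mod_cast h), mul_comm]
      exact mul_le_mul_of_nonneg_left (by exact_mod_cast hg) (Nat.cast_nonneg _)
  have ha := ((((hj.add (BO.const' 1 hj0)).cmul (4 * (m : ℝ) + 4)).div hp).mono h1)
  have hb := (BO.const' 1 (show 0 ≤ e by linarith)).add (hsq.cmul 4)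
  exact (ha.add hb).cmul (ovA m * (c0 : ℝ) ^ 2)

theorem etr_BO (m K : ℕ) {Df nf : ℕ → ℕ} {τ ρ : ℕ → ℝ} {en eg er e : ℝ}
    (hn : BO (fun g => (nf g : ℝ)) en) (hn0 : 0 ≤ en)
    (hg : BO (fun g => gam m (Df g) (τ g)) eg) (hr : BO ρ er)
    (he1 : en + er * (K : ℝ) / 2 ≤ e)
    (he2 : en * ((K + 1 : ℕ) : ℝ) + eg * ((m + 1 : ℕ) : ℝ) ≤ e) :
    BO (fun g => etr m (Df g) K (nf g) (τ g) (ρ g)) e :=
  (((hn.mulc ((K : ℝ) + 1)).mul (hr.pow K).sqrt).mono he1).add (uerr_BO m K hn hn0 hg he2)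

theorem lbound_BO (m K c : ℕ) {Df Pf Jf : ℕ → ℕ} {τ r bad : ℕ → ℝ} {ej eb eg er e : ℝ}
    (hj : BO (fun g => (Jf g : ℝ)) ej) (hj0 : 0 ≤ ej) (hb : BO bad eb)
    (hg : BO (fun g => gam m (Df g) (τ g)) eg)
    (hr : BO (fun g => kap 1 * r g ^ 2 * Sbd m (Df g) (2 * c) (Pf g) (Jf g)) er)
    (h1 : ej + eb ≤ e) (h2 : er / 2 ≤ e) (h3 : ej + er * (K : ℝ) / 2 ≤ e)
    (h4 : ej * ((K + 1 : ℕ) : ℝ) + eg * ((m + 1 : ℕ) : ℝ) ≤ e) :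
    BO (fun g => lbound m (Df g) K c (Pf g) (Jf g) (τ g) (r g) (bad g)) e := by
  have hjc : BO (fun g => (Jf g : ℝ) * (c : ℝ)) ej := hj.mulc _
  have hu : BO (fun g => ((K : ℝ) + 1) * uerr m (Df g) K (τ g) (Jf g * c)) e :=
    (uerr_BO m K (by simpa only [Nat.cast_mul] using hjc) hj0 hg h4).cmul _
  exact (((hjc.mul hb).mono h1).add ((hr.sqrt.cmul (((K : ℝ) + 1) ^ 2)).mono h2)).add
    (((hjc.mulc ((K : ℝ) + 1)).mul (hr.pow K).sqrt).mono h3) |>.add hu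

end Vale.Agent.P321
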