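import Vale.Agent.P321.Gain

/-!
Trace laws of strings as elements of the algebra, and words of blocks.
-/

noncomputable section

open Finset

namespace Vale.Agent.P321

/-- One letter through the deletion channel. -/
def unitTr (q : ℝ) (b : Bool) : Alg Bool := q • 1 + (1 - q) • pt (FreeMonoid.of b) 1

/-- The law of a trace of a string. -/
def tr (q : ℝ) (x : List Bool) : Alg Bool := (x.map (unitTr q)).prod

theorem isProb_unitTr {q : ℝ} (h0 : 0 ≤ q) (h1 : q ≤ 1) (b : Bool) : IsProb (unitTr q b) := by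
  refine ⟨(Pos.one.smul h0).add (Pos.smul (by linarith) fun w => ?_), ?_⟩
  · rw [cf_pt]; split <;> norm_num
  · rw [unitTr, mass_add, mass_smul, mass_smul, IsProb.one.2, mass_pt]; ring

theorem tr_nil (q : ℝ) : tr q [] = 1 := rfl

theorem tr_cons (q : ℝ) (b : Bool) (x : List Bool) : tr q (b :: x) = unitTr q b * tr q x := by
  simp [tr]

theorem tr_append (q : ℝ) (x y : List Bool) : tr q (x ++ y) = tr q x * tr q y := by
  simp [tr]

theorem isProb_tr {q : ℝ} (h0 : 0 ≤ q) (h1 : q ≤ 1) : ∀ x : List Bool, IsProb (tr q x)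
  | [] => IsProb.one
  | b :: x => by rw [tr_cons]; exact (isProb_unitTr h0 h1 b).mul (isProb_tr h0 h1 x)

/-- A word of blocks. -/
def wordL (A B : List Bool) (U : Finset ℕ) : ℕ → List Bool
  | 0 => []
  | N + 1 => wordL A B U N ++ if N ∈ U then B else A

theorem tr_wordL (q : ℝ) (A B : List Bool) (U : Finset ℕ) :
    ∀ N, tr q (wordL A B U N) = wd (tr q A) (tr q B) U N
  | 0 => rfl
  | N + 1 => by
    rw [wordL, tr_append, wd_succ, tr_wordL q A B U N]
    congr 1
    split <;> rfl

theorem length_wordL {A B : List Bool} {g : ℕ} (hA : A.length = g) (hB : B.length = g)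
    (U : Finset ℕ) : ∀ N, (wordL A B U N).length = N * g
  | 0 => by simp [wordL]
  | N + 1 => by
    rw [wordL, List.length_append, length_wordL hA hB U N, add_mul, one_mul]
    split <;> omega

theorem wordL_ne {A B : List Bool} {g : ℕ} (hA : A.length = g) (hB : B.length = g) (hAB : A ≠ B)
    {U V : Finset ℕ} : ∀ {N : ℕ}, (∃ i < N, i ∈ U ∧ i ∉ V) → wordL A B U N ≠ wordL A B V N
  | 0, h => by obtain ⟨i, hi, -⟩ := h; omega
  | N + 1, h => by
    obtain ⟨i, hi, hU, hV⟩ := h
    intro e
    rw [wordL, wordL] at e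
    have hl : (wordL A B U N).length = (wordL A B V N).length := by
      rw [length_wordL hA hB, length_wordL hA hB]
    obtain ⟨e1, e2⟩ := List.append_inj e hl
    rcases Nat.lt_succ_iff_lt_or_eq.mp hi with h' | h'
    · exact wordL_ne hA hB hAB ⟨i, h', hU, hV⟩ e1
    · subst h'
      rw [if_pos hU, if_neg hV] at e2
      exact hAB e2.symm

/-- A padded pattern of blocks. -/
def cellL (A B : List Bool) (p L : ℕ) (U : Finset ℕ) : List Bool :=
  wordL A B (cellS p U) (p + L + p)

theorem tr_cellL (q : ℝ) (A B : List Bool) (p L : ℕ) {U : Finset ℕ} (hU : ∀ v ∈ U, v < L) :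
    tr q (cellL A B p L U) = cellW (tr q A) (tr q B) p L U := by
  rw [cellL, tr_wordL, cellW_eq _ _ p L hU]

theorem cellL_ne {A B : List Bool} {g : ℕ} (hA : A.length = g) (hB : B.length = g) (hAB : A ≠ B)
    (m p : ℕ) :
    cellL A B p (patLen m) (patU m) ≠ cellL A B p (patLen m) (patV m) := by
  obtain ⟨h1, h2⟩ := tm_zero (2 * m)
  refine wordL_ne hA hB hAB ⟨p, by have := patLen_pos m; omega, ?_, ?_⟩
  · rw [cellS, mem_image]; exact ⟨0, h1, rfl⟩
  · rw [cellS, mem_image]
    rintro ⟨v, hv, e⟩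
    exact h2 (by rwa [show v = 0 by omega] at hv)

/-- A tilt from moment bounds against a common reference power. -/
theorem tilt_of_moments {σ : Type} {A B P z zy : Alg σ} (hA : IsProb A) (hB : IsProb B) (hP : Pos P)
    {pe : ℕ} (hpe : 1 ≤ pe) {Qd Qy e1 ey eps : ℝ} (he : 0 < eps)
    (hz : Mom z P pe Qd) (hy : Mom zy P pe Qy)
    (h1 : nrm (B - A - z) ≤ e1) (h2 : nrm (A - P - zy) ≤ ey) :
    ∃ f, IsTilt A f (2 * (2 * eps)) ∧ nrm (B - (A + dlt A f)) ≤
      2 * (e1 + (Qd ^ pe / eps ^ (2 * pe - 1) +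
        2 * eps * (Qy ^ pe / (1 / 2) ^ (2 * pe - 1) + ey))) := by
  refine clip_tilt hA hB (by positivity) h1 fun S => ?_
  have hpt : ∀ w, max (|cf z w| - 2 * eps * cf A w) 0 ≤
      max (|cf z w| - eps * cf P w) 0 +
        2 * eps * (max (|cf zy w| - (1 / 2) * cf P w) 0 + |cf (A - P - zy) w|) := by
    intro w
    rw [cf_sub (A - P), cf_sub A]
    have h1 := le_max_left (|cf zy w| - (1 / 2) * cf P w) 0
    have h1' := le_max_right (|cf zy w| - (1 / 2) * cf P w) 0
    have h2 := le_max_left (|cf z w| - eps * cf P w) 0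
    have h2' := le_max_right (|cf z w| - eps * cf P w) 0
    have h3 := neg_abs_le (cf A w - cf P w - cf zy w)
    have h3' := abs_nonneg (cf A w - cf P w - cf zy w)
    have h4 := neg_abs_le (cf zy w)
    refine max_le ?_ (add_nonneg h2' (mul_nonneg (by positivity) (add_nonneg h1' h3')))
    have : (1 / 2) * cf P w - cf A w ≤
        max (|cf zy w| - (1 / 2) * cf P w) 0 + |cf A w - cf P w - cf zy w| := by linarith
    have := mul_le_mul_of_nonneg_left this (show (0 : ℝ) ≤ 2 * eps by positivity)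
    linarith
  refine (sum_le_sum fun w _ => hpt w).trans ?_
  rw [sum_add_distrib, ← mul_sum, sum_add_distrib]
  refine add_le_add (hz.tail hP hpe he S) (mul_le_mul_of_nonneg_left ?_ (by positivity))
  exact add_le_add (hy.tail hP hpe (by norm_num) S) ((sum_abs_le_nrm _ S).trans h2)

end Vale.Agent.P321
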