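import Vale.Agent.P321.Rates
import Vale.Agent.P321.Strings

/-!
One round: from a pair of strings to a longer, closer pair.
-/

noncomputable section

open Filter Topology Finset

namespace Vale.Agent.P321

/-- Padding of the inner cells. -/
def pP (η : ℝ) (g : ℕ) : ℕ := ⌈(g : ℝ) ^ (1 + 3 * η)⌉₊

/-- Padding of the outer cells. -/
def pA (η : ℝ) (g : ℕ) : ℕ := ⌈(g : ℝ) ^ (2 + 7 * η)⌉₊

/-- Repetitions used to smooth the inner cell. -/
def pJ1 (η : ℝ) (g : ℕ) : ℕ := ⌈(g : ℝ) ^ (2 + 5 * η)⌉₊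

/-- Repetitions used to smooth the outer cell. -/
def pJ2 (η : ℝ) (g : ℕ) : ℕ := ⌈(g : ℝ) ^ (4 + 13 * η)⌉₊

/-- Units in an inner cell. -/
def pW1 (η : ℝ) (m g : ℕ) : ℕ := pP η g + patLen m + pP η g

/-- Inner cells in an outer cell. -/
def pW2 (η : ℝ) (m g : ℕ) : ℕ := pA η g + patLen m + pA η g

/-- The new length. -/
def pLen (η : ℝ) (m g : ℕ) : ℕ := pW2 η m g * (pW1 η m g * g)

theorem round_rates (m : ℕ) {η : ℝ} (hη : 0 ≤ η) :
    BO (fun g => (pP η g : ℝ)) (1 + 3 * η) ∧ BO (fun g => (pA η g : ℝ)) (2 + 7 * η) ∧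
    BO (fun g => (pJ1 η g : ℝ)) (2 + 5 * η) ∧ BO (fun g => (pJ2 η g : ℝ)) (4 + 13 * η) ∧
    BO (fun g => (pW1 η m g : ℝ)) (1 + 3 * η) ∧ BO (fun g => (pW2 η m g : ℝ)) (2 + 7 * η) ∧
    BO (fun g => (pLen η m g : ℝ)) (4 + 10 * η) := by
  have hP : BO (fun g => (pP η g : ℝ)) (1 + 3 * η) := BO.ceil _ (by linarith)
  have hA : BO (fun g => (pA η g : ℝ)) (2 + 7 * η) := BO.ceil _ (by linarith)
  have h1 : BO (fun g => (pW1 η m g : ℝ)) (1 + 3 * η) := by
    simp only [pW1, Nat.cast_add]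
    exact (hP.add (BO.const' _ (by linarith))).add hP
  have h2 : BO (fun g => (pW2 η m g : ℝ)) (2 + 7 * η) := by
    simp only [pW2, Nat.cast_add]
    exact (hA.add (BO.const' _ (by linarith))).add hA
  refine ⟨hP, hA, BO.ceil _ (by linarith), BO.ceil _ (by linarith), h1, h2, ?_⟩
  simp only [pLen, Nat.cast_mul]
  have hg : BO (fun g : ℕ => (g : ℝ)) 1 := by simpa using BO.rpow (1 : ℝ)
  exact (h2.mul (h1.mul hg)).mono (by linarith)

theorem le_pW1 (η : ℝ) (m g : ℕ) : pP η g ≤ pW1 η m g := by unfold pW1; omega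

theorem le_pW2 (η : ℝ) (m g : ℕ) : pA η g ≤ pW2 η m g := by unfold pW2; omega

theorem pLen_ge {η : ℝ} (hη : 0 ≤ η) (m : ℕ) {g : ℕ} (hg : 1 ≤ g) :
    (g : ℝ) ^ (4 + 10 * η) ≤ (pLen η m g : ℝ) := by
  have h0 : (0 : ℝ) < g := by exact_mod_cast hg
  rw [pLen, Nat.cast_mul, Nat.cast_mul, show 4 + 10 * η = (2 + 7 * η) + ((1 + 3 * η) + 1) by ring,
    Real.rpow_add h0 (2 + 7 * η), Real.rpow_add h0 (1 + 3 * η), Real.rpow_one]
  have h1 : (g : ℝ) ^ (2 + 7 * η) ≤ (pW2 η m g : ℝ) :=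
    (ceil_ge_rpow g _).trans (by exact_mod_cast le_pW2 η m g)
  have h2 : (g : ℝ) ^ (1 + 3 * η) ≤ (pW1 η m g : ℝ) :=
    (ceil_ge_rpow g _).trans (by exact_mod_cast le_pW1 η m g)
  exact mul_le_mul h1 (mul_le_mul_of_nonneg_right h2 h0.le) (by positivity) (Nat.cast_nonneg _)

/-- The data of a usable pair. -/
def Pair (q α η B : ℝ) (g : ℕ) : Prop :=
  ∃ x y : List Bool, x.length = g ∧ y.length = g ∧ x ≠ y ∧
    ∃ f : FreeMonoid Bool → ℝ, IsTilt (tr q x) f ((g : ℝ) ^ (-(α / 2))) ∧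
      nrm (tr q y - (tr q x + dlt (tr q x) f)) ≤ (g : ℝ) ^ (-B) ∧
      Smooth (tr q x) ((g : ℝ) ^ (1 + η))

/-- Parameters of a round that work for the given targets. -/
structure RoundPar (α α' η η' T B : ℝ) (m K pe : ℕ) : Prop where
  hα : 5 / 4 ≤ α
  hη0 : 0 < η
  hη : η ≤ 1 / 64
  hη' : 13 * η < 4 * η'
  hT : 1 ≤ T
  hB : T + 20 ≤ B
  hK : 16 * (T + 20) ≤ (K : ℝ)
  hm : T + 20 + 8 * ((K : ℝ) + 2) ≤ η * ((m + 1 : ℕ) : ℝ)
  hgap : (4 + 11 * η) * α' ≤ 4 * α + 1 / 4 - 4 * η - 1 / 16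
  hα' : 0 ≤ α'
  hpe : 16 * (T + 2) ≤ (pe : ℝ)

/-- Smoothness scale of the unit. -/
def rT (η : ℝ) (g : ℕ) : ℝ := (g : ℝ) ^ (1 + η)

/-- Tilt radius of the unit. -/
def rR (α : ℝ) (g : ℕ) : ℝ := (g : ℝ) ^ (-(α / 2))

/-- Error of the unit. -/
def rB (B : ℝ) (g : ℕ) : ℝ := (g : ℝ) ^ (-B)

/-- Smoothness scale of the inner cell. -/
def rT1 (η : ℝ) (g : ℕ) : ℝ := 32 * (2 * (pJ1 η g : ℝ) + 1)

/-- Tilt radius of the inner cell. -/
def rR1 (α : ℝ) (m g : ℕ) : ℝ := 2 * ((4 : ℝ) ^ patLen m * rR α g ^ 2)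

/-- Error of the inner cell. -/
def rB1 (η B : ℝ) (m g : ℕ) : ℝ :=
  2 * (3 * (patLen m : ℝ) * rB B g + kerr m (pP η g) (rT η g))

/-- The lattice factor. -/
def rRho (α η : ℝ) (m pe g : ℕ) : ℝ :=
  kap pe * rR α g ^ 2 * Sbd m (pP η g) (2 * patLen m) (pW1 η m g) (pW2 η m g)

/-- The middle factor. -/
def rKm (α : ℝ) (m pe g : ℕ) : ℝ := kap pe * rR α g ^ 2 * SMid m (patLen m * patLen m)

/-- The clipping level. -/
def rEps (α' η : ℝ) (m g : ℕ) : ℝ := (pLen η m g : ℝ) ^ (-(α' / 2)) / 4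

/-- The total error of a round. -/
def rErr (α α' η B : ℝ) (m K pe g : ℕ) : ℝ :=
  2 * (eNear m (pP η g) K (pP η g) (pA η g) (rT η g) (rT1 η g) (rB B g) (rRho α η m pe g) +
    (qDiff m (pP η g) K (rRho α η m pe g) (rKm α m pe g) (pA η g * pW1 η m g) ^ pe /
        rEps α' η m g ^ (2 * pe - 1) +
      2 * rEps α' η m g * (qRef K (rRho α η m pe g) ^ pe / (1 / 2) ^ (2 * pe - 1) +
        eRef m (pP η g) K (pA η g) (rT η g) (rB B g) (rRho α η m pe g))))

theorem round_gap (m : ℕ) {η : ℝ} (hη : 0 ≤ η) :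
    (∀ᶠ g : ℕ in atTop, (g : ℝ) ^ (1 + 3 * η) ≤ (pW1 η m g : ℝ)) ∧
    (∀ᶠ g : ℕ in atTop, (g : ℝ) ^ (2 + 7 * η) ≤ (pW2 η m g : ℝ)) :=
  ⟨Eventually.of_forall fun g => (ceil_ge_rpow g _).trans (by exact_mod_cast le_pW1 η m g),
   Eventually.of_forall fun g => (ceil_ge_rpow g _).trans (by exact_mod_cast le_pW2 η m g)⟩

theorem round_smooth {α α' η η' T B : ℝ} {m K pe : ℕ} (hp : RoundPar α α' η η' T B m K pe) :
    ∀ᶠ g : ℕ in atTop,
      kap 1 * rR α g ^ 2 * Sbd m (pP η g) (2 * (patU m).card) (pW1 η m g) (pJ1 η g + 1) ≤ 1 ∧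
      kap 1 * rR1 α m g ^ 2 * Sbd m (pA η g) (2 * (patU m).card) (pW2 η m g) (pJ2 η g + 1) ≤ 1 ∧
      2 * lbound m (pP η g) K (patU m).card (pW1 η m g) (pJ1 η g + 1) (rT η g) (rR α g) (rB B g) +
        (pW1 η m g : ℝ) * Real.sqrt (rT η g / ((pJ1 η g * pW1 η m g : ℕ) : ℝ)) ≤ 1 ∧
      2 * lbound m (pA η g) K (patU m).card (pW2 η m g) (pJ2 η g + 1) (rT1 η g) (rR1 α m g)
          (rB1 η B m g) +
        (pW2 η m g : ℝ) * Real.sqrt (rT1 η g / ((pJ2 η g * pW2 η m g : ℕ) : ℝ)) ≤ 1 := by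
  obtain ⟨hα, hη0, hη, hη', hT, hB, hK, hm, hgap, hα', hpe⟩ := hp
  have hk0 : (0 : ℝ) ≤ K := Nat.cast_nonneg K
  set L := patLen m with hL
  obtain ⟨bP, bA, bJ1, bJ2, bW1, bW2, bLen⟩ := round_rates m hη0.le
  obtain ⟨gW1, gW2⟩ := round_gap m hη0.le
  have gP : ∀ᶠ g : ℕ in atTop, (g : ℝ) ^ (1 + 3 * η) ≤ (pP η g : ℝ) :=
    Eventually.of_forall fun g => ceil_ge_rpow g _
  have gA : ∀ᶠ g : ℕ in atTop, (g : ℝ) ^ (2 + 7 * η) ≤ (pA η g : ℝ) :=
    Eventually.of_forall fun g => ceil_ge_rpow g _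
  have bτ : BO (rT η) (1 + η) := BO.rpow _
  have br : BO (rR α) (-(α / 2)) := BO.rpow _
  have br2 : BO (fun g => rR α g ^ 2) (-α) := (br.pow 2).mono (by push_cast; linarith)
  have bbd : BO (rB B) (-B) := BO.rpow _
  have bτ1 : BO (rT1 η) (2 + 5 * η) :=
    ((bJ1.cmul 2).add (BO.const' 1 (by linarith))).cmul 32
  have bgam : BO (fun g => gam m (pP η g) (rT η g)) (-η) := gam_BO m bτ gP (by linarith)
  have bgam2 : BO (fun g => gam m (pA η g) (rT1 η g)) (-η) := gam_BO m bτ1 gA (by linarith)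
  have bk : BO (fun g => kerr m (pP η g) (rT η g)) (-(η * ((m + 1 : ℕ) : ℝ))) :=
    kerr_BO m bτ gP (le_of_eq (by ring))
  have bk1 : BO (fun g => kerr m (pA η g) (rT1 η g)) (-(η * ((m + 1 : ℕ) : ℝ))) :=
    kerr_BO m bτ1 gA (le_of_eq (by ring))
  have hKr : ∀ er : ℝ, er ≤ -(3 / 16) → er * (K : ℝ) / 2 ≤ -(3 / 2 * (T + 20)) := by
    intro er her
    have := mul_le_mul_of_nonneg_right her hk0
    linarith
  have bρ : BO (rRho α η m pe) (1 - α + 4 * η) :=
    ((br2.cmul (kap pe)).mul (Sbd_BO m (2 * L) bW2 (by linarith) gW1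
      (Eventually.of_forall fun g => le_pW1 η m g) (e := 1 + 4 * η)
      (by linarith) (by linarith))).mono (by linarith)
  have bKm : BO (rKm α m pe) (-α) := ((br2.cmul (kap pe)).mulc _)
  set cU := (patU m).card
  have bbd1 : BO (rB1 η B m) (-(T + 20)) :=
    (((bbd.cmul (3 * (L : ℝ))).mono (by linarith)).add (bk.mono (by push_cast at hm ⊢; linarith))).cmul 2
  have br1 : BO (rR1 α m) (-α) := ((br2.cmul ((4 : ℝ) ^ L)).cmul 2)
  have brho1 : BO (fun g => kap 1 * rR α g ^ 2 *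
      Sbd m (pP η g) (2 * cU) (pW1 η m g) (pJ1 η g + 1)) (1 - α + 3 * η) := by
    refine ((br2.cmul (kap 1)).mul (Sbd_BO m (2 * cU) (e := 1 + 3 * η) (ej := 2 + 5 * η) ?_
      (by linarith) gW1 (Eventually.of_forall fun g => le_pW1 η m g) (by linarith)
      (by linarith))).mono (by linarith)
    simp only [Nat.cast_add, Nat.cast_one]
    exact bJ1.add (BO.const' 1 (by linarith))
  have brho2 : BO (fun g => kap 1 * rR1 α m g ^ 2 *
      Sbd m (pA η g) (2 * cU) (pW2 η m g) (pJ2 η g + 1)) (-(1 / 4)) := by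
    refine ((((br1.pow 2).cmul (kap 1))).mul (Sbd_BO m (2 * cU) (e := 2 + 7 * η)
      (ej := 4 + 13 * η) ?_ (by linarith) gW2 (Eventually.of_forall fun g => le_pW2 η m g)
      (by linarith) (by linarith))).mono (by push_cast; linarith)
    simp only [Nat.cast_add, Nat.cast_one]
    exact bJ2.add (BO.const' 1 (by linarith))
  have bl1 : BO (fun g => lbound m (pP η g) K cU (pW1 η m g) (pJ1 η g + 1) (rT η g) (rR α g) (rB B g))
      (-(1 / 64)) := by
    refine lbound_BO m K cU (ej := 3) ?_ (by norm_num) bbd bgam brho1 (by linarith) (by linarith)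
      (by have := hKr _ (show 1 - α + 3 * η ≤ -(3 / 16) by linarith); linarith)
      (by push_cast at hm ⊢; linarith)
    simp only [Nat.cast_add, Nat.cast_one]
    exact (bJ1.mono (by linarith)).add (BO.const' 1 (by norm_num))
  have bl2 : BO (fun g => lbound m (pA η g) K cU (pW2 η m g) (pJ2 η g + 1) (rT1 η g) (rR1 α m g) (rB1 η B m g))
      (-(1 / 64)) := by
    refine lbound_BO m K cU (ej := 5) ?_ (by norm_num) bbd1 bgam2 brho2 (by linarith) (by linarith)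
      (by have := hKr _ (show -(1 / 4 : ℝ) ≤ -(3 / 16) by norm_num); linarith)
      (by push_cast at hm ⊢; linarith)
    simp only [Nat.cast_add, Nat.cast_one]
    exact (bJ2.mono (by linarith)).add (BO.const' 1 (by norm_num))
  have bs1 : BO (fun g => (pW1 η m g : ℝ) *
      Real.sqrt (rT η g / ((pJ1 η g * pW1 η m g : ℕ) : ℝ))) (-(η / 2)) := by
    refine (bW1.mul (BO.sqrt (bτ.div (e' := (2 + 5 * η) + (1 + 3 * η)) ?_))).mono (by linarith)
    filter_upwards [gW1, ev_one_le] with g h hg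
    rw [Nat.cast_mul, Real.rpow_add (by linarith)]
    exact mul_le_mul (ceil_ge_rpow g _) h (by positivity) (Nat.cast_nonneg _)
  have bs2 : BO (fun g => (pW2 η m g : ℝ) *
      Real.sqrt (rT1 η g / ((pJ2 η g * pW2 η m g : ℕ) : ℝ))) (-(η / 2)) := by
    refine (bW2.mul (BO.sqrt (bτ1.div (e' := (4 + 13 * η) + (2 + 7 * η)) ?_))).mono (by linarith)
    filter_upwards [gW2, ev_one_le] with g h hg
    rw [Nat.cast_mul, Real.rpow_add (by linarith)]
    exact mul_le_mul (ceil_ge_rpow g _) h (by positivity) (Nat.cast_nonneg _)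
  have eρ1 := brho1.small (by linarith) (show (0 : ℝ) < 1 by norm_num)
  have eρ2 := brho2.small (by norm_num) (show (0 : ℝ) < 1 by norm_num)
  have es1 := (bl1.cmul 2).small (by norm_num) (show (0 : ℝ) < 1 / 2 by norm_num)
  have es1' := bs1.small (by linarith) (show (0 : ℝ) < 1 / 2 by norm_num)
  have es2 := (bl2.cmul 2).small (by norm_num) (show (0 : ℝ) < 1 / 2 by norm_num)
  have es2' := bs2.small (by linarith) (show (0 : ℝ) < 1 / 2 by norm_num)
  filter_upwards [eρ1, eρ2, es1, es1', es2, es2'] with g h1 h2 h3 h3' h4 h4'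
  exact ⟨h1, h2, by linarith, by linarith⟩

theorem round_near {α α' η η' T B : ℝ} {m K pe : ℕ} (hp : RoundPar α α' η η' T B m K pe) :
    BO (fun g => eNear m (pP η g) K (pP η g) (pA η g) (rT η g) (rT1 η g) (rB B g) (rRho α η m pe g))
        (-(T + 1)) ∧
      BO (fun g => eRef m (pP η g) K (pA η g) (rT η g) (rB B g) (rRho α η m pe g)) (-(T + 1)) := by
  obtain ⟨hα, hη0, hη, hη', hT, hB, hK, hm, hgap, hα', hpe⟩ := hp
  have hk0 : (0 : ℝ) ≤ K := Nat.cast_nonneg K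
  set L := patLen m with hL
  obtain ⟨bP, bA, bJ1, bJ2, bW1, bW2, bLen⟩ := round_rates m hη0.le
  obtain ⟨gW1, gW2⟩ := round_gap m hη0.le
  have gP : ∀ᶠ g : ℕ in atTop, (g : ℝ) ^ (1 + 3 * η) ≤ (pP η g : ℝ) :=
    Eventually.of_forall fun g => ceil_ge_rpow g _
  have gA : ∀ᶠ g : ℕ in atTop, (g : ℝ) ^ (2 + 7 * η) ≤ (pA η g : ℝ) :=
    Eventually.of_forall fun g => ceil_ge_rpow g _
  have bτ : BO (rT η) (1 + η) := BO.rpow _
  have br : BO (rR α) (-(α / 2)) := BO.rpow _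
  have br2 : BO (fun g => rR α g ^ 2) (-α) := (br.pow 2).mono (by push_cast; linarith)
  have bbd : BO (rB B) (-B) := BO.rpow _
  have bτ1 : BO (rT1 η) (2 + 5 * η) :=
    ((bJ1.cmul 2).add (BO.const' 1 (by linarith))).cmul 32
  have bgam : BO (fun g => gam m (pP η g) (rT η g)) (-η) := gam_BO m bτ gP (by linarith)
  have bgam2 : BO (fun g => gam m (pA η g) (rT1 η g)) (-η) := gam_BO m bτ1 gA (by linarith)
  have bk : BO (fun g => kerr m (pP η g) (rT η g)) (-(η * ((m + 1 : ℕ) : ℝ))) :=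
    kerr_BO m bτ gP (le_of_eq (by ring))
  have bk1 : BO (fun g => kerr m (pA η g) (rT1 η g)) (-(η * ((m + 1 : ℕ) : ℝ))) :=
    kerr_BO m bτ1 gA (le_of_eq (by ring))
  have hKr : ∀ er : ℝ, er ≤ -(3 / 16) → er * (K : ℝ) / 2 ≤ -(3 / 2 * (T + 20)) := by
    intro er her
    have := mul_le_mul_of_nonneg_right her hk0
    linarith
  have bρ : BO (rRho α η m pe) (1 - α + 4 * η) :=
    ((br2.cmul (kap pe)).mul (Sbd_BO m (2 * L) bW2 (by linarith) gW1
      (Eventually.of_forall fun g => le_pW1 η m g) (e := 1 + 4 * η)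
      (by linarith) (by linarith))).mono (by linarith)
  have bKm : BO (rKm α m pe) (-α) := ((br2.cmul (kap pe)).mulc _)
  have hm0 : (0 : ℝ) ≤ ((m + 1 : ℕ) : ℝ) := Nat.cast_nonneg _
  have bAL : BO (fun g => ((pA η g * L : ℕ) : ℝ)) 3 := by
    simp only [Nat.cast_mul]; exact (bA.mulc _).mono (by linarith)
  have bWL : BO (fun g => ((pW2 η m g * L : ℕ) : ℝ)) 3 := by
    simp only [Nat.cast_mul]; exact (bW2.mulc _).mono (by linarith)
  have he2 : (3 : ℝ) * ((K + 1 : ℕ) : ℝ) + -η * ((m + 1 : ℕ) : ℝ) ≤ -(T + 10) := by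
    push_cast at hm ⊢; linarith
  have he1 : (3 : ℝ) + (1 - α + 4 * η) * (K : ℝ) / 2 ≤ -(T + 10) := by
    have := hKr _ (show 1 - α + 4 * η ≤ -(3 / 16) by linarith); linarith
  have betr : BO (fun g => etr m (pP η g) K (pA η g * L) (rT η g) (rRho α η m pe g)) (-(T + 10)) :=
    etr_BO m K bAL (by norm_num) bgam bρ he1 he2
  have betr' : BO (fun g => etr m (pP η g) K (pW2 η m g * L) (rT η g) (rRho α η m pe g)) (-(T + 10)) :=
    etr_BO m K bWL (by norm_num) bgam bρ he1 he2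
  have beRef : BO (fun g => eRef m (pP η g) K (pA η g) (rT η g) (rB B g) (rRho α η m pe g)) (-(T + 1)) := by
    unfold eRef
    exact (((bWL.mul bbd).mono (by linarith)).add (betr'.mono (by linarith))).add
      (((uerr_BO m K bWL (by norm_num) bgam he2).cmul ((K : ℝ) + 1)).mono (by linarith))
  have bNear : BO (fun g => eNear m (pP η g) K (pP η g) (pA η g) (rT η g) (rT1 η g) (rB B g) (rRho α η m pe g))
      (-(T + 1)) := by
    unfold eNear
    have t1 := (bk1.cmul 2).mono (show -(η * ((m + 1 : ℕ) : ℝ)) ≤ -(T + 1) by linarith)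
    have t2 := ((((bA.mulc (L : ℝ)).mul bbd).cmul 2).mulc ((2 : ℝ) ^ L)).mono
      (show 2 + 7 * η + -B ≤ -(T + 1) by linarith)
    have t3 := ((((((bbd.cmul (2 * (L : ℝ))).mono (show -B ≤ -(T + 20) by linarith)).add
      (bk.mono (show -(η * ((m + 1 : ℕ) : ℝ)) ≤ -(T + 20) by linarith))).add
      ((bbd.cmul (L : ℝ)).mono (show -B ≤ -(T + 20) by linarith))).cmul (L : ℝ)).cmul
      ((2 : ℝ) ^ L)).mono (show -(T + 20) ≤ -(T + 1) by linarith)
    have t4 := ((betr.mulc ((2 : ℝ) ^ L)).mul ((BO.const 2).add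
      (betr.mono (show -(T + 10) ≤ 0 by linarith)))).mono
      (show -(T + 10) + 0 ≤ -(T + 1) by linarith)
    have t5 := (((((bAL.add (BO.const' 1 (by norm_num))).pow (2 * K)).mulc
      ((2 : ℝ) ^ (L * L))).cmul ((2 : ℝ) ^ L)).mul ((bgam.pow (m + 1)).cmul
      ((kmaxG m K : ℝ) * L1c m ^ (kmaxG m K + 1)))).cmul (compN m K) |>.mono
      (show (3 : ℝ) * ((2 * K : ℕ) : ℝ) + -η * ((m + 1 : ℕ) : ℝ) ≤ -(T + 1) by
        push_cast at hm ⊢; linarith)
    exact ((t1.add (t2.add t3)).add t4).add t5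
  exact ⟨bNear, beRef⟩

theorem round_qdiff {α α' η η' T B : ℝ} {m K pe : ℕ} (hp : RoundPar α α' η η' T B m K pe) :
    BO (fun g => qDiff m (pP η g) K (rRho α η m pe g) (rKm α m pe g) (pA η g * pW1 η m g))
        (-(4 * α + 1 / 4 - 4 * η)) ∧
      BO (fun g => (pLen η m g : ℝ) ^ α') ((4 + 11 * η) * α') ∧ BO (rEps α' η m) 0 := by
  obtain ⟨hα, hη0, hη, hη', hT, hB, hK, hm, hgap, hα', hpe⟩ := hp
  have hk0 : (0 : ℝ) ≤ K := Nat.cast_nonneg K
  set L := patLen m with hL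
  obtain ⟨bP, bA, bJ1, bJ2, bW1, bW2, bLen⟩ := round_rates m hη0.le
  obtain ⟨gW1, gW2⟩ := round_gap m hη0.le
  have gP : ∀ᶠ g : ℕ in atTop, (g : ℝ) ^ (1 + 3 * η) ≤ (pP η g : ℝ) :=
    Eventually.of_forall fun g => ceil_ge_rpow g _
  have gA : ∀ᶠ g : ℕ in atTop, (g : ℝ) ^ (2 + 7 * η) ≤ (pA η g : ℝ) :=
    Eventually.of_forall fun g => ceil_ge_rpow g _
  have bτ : BO (rT η) (1 + η) := BO.rpow _
  have br : BO (rR α) (-(α / 2)) := BO.rpow _
  have br2 : BO (fun g => rR α g ^ 2) (-α) := (br.pow 2).mono (by push_cast; linarith)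
  have bbd : BO (rB B) (-B) := BO.rpow _
  have bτ1 : BO (rT1 η) (2 + 5 * η) :=
    ((bJ1.cmul 2).add (BO.const' 1 (by linarith))).cmul 32
  have bgam : BO (fun g => gam m (pP η g) (rT η g)) (-η) := gam_BO m bτ gP (by linarith)
  have bgam2 : BO (fun g => gam m (pA η g) (rT1 η g)) (-η) := gam_BO m bτ1 gA (by linarith)
  have bk : BO (fun g => kerr m (pP η g) (rT η g)) (-(η * ((m + 1 : ℕ) : ℝ))) :=
    kerr_BO m bτ gP (le_of_eq (by ring))
  have bk1 : BO (fun g => kerr m (pA η g) (rT1 η g)) (-(η * ((m + 1 : ℕ) : ℝ))) :=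
    kerr_BO m bτ1 gA (le_of_eq (by ring))
  have hKr : ∀ er : ℝ, er ≤ -(3 / 16) → er * (K : ℝ) / 2 ≤ -(3 / 2 * (T + 20)) := by
    intro er her
    have := mul_le_mul_of_nonneg_right her hk0
    linarith
  have bρ : BO (rRho α η m pe) (1 - α + 4 * η) :=
    ((br2.cmul (kap pe)).mul (Sbd_BO m (2 * L) bW2 (by linarith) gW1
      (Eventually.of_forall fun g => le_pW1 η m g) (e := 1 + 4 * η)
      (by linarith) (by linarith))).mono (by linarith)
  have bKm : BO (rKm α m pe) (-α) := ((br2.cmul (kap pe)).mulc _)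
  have binv : BO (fun g => 1 / ((max 1 (wid (pP η g) (pA η g * pW1 η m g)) : ℕ) : ℝ)) (-1) := by
    refine BO.of_le ((((BO.const 1).div gA).sqrt.cmul 2).mono (by linarith)) ?_
    filter_upwards [gA, gP, ev_one_le] with g hA' hP' hg
    have hA0 : (0 : ℝ) < pA η g := lt_of_lt_of_le (Real.rpow_pos_of_pos (by linarith) _) hA'
    have hP0 : (0 : ℝ) < pP η g := lt_of_lt_of_le (Real.rpow_pos_of_pos (by linarith) _) hP'
    have hW : (pP η g : ℝ) ≤ pW1 η m g := by exact_mod_cast le_pW1 η m g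
    rw [abs_of_nonneg (by positivity)]
    refine (inv_wid_le (pP η g) (pA η g * pW1 η m g) (by exact_mod_cast hP0)
      (Nat.mul_pos (by exact_mod_cast hA0) (by exact_mod_cast lt_of_lt_of_le hP0 hW))).trans ?_
    refine mul_le_mul_of_nonneg_left (Real.sqrt_le_sqrt ?_) (by norm_num)
    rw [Nat.cast_mul, div_le_div_iff₀ (mul_pos hA0 (lt_of_lt_of_le hP0 hW)) hA0, one_mul,
      mul_comm]
    exact mul_le_mul_of_nonneg_left hW hA0.le
  have bq : BO (fun g => qDiff m (pP η g) K (rRho α η m pe g) (rKm α m pe g) (pA η g * pW1 η m g))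
      (-(4 * α + 1 / 4 - 4 * η)) := by
    unfold qDiff gainF
    exact ((((bKm.pow 4).cmul (((2 : ℝ) ^ L) ^ 2 * ((kmaxG m K : ℝ) + 1) ^ 2)).mul
      ((bρ.mono (show 1 - α + 4 * η ≤ -(1 / 4) + 4 * η by linarith)).add
        (binv.mono (show (-1 : ℝ) ≤ -(1 / 4) + 4 * η by linarith)))).cmul
      (compN m K ^ 2)).mono (by push_cast; linarith)
  have hlen11 : ∀ᶠ g : ℕ in atTop, (pLen η m g : ℝ) ≤ (g : ℝ) ^ (4 + 11 * η) :=
    bLen.eventually_le (by linarith)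
  have binvlen : BO (fun g => (pLen η m g : ℝ) ^ α') ((4 + 11 * η) * α') := by
    refine BO.of_le (BO.rpow _) ?_
    filter_upwards [hlen11, ev_one_le] with g h hg
    rw [abs_of_nonneg (Real.rpow_nonneg (Nat.cast_nonneg _) _), Real.rpow_mul (by linarith)]
    exact Real.rpow_le_rpow (Nat.cast_nonneg _) h hα'
  have beps : BO (rEps α' η m) 0 := by
    refine BO.of_le (BO.const 1) ?_
    filter_upwards [ev_one_le] with g hg
    have h4 : (1 : ℝ) ≤ pLen η m g := le_trans (Real.one_le_rpow hg (by linarith))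
      (pLen_ge hη0.le m (by exact_mod_cast hg))
    have := Real.rpow_le_one_of_one_le_of_nonpos h4 (show -(α' / 2) ≤ 0 by linarith)
    have hn := Real.rpow_nonneg (Nat.cast_nonneg (pLen η m g)) (-(α' / 2))
    simp only [rEps]
    rw [abs_of_nonneg (by positivity)]
    linarith
  exact ⟨bq, binvlen, beps⟩

theorem round_err {α α' η η' T B : ℝ} {m K pe : ℕ} (hp : RoundPar α α' η η' T B m K pe) :
    BO (rErr α α' η B m K pe) (-(T + 1)) := by
  obtain ⟨bNear, beRef⟩ := round_near hp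
  obtain ⟨bq, binvlen, beps⟩ := round_qdiff hp
  obtain ⟨hα, hη0, hη, hη', hT, hB, hK, hm, hgap, hα', hpe⟩ := hp
  have hk0 : (0 : ℝ) ≤ K := Nat.cast_nonneg K
  set L := patLen m with hL
  obtain ⟨bP, bA, bJ1, bJ2, bW1, bW2, bLen⟩ := round_rates m hη0.le
  obtain ⟨gW1, gW2⟩ := round_gap m hη0.le
  have gP : ∀ᶠ g : ℕ in atTop, (g : ℝ) ^ (1 + 3 * η) ≤ (pP η g : ℝ) :=
    Eventually.of_forall fun g => ceil_ge_rpow g _
  have gA : ∀ᶠ g : ℕ in atTop, (g : ℝ) ^ (2 + 7 * η) ≤ (pA η g : ℝ) :=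
    Eventually.of_forall fun g => ceil_ge_rpow g _
  have bτ : BO (rT η) (1 + η) := BO.rpow _
  have br : BO (rR α) (-(α / 2)) := BO.rpow _
  have br2 : BO (fun g => rR α g ^ 2) (-α) := (br.pow 2).mono (by push_cast; linarith)
  have bbd : BO (rB B) (-B) := BO.rpow _
  have bτ1 : BO (rT1 η) (2 + 5 * η) :=
    ((bJ1.cmul 2).add (BO.const' 1 (by linarith))).cmul 32
  have bgam : BO (fun g => gam m (pP η g) (rT η g)) (-η) := gam_BO m bτ gP (by linarith)
  have bgam2 : BO (fun g => gam m (pA η g) (rT1 η g)) (-η) := gam_BO m bτ1 gA (by linarith)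
  have bk : BO (fun g => kerr m (pP η g) (rT η g)) (-(η * ((m + 1 : ℕ) : ℝ))) :=
    kerr_BO m bτ gP (le_of_eq (by ring))
  have bk1 : BO (fun g => kerr m (pA η g) (rT1 η g)) (-(η * ((m + 1 : ℕ) : ℝ))) :=
    kerr_BO m bτ1 gA (le_of_eq (by ring))
  have hKr : ∀ er : ℝ, er ≤ -(3 / 16) → er * (K : ℝ) / 2 ≤ -(3 / 2 * (T + 20)) := by
    intro er her
    have := mul_le_mul_of_nonneg_right her hk0
    linarith
  have bρ : BO (rRho α η m pe) (1 - α + 4 * η) :=
    ((br2.cmul (kap pe)).mul (Sbd_BO m (2 * L) bW2 (by linarith) gW1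
      (Eventually.of_forall fun g => le_pW1 η m g) (e := 1 + 4 * η)
      (by linarith) (by linarith))).mono (by linarith)
  have bKm : BO (rKm α m pe) (-α) := ((br2.cmul (kap pe)).mulc _)
  have hpe1 : 1 ≤ pe := by
    have : (1 : ℝ) ≤ pe := by linarith
    exact_mod_cast this
  have bx : BO (fun g => qDiff m (pP η g) K (rRho α η m pe g) (rKm α m pe g) (pA η g * pW1 η m g) ^ pe /
      rEps α' η m g ^ (2 * pe - 1)) (-(T + 1)) := by
    have h1 : BO (fun g => rEps α' η m g * (qDiff m (pP η g) K (rRho α η m pe g) (rKm α m pe g) (pA η g * pW1 η m g) *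
        (16 * (pLen η m g : ℝ) ^ α')) ^ pe) (-(T + 1)) := by
      refine (beps.mul (((bq.mul (binvlen.cmul 16)).mono
        (show -(4 * α + 1 / 4 - 4 * η) + (4 + 11 * η) * α' ≤ -(1 / 16) by linarith)).pow pe)).mono ?_
      linarith
    refine BO.of_le h1 ?_
    · filter_upwards [ev_one_le] with g hg
      have h4 : (0 : ℝ) < pLen η m g := lt_of_lt_of_le (Real.rpow_pos_of_pos (by linarith) _)
        (pLen_ge hη0.le m (by exact_mod_cast hg))
      have he0 : 0 < rEps α' η m g := by simp only [rEps]; positivity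
      have he2 : (16 : ℝ) * (pLen η m g : ℝ) ^ α' = 1 / rEps α' η m g ^ 2 := by
        simp only [rEps]
        rw [div_pow, ← Real.rpow_natCast ((pLen η m g : ℝ) ^ (-(α' / 2))) 2,
          ← Real.rpow_mul h4.le, show -(α' / 2) * ((2 : ℕ) : ℝ) = -α' by push_cast; ring,
          Real.rpow_neg h4.le]
        field_simp
        norm_num
      rw [he2]
      refine le_of_eq ?_
      have hq0' : 0 ≤ qDiff m (pP η g) K (rRho α η m pe g) (rKm α m pe g) (pA η g * pW1 η m g) := by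
        have hp0 := kap_pos pe
        have hS := Sbd_nonneg m (pP η g) (2 * L) (pW1 η m g) (pW2 η m g)
        simp only [qDiff, gainF, rRho]
        positivity
      rw [abs_of_nonneg (div_nonneg (pow_nonneg hq0' _) (by positivity)), mul_one_div,
        div_pow (qDiff m (pP η g) K (rRho α η m pe g) (rKm α m pe g) (pA η g * pW1 η m g)),
        ← pow_mul, ← mul_div_assoc, div_eq_div_iff (by positivity) (by positivity)]
      conv_rhs => rw [mul_comm (rEps α' η m g), mul_assoc, ← pow_succ', Nat.sub_add_cancel (by omega)]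
  have by' : BO (fun g => 2 * rEps α' η m g * (qRef K (rRho α η m pe g) ^ pe / (1 / 2) ^ (2 * pe - 1) +
      eRef m (pP η g) K (pA η g) (rT η g) (rB B g) (rRho α η m pe g))) (-(T + 1)) := by
    have h1 : BO (fun g => qRef K (rRho α η m pe g) ^ pe / (1 / 2) ^ (2 * pe - 1)) (-(T + 1)) := by
      unfold qRef
      simp only [div_eq_mul_inv]
      refine (((bρ.cmul _).pow pe).mulc _).mono ?_
      have h := mul_le_mul_of_nonneg_right (show 1 - α + 4 * η ≤ -(3 / 16) by linarith)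
        (Nat.cast_nonneg pe : (0 : ℝ) ≤ pe)
      linarith
    exact ((beps.cmul 2).mul (h1.add beRef)).mono (by linarith)
  exact (bNear.add (bx.add by')).cmul 2

theorem round {q α α' η η' T B : ℝ} (hq0 : 0 < q) (hq1 : q < 1) {m K pe : ℕ}
    (hp : RoundPar α α' η η' T B m K pe) :
    ∀ᶠ g : ℕ in atTop, Pair q α η B g →
      (g : ℝ) ^ (4 : ℝ) ≤ (pLen η m g : ℝ) ∧ (pLen η m g : ℝ) ≤ (g : ℝ) ^ (4 + 11 * η) ∧
      ∃ x y : List Bool, x.length = pLen η m g ∧ y.length = pLen η m g ∧ x ≠ y ∧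
        ∃ f : FreeMonoid Bool → ℝ, IsTilt (tr q x) f ((pLen η m g : ℝ) ^ (-(α' / 2))) ∧
          nrm (tr q y - (tr q x + dlt (tr q x) f)) ≤ (g : ℝ) ^ (-T) ∧
          Smooth (tr q x) ((pLen η m g : ℝ) ^ (1 + η')) := by
  have esm := round_smooth hp
  have etot := (round_err hp).eventually_le (e' := -T) (by linarith)
  obtain ⟨hα, hη0, hη, hη', hT, hB, hK, hm, hgap, hα', hpe⟩ := hp
  have hk0 : (0 : ℝ) ≤ K := Nat.cast_nonneg K
  set L := patLen m with hL
  obtain ⟨bP, bA, bJ1, bJ2, bW1, bW2, bLen⟩ := round_rates m hη0.le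
  obtain ⟨gW1, gW2⟩ := round_gap m hη0.le
  have gP : ∀ᶠ g : ℕ in atTop, (g : ℝ) ^ (1 + 3 * η) ≤ (pP η g : ℝ) :=
    Eventually.of_forall fun g => ceil_ge_rpow g _
  have gA : ∀ᶠ g : ℕ in atTop, (g : ℝ) ^ (2 + 7 * η) ≤ (pA η g : ℝ) :=
    Eventually.of_forall fun g => ceil_ge_rpow g _
  have bτ : BO (rT η) (1 + η) := BO.rpow _
  have br : BO (rR α) (-(α / 2)) := BO.rpow _
  have br2 : BO (fun g => rR α g ^ 2) (-α) := (br.pow 2).mono (by push_cast; linarith)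
  have bbd : BO (rB B) (-B) := BO.rpow _
  have bτ1 : BO (rT1 η) (2 + 5 * η) :=
    ((bJ1.cmul 2).add (BO.const' 1 (by linarith))).cmul 32
  have bgam : BO (fun g => gam m (pP η g) (rT η g)) (-η) := gam_BO m bτ gP (by linarith)
  have bgam2 : BO (fun g => gam m (pA η g) (rT1 η g)) (-η) := gam_BO m bτ1 gA (by linarith)
  have bk : BO (fun g => kerr m (pP η g) (rT η g)) (-(η * ((m + 1 : ℕ) : ℝ))) :=
    kerr_BO m bτ gP (le_of_eq (by ring))
  have bk1 : BO (fun g => kerr m (pA η g) (rT1 η g)) (-(η * ((m + 1 : ℕ) : ℝ))) :=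
    kerr_BO m bτ1 gA (le_of_eq (by ring))
  have hKr : ∀ er : ℝ, er ≤ -(3 / 16) → er * (K : ℝ) / 2 ≤ -(3 / 2 * (T + 20)) := by
    intro er her
    have := mul_le_mul_of_nonneg_right her hk0
    linarith
  have bρ : BO (rRho α η m pe) (1 - α + 4 * η) :=
    ((br2.cmul (kap pe)).mul (Sbd_BO m (2 * L) bW2 (by linarith) gW1
      (Eventually.of_forall fun g => le_pW1 η m g) (e := 1 + 4 * η)
      (by linarith) (by linarith))).mono (by linarith)
  have bKm : BO (rKm α m pe) (-α) := ((br2.cmul (kap pe)).mulc _)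
  have hpe1 : 1 ≤ pe := by
    have : (1 : ℝ) ≤ pe := by linarith
    exact_mod_cast this
  set cU := (patU m).card with hcU
  have eγ : ∀ᶠ g : ℕ in atTop,
      (L : ℝ) * Real.sqrt (4 * ((m : ℝ) + 1) * rT η g / pP η g) ≤ 1 :=
    ((((bτ.cmul (4 * ((m : ℝ) + 1))).div gP).sqrt).cmul (L : ℝ)).small (by linarith) one_pos
  have eγ1 : ∀ᶠ g : ℕ in atTop,
      (L : ℝ) * Real.sqrt (4 * ((m : ℝ) + 1) * rT1 η g / pA η g) ≤ 1 :=
    ((((bτ1.cmul (4 * ((m : ℝ) + 1))).div gA).sqrt).cmul (L : ℝ)).small (by linarith) one_pos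
  have er1 : ∀ᶠ g : ℕ in atTop, rR1 α m g ≤ 1 :=
    BO.small (f := rR1 α m) ((br2.cmul ((4 : ℝ) ^ L)).cmul 2) (by linarith) one_pos
  have er := br.small (by linarith) (show (0 : ℝ) < 1 / 2 by norm_num)
  have eR : ∀ᶠ g : ℕ in atTop, (4 : ℝ) ^ L * rR α g ^ 2 ≤ 1 :=
    (br2.cmul _).small (by linarith) one_pos
  have eg1 := bgam.small (by linarith) (show (0 : ℝ) < 1 by norm_num)
  have eg2 := bgam2.small (by linarith) (show (0 : ℝ) < 1 by norm_num)
  have eρ := bρ.small (by linarith) (show (0 : ℝ) < 1 by norm_num)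
  have eKm := bKm.small (by linarith) (show (0 : ℝ) < 1 by norm_num)
  have ed1 : ∀ᶠ g : ℕ in atTop,
      2 * (L : ℝ) * rB B g + kerr m (pP η g) (rT η g) + (4 : ℝ) ^ L * rR α g ^ 2 ≤ 1 :=
    ((((bbd.cmul (2 * (L : ℝ))).mono (show -B ≤ -(1 / 4) by linarith)).add
      (bk.mono (show -(η * ((m + 1 : ℕ) : ℝ)) ≤ -(1 / 4) by linarith))).add
      ((br2.cmul _).mono (show -α ≤ -(1 / 4) by linarith))).small (by norm_num) one_pos
  have bτ2 : BO (fun g => 32 * (2 * (pJ2 η g : ℝ) + 1)) (4 + 13 * η) :=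
    ((bJ2.cmul 2).add (BO.const' 1 (by linarith))).cmul 32
  have eτ2 := bτ2.eventually_le (e' := 4 * (1 + η')) (by linarith)
  have eD := ev_ceil_large (show 0 < 1 + 3 * η by linarith)
    (4 * (kmaxG m K + 1) * (2 * m + 3))
  have eD2 := ev_ceil_large (show 0 < 2 + 7 * η by linarith)
    (4 * (kmaxG m K + 1) * (2 * m + 3))
  have hlen11 : ∀ᶠ g : ℕ in atTop, (pLen η m g : ℝ) ≤ (g : ℝ) ^ (4 + 11 * η) :=
    bLen.eventually_le (by linarith)
  filter_upwards [eγ, eγ1, er1, er, eR, eg1, eg2, eρ, eKm, esm, ed1,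
    etot, eτ2, eD, eD2, hlen11, eventually_ge_atTop 1]
    with g hγ hγ1 hr1 hr hR hg1 hg2 hρ hKm1 hsm' hd1 htot hτ2 hD hD2 hl hg
  obtain ⟨hρ1, hρ2, hs1, hs2⟩ := hsm'
  rintro ⟨x, y, hx, hy, hxy, f, hf, hbad, hsm⟩
  have hg0 : (1 : ℝ) ≤ g := by exact_mod_cast hg
  have hl4 : (g : ℝ) ^ (4 : ℝ) ≤ pLen η m g :=
    (Real.rpow_le_rpow_of_exponent_le hg0 (by linarith)).trans (pLen_ge hη0.le m hg)
  refine ⟨hl4, hl, ?_⟩
  have hD' : 4 * (kmaxG m K + 1) * (2 * m + 3) ≤ pP η g := hD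
  have hA' : 4 * (kmaxG m K + 1) * (2 * m + 3) ≤ pA η g := hD2
  have hKD : 4 * (K + 1) * (2 * m + 3) ≤ 4 * (kmaxG m K + 1) * (2 * m + 3) := by
    refine Nat.mul_le_mul_right _ (Nat.mul_le_mul_left 4 ?_); unfold kmaxG; omega
  have hbig : 2 * (m + 2) ≤ 4 * (kmaxG m K + 1) * (2 * m + 3) := by
    calc 2 * (m + 2) ≤ 4 * 1 * (2 * m + 3) := by omega
      _ ≤ _ := Nat.mul_le_mul_right _ (Nat.mul_le_mul_left 4 (by omega))
  set a := tr q x with ha'
  set b := tr q y with hb'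
  have ha : IsProb a := isProb_tr hq0.le hq1.le x
  have hb : IsProb b := isProb_tr hq0.le hq1.le y
  replace hf : IsTilt a f (rR α g) := hf
  replace hbad : nrm (b - (a + dlt a f)) ≤ rB B g := hbad
  replace hsm : Smooth a (rT η g) := hsm
  have hτ0 : 0 ≤ rT η g := Real.rpow_nonneg (Nat.cast_nonneg g) _
  have hτ10 : 0 ≤ rT1 η g := by simp only [rT1]; positivity
  have hP0 : 0 < pW1 η m g := by have := patLen_pos m; unfold pW1; omega
  have hP20 : 0 < pW2 η m g := by have := patLen_pos m; unfold pW2; omega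
  have hJ10 : 0 < pJ1 η g := Nat.ceil_pos.mpr (by positivity)
  have hJ20 : 0 < pJ2 η g := Nat.ceil_pos.mpr (by positivity)
  have hcard : ∀ p : ℕ, (cellS p (patU m)).card = cU := fun p => by
    rw [cellS, card_image_of_injective _ fun u v h => Nat.add_left_cancel h]
  have hsA : Smooth (cellW a b (pP η g) L (patU m)) (rT1 η g) := by
    rw [cellW_eq a b (pP η g) L (patU_lt m)]
    exact cell_smooth ha hb hf hbad (by linarith) hτ0 hsm (le_trans hKD hD') hg1 hP0 hJ10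
      (cellS_lt (patU_lt m)) (hcard _) hρ1 hs1
  obtain ⟨f1, hf1, he1'⟩ := cell_tilt ha hb hf hbad hr hτ0 hsm (le_trans hbig hD') hγ hR
  set a1 := cellW a b (pP η g) L (patU m) with ha1'
  set b1 := cellW a b (pP η g) L (patV m) with hb1'
  have ha1 : IsProb a1 := isProb_cellW ha hb _ _ _
  have hb1 : IsProb b1 := isProb_cellW ha hb _ _ _
  have hsA2 : Smooth (cellW a1 b1 (pA η g) L (patU m)) (32 * (2 * (pJ2 η g : ℝ) + 1)) := by
    rw [cellW_eq a1 b1 (pA η g) L (patU_lt m)]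
    exact cell_smooth ha1 hb1 hf1 he1' hr1 hτ10 hsA (le_trans hKD hA') hg2 hP20 hJ20
      (cellS_lt (patU_lt m)) (hcard _) hρ2 hs2
  have hl0 : (0 : ℝ) < pLen η m g := lt_of_lt_of_le (by positivity) hl4
  have heps : 0 < rEps α' η m g := by simp only [rEps]; positivity
  obtain ⟨f', hf', he'⟩ := gain (rho := rRho α η m pe g) (Km := rKm α m pe g) ha hb hf hbad hr hτ0 hsm hτ10 hsA
    (le_trans hbig hD') hγ (le_trans hbig hA') hγ1 hpe1 hD' hg1 rfl hρ rfl hKm1 hd1 heps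
  set x1 := cellL x y (pP η g) L (patU m) with hx1
  set y1 := cellL x y (pP η g) L (patV m) with hy1
  refine ⟨cellL x1 y1 (pA η g) L (patU m), cellL x1 y1 (pA η g) L (patV m), ?_, ?_, ?_,
    f', ?_, ?_, ?_⟩
  · exact length_wordL (length_wordL hx hy _ _) (length_wordL hx hy _ _) _ _
  · exact length_wordL (length_wordL hx hy _ _) (length_wordL hx hy _ _) _ _
  · exact cellL_ne (length_wordL hx hy _ _) (length_wordL hx hy _ _)
      (cellL_ne hx hy hxy m _) m _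
  all_goals
    rw [tr_cellL q x1 y1 _ _ (patU_lt m), hx1, hy1, tr_cellL q x y _ _ (patU_lt m),
      tr_cellL q x y _ _ (patV_lt m)]
  · rw [show (pLen η m g : ℝ) ^ (-(α' / 2)) = 2 * (2 * rEps α' η m g) by simp only [rEps]; ring]
    exact hf'
  · rw [tr_cellL q _ _ _ _ (patV_lt m), tr_cellL q x y _ _ (patU_lt m),
      tr_cellL q x y _ _ (patV_lt m)]
    exact he'.trans htot
  · refine hsA2.mono (hτ2.trans ?_)
    rw [Real.rpow_mul (by linarith)]
    exact Real.rpow_le_rpow (by positivity) hl4 (by linarith)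

end Vale.Agent.P321
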