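import Vale.Agent.P321.Defs
import Vale.Agent.P321.Strings

/-!
From close trace laws to a lower bound for every estimator.
-/

noncomputable section

open Finset

namespace Vale.Agent.P321

theorem traceOf_cons {n : ℕ} (x : Fin (n + 1) → Bool) (b : Bool) (k : Fin n → Bool) :
    traceOf x (Fin.cons b k) =
      (if b then [x 0] else []) ++ traceOf (fun i => x i.succ) k := by
  simp only [traceOf, List.finRange_succ, List.filter_cons, Fin.cons_zero, List.filter_map]
  have e : ((Fin.cons b k : Fin (n + 1) → Bool) ∘ Fin.succ) = k := funext fun i => by simp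
  rw [e]
  cases b <;> simp [List.map_map, Function.comp_def]

theorem keepProb_cons (q : ℝ) {n : ℕ} (b : Bool) (k : Fin n → Bool) :
    keepProb q (Fin.cons b k : Fin (n + 1) → Bool) = (if b then 1 - q else q) * keepProb q k := by
  simp [keepProb, Fin.prod_univ_succ]

theorem tr_eq_sum (q : ℝ) : ∀ {n : ℕ} (x : Fin n → Bool),
    tr q (List.ofFn x) =
      ∑ k : Fin n → Bool, keepProb q k • pt (FreeMonoid.ofList (traceOf x k)) 1
  | 0, x => by
    simp [tr, keepProb, traceOf, one_eq_pt]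
  | n + 1, x => by
    rw [List.ofFn_succ, tr_cons, tr_eq_sum q (fun i => x i.succ), mul_sum,
      ← (Fin.consEquiv fun _ => Bool).sum_comp
        (fun k => keepProb q k • pt (FreeMonoid.ofList (traceOf x k)) 1),
      Fintype.sum_prod_type, Fintype.sum_bool, ← sum_add_distrib]
    refine sum_congr rfl fun k _ => ?_
    have hc : ∀ b : Bool, (Fin.consEquiv fun _ : Fin (n + 1) => Bool) (b, k) = Fin.cons b k :=
      fun _ => rfl
    simp only [hc, keepProb_cons, traceOf_cons, if_true, Bool.false_eq_true,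
      if_false, List.nil_append, List.singleton_append, unitTr, add_mul, smul_mul_assoc,
      mul_smul_comm, one_mul, pt_mul, mul_one, smul_smul]
    simp only [FreeMonoid.ofList_cons, smul_add, smul_smul, mul_comm (keepProb q k), add_comm]

open scoped Classical in
/-- Expectations over keep patterns agree with the trace law. -/
theorem bridge (q : ℝ) {n : ℕ} (x : Fin n → Bool) (f : List Bool → ℝ)
    {S : Finset (FreeMonoid Bool)}
    (hS : ∀ k, FreeMonoid.ofList (traceOf x k) ∈ S) :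
    ∑ k, keepProb q k * f (traceOf x k) =
      ∑ w ∈ S, cf (tr q (List.ofFn x)) w * f w.toList := by
  rw [tr_eq_sum]
  simp only [cf_sum, cf_smul, cf_pt, sum_mul]
  rw [sum_comm]
  refine sum_congr rfl fun k _ => ?_
  simp only [mul_ite, mul_one, mul_zero, ite_mul, zero_mul, sum_ite_eq, if_pos (hS k)]
  simp

theorem keepProb_sum (q : ℝ) : ∀ n : ℕ, ∑ k : Fin n → Bool, keepProb q k = 1
  | 0 => by simp [keepProb]
  | n + 1 => by
    rw [← (Fin.consEquiv fun _ => Bool).sum_comp (fun k => keepProb q k), Fintype.sum_prod_type,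
      Fintype.sum_bool]
    have hc : ∀ (b : Bool) (k : Fin n → Bool),
        (Fin.consEquiv fun _ : Fin (n + 1) => Bool) (b, k) = Fin.cons b k := fun _ _ => rfl
    simp only [hc, keepProb_cons, ← mul_sum, keepProb_sum q n]
    simp

theorem keepProb_nonneg {q : ℝ} (h0 : 0 ≤ q) (h1 : q ≤ 1) {n : ℕ} (k : Fin n → Bool) :
    0 ≤ keepProb q k :=
  prod_nonneg fun i _ => by split <;> linarith

/-- The mean of a statistic of `m` traces. -/
def meanTr (q : ℝ) {n m : ℕ} (x : Fin n → Bool) (F : (Fin m → List Bool) → ℝ) : ℝ :=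
  ∑ K : Fin m → Fin n → Bool, (∏ j, keepProb q (K j)) * F (fun j => traceOf x (K j))

theorem meanTr_succ (q : ℝ) {n m : ℕ} (x : Fin n → Bool) (F : (Fin (m + 1) → List Bool) → ℝ) :
    meanTr q x F = ∑ k, keepProb q k * meanTr q x (fun s => F (Fin.cons (traceOf x k) s)) := by
  rw [meanTr, ← (Fin.consEquiv fun _ => Fin n → Bool).sum_comp
    (fun K => (∏ j, keepProb q (K j)) * F (fun j => traceOf x (K j))), Fintype.sum_prod_type]
  refine sum_congr rfl fun k _ => ?_
  rw [meanTr, mul_sum]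
  refine sum_congr rfl fun K _ => ?_
  have hc : (Fin.consEquiv fun _ : Fin (m + 1) => Fin n → Bool) (k, K) = Fin.cons k K := rfl
  simp only [hc, Fin.prod_univ_succ, Fin.cons_zero, Fin.cons_succ]
  rw [mul_assoc]
  congr 3
  funext j
  exact Fin.cases rfl (fun i => by simp) j

theorem meanTr_mem {q : ℝ} (h0 : 0 ≤ q) (h1 : q ≤ 1) {n m : ℕ} (x : Fin n → Bool)
    {F : (Fin m → List Bool) → ℝ} (hF : ∀ s, 0 ≤ F s ∧ F s ≤ 1) :
    0 ≤ meanTr q x F ∧ meanTr q x F ≤ 1 := by
  have hp : ∀ K : Fin m → Fin n → Bool, 0 ≤ ∏ j, keepProb q (K j) := fun K =>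
    prod_nonneg fun j _ => keepProb_nonneg h0 h1 _
  refine ⟨sum_nonneg fun K _ => mul_nonneg (hp K) (hF _).1, ?_⟩
  refine (sum_le_sum fun K _ => mul_le_of_le_one_right (hp K) (hF _).2).trans (le_of_eq ?_)
  rw [← Fintype.prod_sum (fun (_ : Fin m) (k : Fin n → Bool) => keepProb q k), keepProb_sum,
    prod_const_one]

theorem meanTr_close {q : ℝ} (h0 : 0 ≤ q) (h1 : q ≤ 1) {n : ℕ} (x y : Fin n → Bool) :
    ∀ {m : ℕ} (F : (Fin m → List Bool) → ℝ), (∀ s, 0 ≤ F s ∧ F s ≤ 1) →
      |meanTr q x F - meanTr q y F| ≤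
        (m : ℝ) * nrm (tr q (List.ofFn x) - tr q (List.ofFn y))
  | 0, F, _ => by simp [meanTr, Matrix.empty_eq]
  | m + 1, F, hF => by
    classical
    set Δ := nrm (tr q (List.ofFn x) - tr q (List.ofFn y)) with hΔ
    set G : List Bool → ℝ := fun t => meanTr q y (fun s => F (Fin.cons t s)) with hG
    have hG1 : ∀ t, |G t| ≤ 1 := fun t => by
      have := meanTr_mem h0 h1 y (F := fun s => F (Fin.cons t s)) fun s => hF _
      rw [abs_of_nonneg this.1]; exact this.2
    set S := univ.image (fun k => FreeMonoid.ofList (traceOf x k)) ∪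
      univ.image (fun k => FreeMonoid.ofList (traceOf y k)) ∪
      supp (tr q (List.ofFn x) - tr q (List.ofFn y)) with hS
    have hd : |∑ k, keepProb q k * G (traceOf x k) - ∑ k, keepProb q k * G (traceOf y k)| ≤ Δ := by
      rw [bridge q x G (S := S) (fun k => by simp [hS]), bridge q y G (S := S) (fun k => by simp [hS]),
        ← sum_sub_distrib, hΔ, nrm_eq _ (S := S) subset_union_right]
      refine (abs_sum_le_sum_abs _ _).trans (sum_le_sum fun w _ => ?_)
      rw [← sub_mul, ← cf_sub, abs_mul]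
      exact mul_le_of_le_one_right (abs_nonneg _) (hG1 _)
    have hi : |∑ k, keepProb q k * meanTr q x (fun s => F (Fin.cons (traceOf x k) s)) -
        ∑ k, keepProb q k * G (traceOf x k)| ≤ (m : ℝ) * Δ := by
      rw [← sum_sub_distrib]
      refine (abs_sum_le_sum_abs _ _).trans ?_
      calc ∑ k, |keepProb q k * meanTr q x (fun s => F (Fin.cons (traceOf x k) s)) -
              keepProb q k * G (traceOf x k)|
          ≤ ∑ k, keepProb q k * ((m : ℝ) * Δ) := sum_le_sum fun k _ => by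
            rw [← mul_sub, abs_mul, abs_of_nonneg (keepProb_nonneg h0 h1 k)]
            exact mul_le_mul_of_nonneg_left
              (meanTr_close h0 h1 x y _ fun s => hF _) (keepProb_nonneg h0 h1 k)
        _ = (m : ℝ) * Δ := by rw [← sum_mul, keepProb_sum, one_mul]
    rw [meanTr_succ, meanTr_succ]
    refine (abs_sub_le _ (∑ k, keepProb q k * G (traceOf x k)) _).trans ?_
    refine (add_le_add hi hd).trans (le_of_eq ?_)
    push_cast; ring

/-- No estimator separates two strings with close trace laws. -/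
theorem no_separation {q : ℝ} (h0 : 0 ≤ q) (h1 : q ≤ 1) {n m : ℕ} {x y : Fin n → Bool}
    (hxy : x ≠ y) (E : (Fin m → List Bool) → (Fin n → Bool) → ℝ)
    (hE : ∀ s, (∀ z, 0 ≤ E s z) ∧ ∑ z, E s z = 1) (hx : 2 / 3 ≤ succProb q E x)
    (hy : 2 / 3 ≤ succProb q E y) :
    1 / 3 ≤ (m : ℝ) * nrm (tr q (List.ofFn x) - tr q (List.ofFn y)) := by
  classical
  have hle : ∀ s, E s x + E s y ≤ 1 := fun s => by
    rw [← (hE s).2, ← sum_pair hxy]
    exact sum_le_sum_of_subset_of_nonneg (subset_univ _) fun z _ _ => (hE s).1 z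
  have hF : ∀ s, 0 ≤ E s x ∧ E s x ≤ 1 := fun s =>
    ⟨(hE s).1 x, by linarith [hle s, (hE s).1 y]⟩
  have h := meanTr_close h0 h1 x y (fun s => E s x) hF
  have hx' : 2 / 3 ≤ meanTr q x (fun s => E s x) := hx
  have hy' : meanTr q y (fun s => E s x) + succProb q E y ≤ 1 := by
    rw [meanTr, succProb, ← sum_add_distrib]
    refine le_trans (sum_le_sum fun K _ => ?_) (meanTr_mem h0 h1 y (m := m)
      (F := fun _ => (1 : ℝ)) fun _ => ⟨zero_le_one, le_rfl⟩).2
    rw [← mul_add]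
    exact mul_le_mul_of_nonneg_left (hle _) (prod_nonneg fun j _ => keepProb_nonneg h0 h1 _)
  linarith [(abs_le.mp h).2]

/-- A common suffix does not increase the distance of the trace laws. -/
theorem nrm_tr_pad {q : ℝ} (h0 : 0 ≤ q) (h1 : q ≤ 1) (X Y S : List Bool) :
    nrm (tr q (X ++ S) - tr q (Y ++ S)) ≤ nrm (tr q X - tr q Y) := by
  rw [tr_append, tr_append, ← sub_mul]
  refine (nrm_mul _ _).trans (le_of_eq ?_)
  rw [(isProb_tr h0 h1 S).nrm_eq, mul_one]

theorem exists_ofFn {n : ℕ} {X : List Bool} (h : X.length = n) :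
    ∃ x : Fin n → Bool, List.ofFn x = X := by
  subst h
  exact ⟨fun i => X.get i, List.ofFn_get X⟩

/-- Close pairs at all scales force every estimator to use more than polynomially many traces. -/
theorem superpoly_of_pairs (h : ∀ q : ℝ, 0 < q → q < 1 → ∀ K : ℕ, ∃ N : ℕ, ∀ G ≥ N, ∃ g, G ≤ g ∧
      g ≤ G ^ 2 ∧ ∃ X Y : List Bool, X.length = g ∧ Y.length = g ∧ X ≠ Y ∧
        nrm (tr q X - tr q Y) ≤ 1 / (g : ℝ) ^ K) :
    ∀ q : ℝ, 0 < q → q < 1 → ∀ C : ℕ, ∃ N : ℕ, ∀ n ≥ N, ∀ m ≤ n ^ C,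
      ∀ E : (Fin m → List Bool) → (Fin n → Bool) → ℝ,
        (∀ s, (∀ z, 0 ≤ E s z) ∧ ∑ z, E s z = 1) → ∃ x, succProb q E x < 2 / 3 := by
  intro q hq0 hq1 C
  obtain ⟨N0, hN0⟩ := h q hq0 hq1 (2 * C + 1)
  refine ⟨(max N0 (3 * 4 ^ C + 1)) ^ 2, fun n hn m hm E hE => ?_⟩
  set G := Nat.sqrt n with hG
  have hG0 : max N0 (3 * 4 ^ C + 1) ≤ G := Nat.le_sqrt'.mpr hn
  rw [max_le_iff] at hG0
  obtain ⟨g, hGg, hgG, X, Y, hX, hY, hXY, hd⟩ := hN0 G hG0.1
  have hgn : g ≤ n := hgG.trans (Nat.sqrt_le' n)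
  set S := List.replicate (n - g) false with hS
  obtain ⟨x, hx⟩ := exists_ofFn (n := n) (X := X ++ S) (by simp [hX, hS]; omega)
  obtain ⟨y, hy⟩ := exists_ofFn (n := n) (X := Y ++ S) (by simp [hY, hS]; omega)
  have hxy : x ≠ y := fun e => hXY (List.append_cancel_right (hx.symm.trans (e ▸ hy)))
  by_contra hc
  simp only [not_exists, not_lt] at hc
  have h3 := no_separation hq0.le hq1.le hxy E hE (hc x) (hc y)
  rw [hx, hy] at h3
  have hΔ := (nrm_tr_pad hq0.le hq1.le X Y S).trans hd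
  have hG1 : (3 * 4 ^ C + 1 : ℝ) ≤ G := by exact_mod_cast hG0.2
  have h4 : (0 : ℝ) < 4 ^ C := by positivity
  have hGpos : (0 : ℝ) < G := by linarith
  have hn4 : (n : ℝ) ≤ 4 * (G : ℝ) ^ 2 := by
    have h5 := Nat.lt_succ_sqrt' n
    rw [← hG] at h5
    have h6 : ((n : ℕ) : ℝ) < ((G : ℝ) + 1) ^ 2 := by exact_mod_cast h5
    nlinarith
  have hm' : (m : ℝ) ≤ (4 * (G : ℝ) ^ 2) ^ C :=
    le_trans (by exact_mod_cast hm) (pow_le_pow_left₀ (Nat.cast_nonneg n) hn4 C)
  have hg' : 1 / (g : ℝ) ^ (2 * C + 1) ≤ 1 / (G : ℝ) ^ (2 * C + 1) :=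
    one_div_le_one_div_of_le (by positivity) (pow_le_pow_left₀ hGpos.le (by exact_mod_cast hGg) _)
  have h7 := mul_le_mul hm' (hΔ.trans hg') (nrm_nonneg _) (by positivity)
  have h8 : (4 * (G : ℝ) ^ 2) ^ C * (1 / (G : ℝ) ^ (2 * C + 1)) = 4 ^ C / G := by
    rw [mul_pow, ← pow_mul, pow_succ]
    field_simp
  have h9 : (4 : ℝ) ^ C / G < 1 / 3 := by
    rw [div_lt_div_iff₀ hGpos (by norm_num)]
    linarith
  linarith

end Vale.Agent.P321
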