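import Vale.Agent.P321.Smooth

/-!
Closeness of two consecutive powers implies smoothness of all powers.
-/

noncomputable section

open Finset

namespace Vale.Agent.P321

variable {σ : Type}

theorem sum_mul_bp (th : ℝ) (c N : ℕ) (h : c + 1 < N) :
    ∑ j ∈ range N, (j : ℝ) * bp th (c + 1) j = ((c : ℝ) + 1) * (1 - th) := by
  obtain ⟨M, rfl⟩ : ∃ M, N = M + 1 := ⟨N - 1, by omega⟩
  rw [sum_range_succ']
  push_cast
  have : ∀ i : ℕ, ((i : ℝ) + 1) * bp th (c + 1) (i + 1) =
      ((c : ℝ) + 1) * ((1 - th) * bp th c i) := fun i => (bp_th' th c i).symm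
  rw [sum_congr rfl (fun i _ => this i), ← mul_sum, ← mul_sum, sum_bp c (by omega)]
  ring

theorem sum_fac_bp (th : ℝ) (c N : ℕ) (h : c + 1 < N) :
    ∑ j ∈ range N, (j : ℝ) * ((j : ℝ) - 1) * bp th (c + 1) j =
      ((c : ℝ) + 1) * c * (1 - th) ^ 2 := by
  obtain ⟨M, rfl⟩ : ∃ M, N = M + 1 := ⟨N - 1, by omega⟩
  rw [sum_range_succ']
  push_cast
  have : ∀ i : ℕ, ((i : ℝ) + 1) * ((i : ℝ) + 1 - 1) * bp th (c + 1) (i + 1) =
      ((c : ℝ) + 1) * (1 - th) * ((i : ℝ) * bp th c i) := by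
    intro i
    linear_combination -(i : ℝ) * (bp_th' th c i)
  rw [sum_congr rfl (fun i _ => this i), ← mul_sum]
  rcases Nat.eq_zero_or_pos c with hc | hc
  · subst hc
    have : ∀ i : ℕ, (i : ℝ) * bp th 0 i = 0 := by
      intro i
      rcases Nat.eq_zero_or_pos i with hi | hi
      · subst hi; simp
      · rw [bp_eq_zero hi]; ring
    simp [this]
  · obtain ⟨d, rfl⟩ : ∃ d, c = d + 1 := ⟨c - 1, by omega⟩
    rw [sum_mul_bp th d M (by omega)]
    push_cast; ring

theorem sum_abs_bp_diff {th : ℝ} (h0 : 0 < th) (h1 : th ≤ 1) (c N : ℕ) (h : c + 1 < N) :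
    ∑ j ∈ range N, |bp th (c + 1) j - bp th c j| ≤ Real.sqrt ((1 - th) / (th * ((c : ℝ) + 1))) := by
  set mu : ℝ := ((c : ℝ) + 1) * (1 - th) with hmu
  have hb : ∀ j, 0 ≤ bp th (c + 1) j := fun j => bp_nonneg h0.le h1 _ _
  have heq : ∀ j, bp th (c + 1) j - bp th c j =
      bp th (c + 1) j * ((j : ℝ) - mu) / (((c : ℝ) + 1) * th) := by
    intro j
    rw [eq_div_iff (by positivity), hmu]
    linear_combination -(bp_th th c j)
  have hv : ∑ j ∈ range N, bp th (c + 1) j * ((j : ℝ) - mu) ^ 2 =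
      ((c : ℝ) + 1) * th * (1 - th) := by
    have : ∀ j : ℕ, bp th (c + 1) j * ((j : ℝ) - mu) ^ 2 =
        (j : ℝ) * ((j : ℝ) - 1) * bp th (c + 1) j +
          (1 - 2 * mu) * ((j : ℝ) * bp th (c + 1) j) + mu ^ 2 * bp th (c + 1) j := fun j => by ring
    rw [sum_congr rfl (fun j _ => this j), sum_add_distrib, sum_add_distrib, ← mul_sum, ← mul_sum,
      sum_fac_bp th c N h, sum_mul_bp th c N h, sum_bp (c + 1) h, hmu]
    ring
  have hcs : (∑ j ∈ range N, bp th (c + 1) j * |(j : ℝ) - mu|) ^ 2 ≤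
      ((c : ℝ) + 1) * th * (1 - th) := by
    refine (sum_sq_le_sum_mul_sum_of_sq_le_mul (range N) (fun j _ => hb j)
      (fun j _ => mul_nonneg (hb j) (sq_nonneg ((j : ℝ) - mu))) ?_).trans ?_
    · intro j _
      rw [mul_pow, sq_abs]
      exact le_of_eq (by ring)
    · rw [hv, sum_bp (c + 1) h, one_mul]
  rw [Real.le_sqrt (sum_nonneg fun j _ => abs_nonneg _)
    (div_nonneg (by linarith) (by positivity))]
  rw [sum_congr rfl (fun j _ => show |bp th (c + 1) j - bp th c j| =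
      (bp th (c + 1) j * |(j : ℝ) - mu|) / (((c : ℝ) + 1) * th) by
    rw [heq, abs_div, abs_mul, abs_of_nonneg (hb j), abs_of_pos (show (0:ℝ) < ((c : ℝ) + 1) * th by positivity)]),
    ← sum_div, div_pow, div_le_iff₀ (by positivity)]
  refine hcs.trans (le_of_eq ?_)
  field_simp

theorem nrm_diff_step {th : ℝ} (h0 : 0 < th) (h1 : th ≤ 1) {nu r0 r1 : Alg σ}
    (hnu : nrm nu ≤ 1) (hr0 : nrm r0 ≤ 1) (hr1 : nrm r1 ≤ 1) {R0 R1 : Alg σ}
    (e0 : R0 = th • nu + (1 - th) • r0) (e1 : R1 = th • nu + (1 - th) • r1)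
    (hc : Commute R0 R1) (c : ℕ) :
    nrm (R0 ^ c * R1 ^ c * (R1 - R0)) ≤ 2 * Real.sqrt ((1 - th) / (th * ((c : ℝ) + 1))) := by
  classical
  set n := 2 * c + 1 with hn
  set lam : ℕ → ℝ := fun k => (if k = c + 1 then 1 else 0) - (if k = c then 1 else 0) with hlam
  have hX : R0 ^ c * R1 ^ c * (R1 - R0) =
      ∑ k ∈ range (n + 1), lam k • (R0 ^ (n - k) * R1 ^ k) := by
    simp only [hlam, sub_smul, sum_sub_distrib, ite_smul, one_smul, zero_smul, sum_ite_eq']
    rw [if_pos (mem_range.mpr (by omega)), if_pos (mem_range.mpr (by omega)),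
      show n - (c + 1) = c by omega, show n - c = c + 1 by omega, mul_sub, mul_assoc _ _ R1,
      ← pow_succ, mul_assoc _ _ R0, ← (hc.pow_right c).eq, ← mul_assoc, ← pow_succ]
  rw [hX]
  refine (comm_mix_bound h0.le h1 hnu hr0 hr1 e0 e1 hc n lam).trans ?_
  have hm : ∀ i j, mixSum th n lam i j =
      bp th (c + 1) j * bp th c i - bp th c j * bp th (c + 1) i := by
    intro i j
    simp only [mixSum, hlam, sub_mul, sum_sub_distrib, ite_mul, one_mul, zero_mul, sum_ite_eq']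
    rw [if_pos (mem_range.mpr (by omega)), if_pos (mem_range.mpr (by omega)),
      show n - (c + 1) = c by omega, show n - c = c + 1 by omega]
  have hb : ∀ d j, 0 ≤ bp th d j := fun d j => bp_nonneg h0.le h1 d j
  have habs : ∀ i j, |mixSum th n lam i j| ≤
      |bp th (c + 1) j - bp th c j| * bp th c i + bp th c j * |bp th (c + 1) i - bp th c i| := by
    intro i j
    rw [hm, show bp th (c + 1) j * bp th c i - bp th c j * bp th (c + 1) i =
      (bp th (c + 1) j - bp th c j) * bp th c i - bp th c j * (bp th (c + 1) i - bp th c i) by ring]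
    refine (abs_sub _ _).trans (le_of_eq ?_)
    rw [abs_mul, abs_mul, abs_of_nonneg (hb c i), abs_of_nonneg (hb c j)]
  refine (sum_le_sum fun i _ => sum_le_sum fun j _ => habs i j).trans ?_
  simp only [sum_add_distrib, ← sum_mul, ← mul_sum]
  rcases Nat.eq_zero_or_pos c with hc0 | hc0
  all_goals
    rw [sum_bp c (show c < n + 1 by omega)]
    simp only [mul_one, one_mul]
    have := sum_abs_bp_diff h0 h1 c (n + 1) (by omega)
    linarith

/-- `a` has smooth powers at scale `tau`. -/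
def Smooth (a : Alg σ) (tau : ℝ) : Prop :=
  ∀ G : ℕ, 1 ≤ G → nrm (a ^ G * (a - 1)) ≤ Real.sqrt (tau / G)

theorem Smooth.mono {a : Alg σ} {t t' : ℝ} (h : Smooth a t) (ht : t ≤ t') : Smooth a t' :=
  fun G hG => (h G hG).trans (Real.sqrt_le_sqrt (div_le_div_of_nonneg_right ht (by positivity)))

theorem nrm_pow_le_one {a : Alg σ} (ha : nrm a ≤ 1) (n : ℕ) : nrm (a ^ n) ≤ 1 :=
  (nrm_pow a n).trans (pow_le_one₀ (nrm_nonneg a) ha)

theorem smooth_of_mix {a : Alg σ} (ha : nrm a ≤ 1) {W : ℕ} {th : ℝ} (h0 : 0 < th) (h1 : th ≤ 1)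
    {nu r0 r1 : Alg σ} (hnu : nrm nu ≤ 1) (hr0 : nrm r0 ≤ 1) (hr1 : nrm r1 ≤ 1)
    (e0 : a ^ W = th • nu + (1 - th) • r0) (e1 : a ^ (W + 1) = th • nu + (1 - th) • r1) :
    Smooth a (16 * (2 * (W : ℝ) + 1) / th) := by
  intro G hG
  have hGr : (1 : ℝ) ≤ G := by exact_mod_cast hG
  rcases lt_or_ge G (4 * W + 2) with h | h
  · have h2 : nrm (a ^ G * (a - 1)) ≤ 2 := by
      refine (nrm_mul _ _).trans (le_trans (mul_le_mul (nrm_pow_le_one ha G) (nrm_sub a 1)
        (nrm_nonneg _) zero_le_one) ?_)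
      rw [nrm_one]; linarith
    refine h2.trans (Real.le_sqrt_of_sq_le ?_)
    rw [le_div_iff₀ (by linarith), le_div_iff₀ h0]
    have hG' : (G : ℝ) ≤ 4 * W + 2 := by exact_mod_cast h.le
    have : 0 ≤ (G : ℝ) * (1 - th) := mul_nonneg (by linarith) (by linarith)
    nlinarith
  · set c := (G - W) / (2 * W + 1) with hc
    have hcG : c * (2 * W + 1) ≤ G - W := Nat.div_mul_le_self _ _
    have hlt : G - W < (c + 1) * (2 * W + 1) := by
      rw [add_mul, one_mul]
      exact Nat.lt_div_mul_add (by omega)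
    obtain ⟨d, hd⟩ : ∃ d, G = d + W * c + (W + 1) * c + W :=
      ⟨G - W - c * (2 * W + 1), by
        have : W * c + (W + 1) * c = c * (2 * W + 1) := by ring
        omega⟩
    have hfac : a ^ G * (a - 1) =
        a ^ d * ((a ^ W) ^ c * (a ^ (W + 1)) ^ c * (a ^ (W + 1) - a ^ W)) := by
      have : a ^ (W + 1) - a ^ W = a ^ W * (a - 1) := by rw [mul_sub, mul_one, pow_succ]
      rw [hd, this, pow_add, pow_add, pow_add, ← pow_mul, ← pow_mul]
      simp only [mul_assoc]
    rw [hfac]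
    refine (nrm_mul _ _).trans (le_trans (mul_le_of_le_one_left (nrm_nonneg _)
      (nrm_pow_le_one ha d)) ?_)
    refine (nrm_diff_step h0 h1 hnu hr0 hr1 e0 e1 ((Commute.refl a).pow_pow _ _) c).trans ?_
    rw [show (2 : ℝ) = Real.sqrt 4 by rw [show (4 : ℝ) = 2 ^ 2 by norm_num, Real.sqrt_sq (by norm_num)],
      ← Real.sqrt_mul (by norm_num), show Real.sqrt 4 = 2 by
        rw [show (4 : ℝ) = 2 ^ 2 by norm_num, Real.sqrt_sq (by norm_num)]]
    apply Real.sqrt_le_sqrt
    have hlt' : (G : ℝ) ≤ 2 * ((c : ℝ) + 1) * (2 * W + 1) := by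
      have : G ≤ 2 * (c + 1) * (2 * W + 1) := by rw [mul_assoc]; omega
      exact_mod_cast this
    rw [mul_div_assoc', div_div, div_le_div_iff₀ (by positivity) (by positivity)]
    have : 0 ≤ (1 : ℝ) - th := by linarith
    have h4 : 4 * (1 - th) * (G : ℝ) ≤ 4 * (2 * ((c : ℝ) + 1) * (2 * W + 1)) := by
      refine le_trans ?_ (mul_le_mul_of_nonneg_left hlt' (by norm_num))
      nlinarith
    have hpos : 0 ≤ ((c : ℝ) + 1) * (2 * W + 1) := by positivity
    have := mul_le_mul_of_nonneg_left h4 h0.le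
    nlinarith

/-- The coefficientwise minimum. -/
def amin (x y : Alg σ) : Alg σ := ∑ w ∈ supp x, pt w (min (cf x w) (cf y w))

theorem cf_amin {x y : Alg σ} (hy : Pos y) (w : FreeMonoid σ) :
    cf (amin x y) w = min (cf x w) (cf y w) := by
  classical
  rw [amin, cf_sum]
  simp only [cf_pt]
  rw [sum_ite_eq']
  split
  · rfl
  · rename_i h
    rw [not_mem_supp h, min_eq_left (hy w)]

theorem mass_amin {x y : Alg σ} (hx : IsProb x) (hy : IsProb y) :
    mass (amin x y) = 1 - nrm (x - y) / 2 := by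
  classical
  set S := supp x ∪ supp y ∪ supp (amin x y) ∪ supp (x - y) with hS
  rw [mass_eq (amin x y) (S := S) (by intro w; simp +contextual [hS]),
    nrm_eq (x - y) (S := S) (by intro w; simp +contextual [hS])]
  have h1 := hx.2
  have h2 := hy.2
  rw [mass_eq x (S := S) (by intro w; simp +contextual [hS])] at h1
  rw [mass_eq y (S := S) (by intro w; simp +contextual [hS])] at h2
  have : ∀ w, cf (amin x y) w = (cf x w + cf y w - |cf (x - y) w|) / 2 := by
    intro w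
    rw [cf_amin hy.1, cf_sub]
    rcases le_total (cf x w) (cf y w) with h | h
    · rw [min_eq_left h, abs_of_nonpos (by linarith)]; ring
    · rw [min_eq_right h, abs_of_nonneg (by linarith)]; ring
  rw [sum_congr rfl (fun w _ => this w), ← sum_div, sum_sub_distrib, sum_add_distrib, h1, h2]
  ring

theorem mix_of_close {x y : Alg σ} (hx : IsProb x) (hy : IsProb y) {th : ℝ} (h0 : 0 < th)
    (h1 : th < 1) (h : nrm (x - y) ≤ 2 * (1 - th)) :
    ∃ nu r0 r1 : Alg σ, nrm nu ≤ 1 ∧ nrm r0 ≤ 1 ∧ nrm r1 ≤ 1 ∧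
      x = th • nu + (1 - th) • r0 ∧ y = th • nu + (1 - th) • r1 := by
  classical
  set M := amin x y with hM
  set t := mass M with ht
  have htm : t = 1 - nrm (x - y) / 2 := mass_amin hx hy
  have htth : th ≤ t := by linarith
  have htpos : 0 < t := by linarith
  have hMpos : Pos M := fun w => by rw [hM, cf_amin hy.1]; exact le_min (hx.1 w) (hy.1 w)
  set nu := t⁻¹ • M with hnu
  have hnuP : IsProb nu :=
    ⟨hMpos.smul (by positivity), by rw [hnu, mass_smul, ← ht, inv_mul_cancel₀ htpos.ne']⟩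
  have aux : ∀ z : Alg σ, IsProb z → (∀ w, cf M w ≤ cf z w) →
      ∃ r : Alg σ, nrm r ≤ 1 ∧ z = th • nu + (1 - th) • r := by
    intro z hz hle
    refine ⟨(1 - th)⁻¹ • (z - th • nu), ?_, ?_⟩
    · have hp : Pos (z - th • nu) := fun w => by
        rw [cf_sub, cf_smul, hnu, cf_smul, ← mul_assoc]
        have : th * t⁻¹ ≤ 1 := by rw [← div_eq_mul_inv, div_le_one htpos]; exact htth
        have := mul_le_of_le_one_left (hMpos w) this
        linarith [hle w]
      have hm' : mass (z - th • nu) = 1 - th := by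
        rw [sub_eq_add_neg z, mass_add, hz.2, show -(th • nu) = (-th) • nu by rw [neg_smul],
          mass_smul, hnuP.2, mul_one, ← sub_eq_add_neg]
      rw [nrm_smul, hp.nrm_eq_mass, hm', abs_of_nonneg (by positivity [sub_pos.mpr h1]),
        inv_mul_cancel₀ (by linarith)]
    · rw [smul_inv_smul₀ (show (1 - th) ≠ 0 by linarith)]
      abel
  obtain ⟨r0, hr0, e0⟩ := aux x hx (fun w => by rw [hM, cf_amin hy.1]; exact min_le_left _ _)
  obtain ⟨r1, hr1, e1⟩ := aux y hy (fun w => by rw [hM, cf_amin hy.1]; exact min_le_right _ _)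
  exact ⟨nu, r0, r1, hnuP.nrm_eq.le, hr0, hr1, e0, e1⟩

theorem smooth_of_slip {a : Alg σ} (ha : IsProb a) {W : ℕ} {th : ℝ} (h0 : 0 < th) (h1 : th < 1)
    (h : nrm (a ^ W - a ^ (W + 1)) ≤ 2 * (1 - th)) :
    Smooth a (16 * (2 * (W : ℝ) + 1) / th) := by
  obtain ⟨nu, r0, r1, hn, h0', h1', e0, e1⟩ := mix_of_close (ha.pow W) (ha.pow (W + 1)) h0 h1 h
  exact smooth_of_mix ha.nrm_eq.le h0 h1.le hn h0' h1' e0 e1

end Vale.Agent.P321
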