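import Vale.Agent.P321.Binom

/-!
From a common component of two consecutive powers to smoothness of all powers.
-/

noncomputable section

open Finset

namespace Vale.Agent.P321

variable {σ : Type}

theorem comm_mix_bound {th : ℝ} (h0 : 0 ≤ th) (h1 : th ≤ 1) {nu r0 r1 : Alg σ}
    (hnu : nrm nu ≤ 1) (hr0 : nrm r0 ≤ 1) (hr1 : nrm r1 ≤ 1) {R0 R1 : Alg σ}
    (e0 : R0 = th • nu + (1 - th) • r0) (e1 : R1 = th • nu + (1 - th) • r1)
    (hc : Commute R0 R1) (n : ℕ) (lam : ℕ → ℝ) :
    nrm (∑ k ∈ range (n + 1), lam k • (R0 ^ (n - k) * R1 ^ k)) ≤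
      ∑ i ∈ range (n + 1), ∑ j ∈ range (n + 1), |mixSum th n lam i j| := by
  induction n generalizing lam with
  | zero =>
    simp [mixSum, bp, nrm_smul]
  | succ n ih =>
    set P : ℕ → Alg σ := fun k => R0 ^ (n - k) * R1 ^ k with hP
    set la : ℕ → ℝ := fun k => lam k * (((n : ℝ) + 1 - k) / (n + 1)) with hla
    set lb : ℕ → ℝ := fun k => lam (k + 1) * (((k : ℝ) + 1) / (n + 1)) with hlb
    set A : Alg σ := ∑ k ∈ range (n + 1), la k • P k with hA
    set B : Alg σ := ∑ k ∈ range (n + 1), lb k • P k with hB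
    have hn : ((n : ℝ) + 1) ≠ 0 := by positivity
    have hX : ∑ k ∈ range (n + 1 + 1), lam k • (R0 ^ (n + 1 - k) * R1 ^ k) = R0 * A + R1 * B := by
      have hsplit : ∀ k, lam k • (R0 ^ (n + 1 - k) * R1 ^ k) =
          (lam k * (((n : ℝ) + 1 - k) / (n + 1))) • (R0 ^ (n + 1 - k) * R1 ^ k) +
          (lam k * ((k : ℝ) / (n + 1))) • (R0 ^ (n + 1 - k) * R1 ^ k) := by
        intro k
        rw [← add_smul]
        congr 1
        field_simp
        ring
      rw [sum_congr rfl (fun k _ => hsplit k), sum_add_distrib]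
      congr 1
      · rw [sum_range_succ, hA, mul_sum]
        rw [show lam (n + 1) * (((n : ℝ) + 1 - ((n + 1 : ℕ) : ℝ)) / (n + 1)) = 0 by push_cast; ring,
          zero_smul, add_zero]
        refine sum_congr rfl fun k hk => ?_
        rw [mem_range] at hk
        rw [hP, mul_smul_comm, ← mul_assoc, ← pow_succ',
          show n - k + 1 = n + 1 - k by omega]
      · rw [sum_range_succ', hB, mul_sum]
        rw [show lam 0 * (((0 : ℕ) : ℝ) / (n + 1)) = 0 by simp, zero_smul, add_zero]
        refine sum_congr rfl fun k hk => ?_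
        rw [mem_range] at hk
        rw [hP, mul_smul_comm, ← mul_assoc, ← (hc.pow_left (n - k)).eq, mul_assoc, ← pow_succ',
          show n + 1 - (k + 1) = n - k by omega, hlb]
        push_cast
        rfl
    rw [hX]
    have hdec : R0 * A + R1 * B = nu * (th • (A + B)) + r0 * ((1 - th) • A)
        + r1 * ((1 - th) • B) := by
      rw [e0, e1]
      simp only [add_mul, smul_mul_assoc, mul_smul_comm, mul_add, smul_add]
      abel
    rw [hdec]
    refine (nrm_add _ _).trans ((add_le_add (nrm_add _ _) le_rfl).trans ?_)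
    have hm : ∀ x y : Alg σ, nrm x ≤ 1 → nrm (x * y) ≤ nrm y := fun x y hx =>
      (nrm_mul x y).trans (mul_le_of_le_one_left (nrm_nonneg y) hx)
    refine (add_le_add (add_le_add (hm _ _ hnu) (hm _ _ hr0)) (hm _ _ hr1)).trans ?_
    have hth : 0 ≤ 1 - th := by linarith
    have hAB : A + B = ∑ k ∈ range (n + 1), (la k + lb k) • P k := by
      rw [hA, hB, ← sum_add_distrib]
      exact sum_congr rfl fun k _ => (add_smul _ _ _).symm
    rw [nrm_smul, nrm_smul, nrm_smul, abs_of_nonneg h0, abs_of_nonneg hth, hAB]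
    refine (add_le_add (add_le_add (mul_le_mul_of_nonneg_left (ih _) h0)
      (mul_le_mul_of_nonneg_left (ih la) hth)) (mul_le_mul_of_nonneg_left (ih lb) hth)).trans ?_
    simp only [mul_sum, ← sum_add_distrib]
    set S : ℕ → ℕ → ℝ := fun i j => |mixSum th (n + 1) lam i j| with hS
    set N : ℝ := (n : ℝ) + 1 with hN
    have hNpos : 0 < N := by positivity
    have key : ∀ i j : ℕ,
        th * |mixSum th n (fun k => la k + lb k) i j| + (1 - th) * |mixSum th n la i j|
          + (1 - th) * |mixSum th n lb i j| =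
        |N - i - j| / N * S i j + ((i : ℝ) + 1) / N * S (i + 1) j
          + ((j : ℝ) + 1) / N * S i (j + 1) := by
      intro i j
      have e : th * mixSum th n (fun k => la k + lb k) i j =
          (N - i - j) / N * mixSum th (n + 1) lam i j := by
        have : mixSum th n (fun k => la k + lb k) i j = mixSum th n la i j + mixSum th n lb i j := by
          simp only [mixSum, add_mul, sum_add_distrib]
        rw [this, mul_add, hla, hlb, mix_step_A, mix_step_B, mixSum, mul_sum, ← sum_add_distrib]
        refine sum_congr rfl fun k _ => ?_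
        rw [hN]; ring
      have ea := mix_step_A' th n lam i j
      have eb := mix_step_B' th n lam i j
      rw [← hla] at ea
      rw [← hlb] at eb
      rw [hS]
      dsimp only
      congr 1
      congr 1
      · rw [← abs_of_nonneg h0, ← abs_mul, abs_of_nonneg h0, e, abs_mul, abs_div,
          abs_of_pos hNpos]
      · rw [← abs_of_nonneg hth, ← abs_mul, ea, abs_mul, ← hN,
          abs_of_nonneg (show (0 : ℝ) ≤ ((i : ℝ) + 1) / N by positivity)]
      · rw [← abs_of_nonneg hth, ← abs_mul, eb, abs_mul, ← hN,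
          abs_of_nonneg (show (0 : ℝ) ≤ ((j : ℝ) + 1) / N by positivity)]
    rw [sum_congr rfl (fun i _ => sum_congr rfl (fun j _ => key i j))]
    have hSn : ∀ i j, 0 ≤ S i j := fun i j => abs_nonneg _
    simp only [sum_add_distrib]
    set r := range (n + 1 + 1) with hr
    have hsub : range (n + 1) ⊆ r := range_subset_range.mpr (by omega)
    have t1 : ∑ i ∈ range (n + 1), ∑ j ∈ range (n + 1), |N - i - j| / N * S i j ≤
        ∑ i ∈ r, ∑ j ∈ r, |N - i - j| / N * S i j := by
      refine le_trans (sum_le_sum fun i _ => ?_) (sum_le_sum_of_subset_of_nonneg hsub ?_)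
      · exact sum_le_sum_of_subset_of_nonneg hsub fun j _ _ => mul_nonneg (by positivity) (hSn i j)
      · exact fun i _ _ => sum_nonneg fun j _ => mul_nonneg (by positivity) (hSn i j)
    have t2 : ∑ i ∈ range (n + 1), ∑ j ∈ range (n + 1), ((i : ℝ) + 1) / N * S (i + 1) j ≤
        ∑ i ∈ r, ∑ j ∈ r, (i : ℝ) / N * S i j := by
      rw [hr, sum_range_succ' (fun i => ∑ j ∈ range (n + 1 + 1), (i : ℝ) / N * S i j)]
      refine le_add_of_le_of_nonneg (sum_le_sum fun i _ => ?_) ?_
      · push_cast
        exact sum_le_sum_of_subset_of_nonneg hsub fun j _ _ => mul_nonneg (by positivity) (hSn _ j)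
      · exact sum_nonneg fun j _ => mul_nonneg (by positivity) (hSn _ j)
    have t3 : ∑ i ∈ range (n + 1), ∑ j ∈ range (n + 1), ((j : ℝ) + 1) / N * S i (j + 1) ≤
        ∑ i ∈ r, ∑ j ∈ r, (j : ℝ) / N * S i j := by
      refine le_trans (sum_le_sum fun i _ => ?_) (sum_le_sum_of_subset_of_nonneg hsub ?_)
      · rw [hr, sum_range_succ' (fun j => (j : ℝ) / N * S i j)]
        push_cast
        exact le_add_of_nonneg_right (by simp)
      · exact fun i _ _ => sum_nonneg fun j _ => mul_nonneg (by positivity) (hSn i j)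
    refine (add_le_add (add_le_add t1 t2) t3).trans (le_of_eq ?_)
    rw [← sum_add_distrib, ← sum_add_distrib]
    refine sum_congr rfl fun i _ => ?_
    rw [← sum_add_distrib, ← sum_add_distrib]
    refine sum_congr rfl fun j _ => ?_
    show _ = S i j
    rcases le_or_gt (i + j) (n + 1) with h | h
    · have : (i : ℝ) + j ≤ N := by rw [hN]; exact_mod_cast h
      rw [abs_of_nonneg (by linarith)]
      field_simp
      ring
    · rw [hS]
      dsimp only
      rw [mixSum_eq_zero _ _ _ _ _ h, abs_zero]
      ring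

end Vale.Agent.P321
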