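import Vale.Agent.P321.Gw
import Vale.Agent.P321.Overlap

/-!
Products of units with marked positions, and their expansions.
-/

noncomputable section

open Finset

namespace Vale.Agent.P321

variable {σ : Type}

/-- The product of `N` units, equal to `b` at the positions in `U` and to `a` elsewhere. -/
def wd (a b : Alg σ) (U : Finset ℕ) : ℕ → Alg σ
  | 0 => 1
  | N + 1 => wd a b U N * if N ∈ U then b else a

@[simp] theorem wd_zero (a b : Alg σ) (U : Finset ℕ) : wd a b U 0 = 1 := rfl

theorem wd_succ (a b : Alg σ) (U : Finset ℕ) (N : ℕ) :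
    wd a b U (N + 1) = wd a b U N * if N ∈ U then b else a := rfl

theorem wd_congr (a b : Alg σ) {U V : Finset ℕ} : ∀ {N : ℕ}, (∀ i < N, (i ∈ U ↔ i ∈ V)) →
    wd a b U N = wd a b V N
  | 0, _ => rfl
  | N + 1, h => by
    rw [wd_succ, wd_succ, wd_congr a b (fun i hi => h i (Nat.lt_succ_of_lt hi))]
    by_cases hN : N ∈ U
    · rw [if_pos hN, if_pos ((h N (Nat.lt_succ_self N)).mp hN)]
    · rw [if_neg hN, if_neg (fun hh => hN ((h N (Nat.lt_succ_self N)).mpr hh))]

theorem wd_empty (a b : Alg σ) : ∀ N : ℕ, wd a b ∅ N = a ^ N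
  | 0 => by simp
  | N + 1 => by simp [wd_succ, wd_empty a b N, pow_succ]

theorem wd_add (a b : Alg σ) {U V W : Finset ℕ} (M : ℕ) : ∀ {N : ℕ},
    (∀ i < M, (i ∈ W ↔ i ∈ U)) → (∀ i < N, (M + i ∈ W ↔ i ∈ V)) →
    wd a b W (M + N) = wd a b U M * wd a b V N
  | 0, h1, _ => by simp [wd_congr a b h1]
  | N + 1, h1, h2 => by
    rw [← add_assoc, wd_succ, wd_succ, wd_add a b M h1 (fun i hi => h2 i (Nat.lt_succ_of_lt hi)),
      mul_assoc]
    by_cases hN : N ∈ V
    · rw [if_pos hN, if_pos ((h2 N (Nat.lt_succ_self N)).mpr hN)]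
    · rw [if_neg hN, if_neg (fun hh => hN ((h2 N (Nat.lt_succ_self N)).mp hh))]

theorem wd_shift (a b : Alg σ) (V : Finset ℕ) (N M : ℕ) (hV : ∀ v ∈ V, v < N) :
    wd a b (V.image (fun v => M + v)) (M + N) = a ^ M * wd a b V N := by
  rw [wd_add a b M (U := ∅) (V := V)]
  · rw [wd_empty]
  · intro i hi
    simp only [mem_image, notMem_empty, iff_false, not_exists, not_and]
    intro v _; omega
  · intro i _
    simp only [mem_image]
    exact ⟨fun ⟨v, hv, e⟩ => by rwa [show i = v by omega], fun h => ⟨i, h, rfl⟩⟩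

theorem wd_pad (a b : Alg σ) (V : Finset ℕ) (M N R : ℕ) (hV : ∀ v ∈ V, v < N) :
    wd a b (V.image (fun v => M + v)) (M + N + R) = a ^ M * wd a b V N * a ^ R := by
  rw [wd_add a b (M + N) (U := V.image (fun v => M + v)) (V := ∅) (fun i _ => Iff.rfl),
    wd_shift a b V N M hV, wd_empty]
  intro i _
  simp only [mem_image, notMem_empty, iff_false, not_exists, not_and]
  intro v hv; have := hV v hv; omega

theorem nrm_wd_le {a b : Alg σ} (ha : nrm a ≤ 1) (hb : nrm b ≤ 1) (U : Finset ℕ) :
    ∀ N : ℕ, nrm (wd a b U N) ≤ 1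
  | 0 => by simp
  | N + 1 => by
    rw [wd_succ]
    refine (nrm_mul _ _).trans (mul_le_one₀ (nrm_wd_le ha hb U N) (nrm_nonneg _) ?_)
    split <;> assumption

theorem wd_change {a a' b b' : Alg σ} (ha : nrm a ≤ 1) (hb : nrm b ≤ 1) (ha' : nrm a' ≤ 1)
    (hb' : nrm b' ≤ 1) (U : Finset ℕ) : ∀ N : ℕ,
    nrm (wd a b U N - wd a' b' U N) ≤
      ((range N).filter (fun i => i ∈ U)).card * nrm (b - b') +
      ((range N).filter (fun i => i ∉ U)).card * nrm (a - a')
  | 0 => by simp
  | N + 1 => by
    have ih := wd_change ha hb ha' hb' U N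
    have e : wd a b U (N + 1) - wd a' b' U (N + 1) =
        (wd a b U N - wd a' b' U N) * (if N ∈ U then b else a) +
        wd a' b' U N * (if N ∈ U then b - b' else a - a') := by
      rw [wd_succ, wd_succ, sub_mul]
      by_cases h : N ∈ U <;> simp only [h, if_true, if_false] <;> rw [mul_sub] <;> abel
    rw [e, range_add_one, filter_insert, filter_insert]
    refine (nrm_add _ _).trans ?_
    have h1 : nrm ((wd a b U N - wd a' b' U N) * (if N ∈ U then b else a)) ≤
        nrm (wd a b U N - wd a' b' U N) := by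
      refine (nrm_mul _ _).trans (mul_le_of_le_one_right (nrm_nonneg _) ?_)
      split <;> assumption
    have h2 : nrm (wd a' b' U N * (if N ∈ U then b - b' else a - a')) ≤
        nrm (if N ∈ U then b - b' else a - a') :=
      (nrm_mul _ _).trans (mul_le_of_le_one_left (nrm_nonneg _) (nrm_wd_le ha' hb' U N))
    by_cases h : N ∈ U
    · simp only [h, if_true, not_true_eq_false, if_false] at h1 h2 ⊢
      rw [card_insert_of_notMem (by simp)]
      push_cast
      linarith
    · simp only [h, if_false, not_false_eq_true, if_true] at h1 h2 ⊢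
      rw [card_insert_of_notMem (by simp)]
      push_cast
      linarith

/-- The sum of all products with exactly `k` marks inside `U`. -/
def Xk (a d : Alg σ) (U : Finset ℕ) (k N : ℕ) : Alg σ :=
  ∑ S ∈ ((range N).filter (fun i => i ∈ U)).powersetCard k, wd a d S N

theorem Xk_zero (a d : Alg σ) (U : Finset ℕ) (N : ℕ) : Xk a d U 0 N = a ^ N := by
  simp [Xk, wd_empty]

theorem Xk_nil (a d : Alg σ) (U : Finset ℕ) (k : ℕ) :
    Xk a d U (k + 1) 0 = 0 := by
  simp [Xk]

theorem wd_extend (a d : Alg σ) {S : Finset ℕ} {N : ℕ} (hS : ∀ i ∈ S, i < N) :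
    wd a d S (N + 1) = wd a d S N * a := by
  rw [wd_succ, if_neg (fun h => lt_irrefl _ (hS N h))]

theorem Xk_succ (a d : Alg σ) (U : Finset ℕ) (k N : ℕ) :
    Xk a d U (k + 1) (N + 1) =
      Xk a d U (k + 1) N * a + if N ∈ U then Xk a d U k N * d else 0 := by
  set F := (range N).filter (fun i => i ∈ U) with hF
  have hlt : ∀ j, ∀ S ∈ F.powersetCard j, ∀ i ∈ S, i < N := by
    intro j S hS i hi
    have := (mem_powersetCard.mp hS).1 hi
    rw [hF, mem_filter, mem_range] at this
    exact this.1
  have h0 : ∑ S ∈ F.powersetCard (k + 1), wd a d S (N + 1) = Xk a d U (k + 1) N * a := by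
    rw [Xk, sum_mul]
    exact sum_congr rfl fun S hS => wd_extend a d (hlt _ S hS)
  rw [Xk, range_add_one, filter_insert]
  by_cases h : N ∈ U
  · rw [if_pos h, if_pos h]
    have hn : N ∉ F := by simp [hF]
    rw [← hF, powersetCard_succ_insert hn, sum_union, h0]
    · congr 1
      rw [sum_image, Xk, sum_mul]
      · refine sum_congr rfl fun S hS => ?_
        rw [wd_succ, if_pos (mem_insert_self N S)]
        congr 1
        refine wd_congr a d fun i hi => ?_
        simp [mem_insert, hi.ne]
      · intro S hS T hT e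
        have hS' : N ∉ S := fun h' => lt_irrefl _ (hlt _ S hS N h')
        have hT' : N ∉ T := fun h' => lt_irrefl _ (hlt _ T hT N h')
        rw [← erase_insert hS', ← erase_insert hT', e]
    · rw [disjoint_left]
      intro S hS hS'
      rw [mem_image] at hS'
      obtain ⟨T, -, rfl⟩ := hS'
      exact lt_irrefl _ (hlt _ _ hS N (mem_insert_self N T))
  · rw [if_neg h, if_neg h, add_zero, ← hF, h0]

/-- Truncated expansion around `a`, with explicit remainder bound. -/
theorem expand_trunc {a d : Alg σ} (ha : nrm a ≤ 1) (hb : nrm (a + d) ≤ 1) (U : Finset ℕ) (K : ℕ) :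
    ∀ N : ℕ, nrm (wd a (a + d) U N - ∑ k ∈ range (K + 1), Xk a d U k N) ≤
      nrm d * ∑ u ∈ (range N).filter (fun i => i ∈ U), nrm (Xk a d U K u)
  | 0 => by
    rw [sum_range_succ']
    simp [Xk_nil, Xk_zero]
  | N + 1 => by
    have ih := expand_trunc ha hb U K N
    set Y := fun n => ∑ k ∈ range (K + 1), Xk a d U k n with hY
    change nrm (wd a (a + d) U (N + 1) - Y (N + 1)) ≤ _
    change nrm (wd a (a + d) U N - Y N) ≤ _ at ih
    have hrec : Y (N + 1) = Y N * a +
        if N ∈ U then Y N * d - Xk a d U K N * d else 0 := by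
      simp only [hY]
      rw [sum_range_succ', sum_congr rfl (fun k _ => Xk_succ a d U k N), Xk_zero, sum_add_distrib,
        pow_succ, ← sum_mul]
      rw [sum_range_succ' (fun k => Xk a d U k N) K, Xk_zero, add_mul]
      by_cases h : N ∈ U
      · simp only [h, if_true, ← sum_mul]
        have e1 := congrArg (fun x => x * a)
          ((sum_range_succ' (fun k => Xk a d U k N) K).symm.trans (sum_range_succ (fun k => Xk a d U k N) K))
        have e2 := congrArg (fun x => x * d)
          ((sum_range_succ' (fun k => Xk a d U k N) K).symm.trans (sum_range_succ (fun k => Xk a d U k N) K))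
        simp only [Xk_zero, add_mul] at e1 e2
        rw [add_mul, e2]
        abel
      · simp only [h, if_false, sum_const_zero, add_zero]
    rw [range_add_one, filter_insert]
    by_cases h : N ∈ U
    · rw [if_pos h, sum_insert (by simp), mul_add]
      have e : wd a (a + d) U (N + 1) - Y (N + 1) =
          (wd a (a + d) U N - Y N) * (a + d) + Xk a d U K N * d := by
        rw [wd_succ, if_pos h, hrec, if_pos h, sub_mul, mul_add (Y N)]; abel
      rw [e]
      refine (nrm_add _ _).trans ?_
      have h1 := (nrm_mul (wd a (a + d) U N - Y N) (a + d)).trans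
        (mul_le_of_le_one_right (nrm_nonneg _) hb)
      have h2 := nrm_mul (Xk a d U K N) d
      rw [mul_comm (nrm (Xk a d U K N))] at h2
      linarith
    · rw [if_neg h]
      have e : wd a (a + d) U (N + 1) - Y (N + 1) = (wd a (a + d) U N - Y N) * a := by
        rw [wd_succ, if_neg h, hrec, if_neg h, add_zero, sub_mul]
      rw [e]
      exact ((nrm_mul _ _).trans (mul_le_of_le_one_right (nrm_nonneg _) ha)).trans ih

/-- Full expansion around `a`. -/
theorem expand_full (a d : Alg σ) (U : Finset ℕ) : ∀ N : ℕ,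
    wd a (a + d) U N = ∑ S ∈ ((range N).filter (fun i => i ∈ U)).powerset, wd a d S N
  | 0 => by simp
  | N + 1 => by
    rw [wd_succ, expand_full a d U N, range_add_one, filter_insert]
    set F := (range N).filter (fun i => i ∈ U) with hF
    have hlt : ∀ S ∈ F.powerset, ∀ i ∈ S, i < N := by
      intro S hS i hi
      have := (mem_powerset.mp hS) hi
      rw [hF, mem_filter, mem_range] at this
      exact this.1
    have h0 : ∑ S ∈ F.powerset, wd a d S (N + 1) = (∑ S ∈ F.powerset, wd a d S N) * a := by
      rw [sum_mul]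
      exact sum_congr rfl fun S hS => wd_extend a d (hlt S hS)
    by_cases h : N ∈ U
    · rw [if_pos h, if_pos h, sum_powerset_insert (by simp [hF]), h0, mul_add, sum_mul _ _ d]
      congr 1
      refine sum_congr rfl fun S hS => ?_
      rw [wd_succ, if_pos (mem_insert_self N S)]
      congr 1
      refine wd_congr a d fun i hi => ?_
      simp [mem_insert, hi.ne]
    · rw [if_neg h, if_neg h, h0]

theorem wd_eq_tgen (a d : Alg σ) : ∀ {k : ℕ} {N : ℕ} {t : Fin k → ℕ}, StrictMono t → (∀ i, t i < N) →
    wd a d (univ.image t) N = tgen d k (fun l => a ^ gaps N t l)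
  | 0, N, t, _, _ => by simp [tgen, gaps, hiP, loP, wd_empty]
  | k + 1, N, t, hm, hN => by
    have h2 : ∀ i : Fin k, t 0 + 1 ≤ t i.succ := fun i => Nat.succ_le_of_lt (hm (Fin.succ_pos i))
    have hm' : StrictMono fun i : Fin k => t i.succ - (t 0 + 1) := by
      intro i j hij
      have := h2 i
      have := hm (Fin.succ_lt_succ_iff.mpr hij)
      dsimp only; omega
    have hN' : ∀ i : Fin k, t i.succ - (t 0 + 1) < N - (t 0 + 1) := by
      intro i
      have := h2 i; have := hN i.succ
      omega
    have hmin : ∀ i, t 0 ≤ t i := fun i => hm.monotone (Fin.zero_le i)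
    have hN0 := hN 0
    rw [show N = (t 0 + 1) + (N - (t 0 + 1)) by omega,
      wd_add a d (t 0 + 1) (U := univ.image t) (V := univ.image fun i : Fin k => t i.succ - (t 0 + 1))
        (fun i _ => Iff.rfl), wd_eq_tgen a d hm' hN', wd_succ,
      if_pos (mem_image_of_mem t (mem_univ 0)),
      wd_congr a d (V := ∅) (fun i hi => by
        simp only [mem_image, mem_univ, true_and, notMem_empty, iff_false, not_exists]
        intro j hj; have := hmin j; omega), wd_empty, tgen]
    · rw [← show N = (t 0 + 1) + (N - (t 0 + 1)) by omega, gaps_zero]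
      congr 1
      exact congrArg (tgen d k) (funext fun l => by rw [gaps_succ hm])
    · intro i hi
      simp only [mem_image, mem_univ, true_and]
      constructor
      · rintro ⟨j, hj⟩
        rcases Fin.eq_zero_or_eq_succ j with h | ⟨j', rfl⟩
        · subst h; omega
        · exact ⟨j', by have := h2 j'; omega⟩
      · rintro ⟨j, hj⟩
        exact ⟨j.succ, by have := h2 j; omega⟩

theorem wd_eq_tgen_sort (a d : Alg σ) {S : Finset ℕ} {k N : ℕ} (hk : S.card = k)
    (hN : ∀ i ∈ S, i < N) :
    wd a d S N = tgen d k (fun l => a ^ gaps N (S.orderEmbOfFin hk) l) := by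
  have h : univ.image (S.orderEmbOfFin hk) = S := image_orderEmbOfFin_univ S hk
  conv_lhs => rw [← h]
  exact wd_eq_tgen a d (S.orderEmbOfFin hk).strictMono fun i => hN _ (orderEmbOfFin_mem S hk i)

end Vale.Agent.P321
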