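import Vale.Agent.P321.Density
import Vale.Agent.P321.Words

/-!
Bounded tilts of a probability element and the bound for families of marked sets.
-/

noncomputable section

open Finset

namespace Vale.Agent.P321

variable {σ : Type}

/-- The signed element with density `f` against `a`. -/
def dlt (a : Alg σ) (f : FreeMonoid σ → ℝ) : Alg σ := ∑ w ∈ supp a, pt w (cf a w * f w)

theorem cf_dlt (a : Alg σ) (f : FreeMonoid σ → ℝ) (w : FreeMonoid σ) :
    cf (dlt a f) w = cf a w * f w := by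
  classical
  rw [dlt, cf_sum]
  simp only [cf_pt]
  rw [sum_ite_eq']
  split
  · rfl
  · rename_i h; rw [not_mem_supp h, zero_mul]

/-- `f` is a centred tilt of `a` bounded by `r`. -/
def IsTilt (a : Alg σ) (f : FreeMonoid σ → ℝ) (r : ℝ) : Prop :=
  (∀ w, |f w| ≤ r) ∧ ∑ w ∈ supp a, cf a w * f w = 0

theorem IsTilt.nonneg {a : Alg σ} {f : FreeMonoid σ → ℝ} {r : ℝ} (h : IsTilt a f r) : 0 ≤ r :=
  le_trans (abs_nonneg _) (h.1 1)

theorem nrm_dlt {a : Alg σ} (ha : IsProb a) {f : FreeMonoid σ → ℝ} {r : ℝ} (h : IsTilt a f r) :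
    nrm (dlt a f) ≤ r := by
  classical
  rw [dlt]
  refine (nrm_sum _ _).trans ?_
  calc ∑ w ∈ supp a, nrm (pt w (cf a w * f w)) ≤ ∑ w ∈ supp a, r * cf a w := by
        refine sum_le_sum fun w _ => ?_
        rw [nrm_pt, abs_mul, abs_of_nonneg (ha.1 w), mul_comm]
        exact mul_le_mul_of_nonneg_right (h.1 w) (ha.1 w)
    _ = r := by rw [← mul_sum]; rw [show ∑ w ∈ supp a, cf a w = 1 from ha.2, mul_one]

theorem mass_dlt {a : Alg σ} {f : FreeMonoid σ → ℝ} {r : ℝ} (h : IsTilt a f r) :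
    mass (dlt a f) = 0 := by
  rw [dlt, mass_sum, sum_congr rfl (fun w _ => mass_pt w _)]
  exact h.2

theorem isProb_tilt {a : Alg σ} (ha : IsProb a) {f : FreeMonoid σ → ℝ} {r : ℝ} (h : IsTilt a f r)
    (hr : r ≤ 1) : IsProb (a + dlt a f) := by
  refine ⟨fun w => ?_, by rw [mass_add, mass_dlt h, ha.2, add_zero]⟩
  rw [cf_add, cf_dlt]
  have := abs_le.mp (h.1 w)
  nlinarith [ha.1 w]

/-- The error from smoothing one word with `k` marks. -/
def serr (m D k : ℕ) (tau r : ℝ) : ℝ :=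
  (k : ℝ) * L1c m ^ k * (r ^ k * (L1c m * gam m D tau ^ (m + 1)))

theorem serr_nonneg (m D k : ℕ) {tau r : ℝ} (hr : 0 ≤ r) : 0 ≤ serr m D k tau r := by
  have := one_le_L1c m
  unfold serr gam
  positivity

theorem set_family {a : Alg σ} (ha : IsProb a) {f : FreeMonoid σ → ℝ} {r : ℝ} (hf : IsTilt a f r)
    {tau : ℝ} (ht : 0 ≤ tau) (hs : Smooth a tau) {p m D k N : ℕ}
    (hD : 4 * (k + 1) * (2 * m + 3) ≤ D) (hg : gam m D tau ≤ 1) (T : Finset (Finset ℕ))
    (c : Finset ℕ → ℝ) (hc : ∀ S ∈ T, |c S| ≤ 1) (X : Fin k → Finset ℕ)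
    (hT : ∀ S ∈ T, ∃ h : S.card = k, (∀ i ∈ S, i < N) ∧ ∀ l, S.orderEmbOfFin h l ∈ X l)
    (Sb : Fin (k + 1) → Fin k → ℝ) (hS0 : ∀ s l, 0 ≤ Sb s l)
    (hfw : ∀ s : Fin (k + 1), ∀ l : Fin k, l.val < s.val → ∀ a b, (l.val = 0 → a = 0 ∧ b = 0) →
      ∑ u ∈ X l, ∑ v ∈ X l, fwd m D a b u v ≤ Sb s l)
    (hbw : ∀ s : Fin (k + 1), ∀ l : Fin k, s.val ≤ l.val → ∀ a b, a ≤ N →
      (l.val + 1 = k → a = N ∧ b = N) →
      ∑ u ∈ X l, ∑ v ∈ X l, bwd m D a b u v ≤ Sb s l) :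
    ∃ c' : Alg Bool, Homog N c' ∧
      wsq (kap p * r ^ 2) c' ≤ (kap p * r ^ 2) ^ k * ((k + 1) * ∑ s, ∏ l, Sb s l) ∧
      nrm ((∑ S ∈ T, c S • wd a (dlt a f) S N) - psi a (dlt a f) c') ≤
        (T.card : ℝ) * serr m D k tau r := by
  classical
  have hK : 0 ≤ kap p * r ^ 2 := by have := kap_pos p; positivity
  choose hk hlt hX using hT
  set tup : {S // S ∈ T} → Fin k → ℕ := fun S => S.1.orderEmbOfFin (hk S.1 S.2)
  have hmono : ∀ S, StrictMono (tup S) := fun S => (S.1.orderEmbOfFin (hk S.1 S.2)).strictMono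
  have hN : ∀ S, ∀ i, tup S i < N := fun S i => hlt S.1 S.2 _ (orderEmbOfFin_mem _ _ i)
  obtain ⟨c', hc'1, hc'2, hc'3⟩ := gap_family (b := dlt a f) ha.nrm_eq.le ht hs hD hg T.attach
    (fun S => gaps N (tup S)) (fun S => c S.1) (fun S _ => hc S.1 S.2)
    (fun S _ => gaps_total (hmono S) (hN S)) hK
  refine ⟨c', hc'1, hc'2.trans ?_, ?_⟩
  · refine mul_le_mul_of_nonneg_left (mul_le_mul_of_nonneg_left (sum_le_sum fun s _ => ?_)
      (by positivity)) (by positivity)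
    have hinj : Function.Injective tup := by
      intro S S' h
      apply Subtype.ext
      rw [← image_orderEmbOfFin_univ S.1 (hk S.1 S.2), ← image_orderEmbOfFin_univ S'.1 (hk S'.1 S'.2)]
      exact congrArg (fun t => univ.image t) h
    set F := T.attach.filter (fun i => sinkOf (gaps N (tup i)) = s) with hF
    have hb := chain_bound (m := m) (D := D) (N := N) X (F.image tup) ?_ s (Sb s) (hS0 s) (hfw s) (hbw s)
    · refine le_trans (le_of_eq ?_) hb
      rw [sum_image fun x _ y _ h => hinj h]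
      exact sum_congr rfl fun x _ => by rw [sum_image fun x _ y _ h => hinj h]
    · intro t htm
      rw [mem_image] at htm
      obtain ⟨S, -, rfl⟩ := htm
      exact ⟨hmono S, hN S, hX S.1 S.2⟩
  · have e : ∑ S ∈ T, c S • wd a (dlt a f) S N =
        ∑ S ∈ T.attach, c S.1 • tgen (dlt a f) k (fun l => a ^ gaps N (tup S) l) := by
      rw [← sum_attach]
      exact sum_congr rfl fun S _ => by rw [wd_eq_tgen_sort a (dlt a f) (hk S.1 S.2) (hlt S.1 S.2)]
    rw [e]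
    refine hc'3.trans ?_
    rw [card_attach]
    refine mul_le_mul_of_nonneg_left ?_ (Nat.cast_nonneg _)
    have h1 : nrm (dlt a f) ^ k ≤ r ^ k := pow_le_pow_left₀ (nrm_nonneg _) (nrm_dlt ha hf) k
    have := one_le_L1c m
    unfold serr gam
    gcongr

/-- The smoothed coefficient vector of `Xk`. -/
theorem Xk_coef {a : Alg σ} (ha : IsProb a) {f : FreeMonoid σ → ℝ} {r : ℝ} (hf : IsTilt a f r)
    {tau : ℝ} (ht : 0 ≤ tau) (hs : Smooth a tau) {p m D k n c0 P J : ℕ}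
    (hD : 4 * (k + 1) * (2 * m + 3) ≤ D) (hg : gam m D tau ≤ 1) {U : Finset ℕ}
    (hU : Sparse U c0 P) (hP : 0 < P) (hJ : n / P ≤ J) :
    ∃ c' : Alg Bool, Homog n c' ∧
      wsq (kap p * r ^ 2) c' ≤ ((k : ℝ) + 1) ^ 2 * (kap p * r ^ 2 * Sbd m D c0 P J) ^ k ∧
      nrm (Xk a (dlt a f) U k n - psi a (dlt a f) c') ≤
        (U.card : ℝ) ^ k * serr m D k tau r := by
  classical
  have hD0 : 0 < D := lt_of_lt_of_le (by positivity) hD
  set F := (range n).filter (fun i => i ∈ U) with hF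
  have hmem : ∀ i ∈ F, i < n := fun i hi => by
    rw [hF, mem_filter, mem_range] at hi; exact hi.1
  have hsp : Sparse F c0 P := by
    intro x L
    refine le_trans (card_le_card fun v hv => ?_) (hU x L)
    rw [hF, mem_filter, mem_filter] at hv
    exact mem_filter.mpr ⟨hv.1.2, hv.2⟩
  obtain ⟨c', h1, h2, h3⟩ := set_family (p := p) (N := n) ha hf ht hs hD hg (F.powersetCard k)
    (fun _ => 1) (fun _ _ => by simp) (fun _ => F)
    (fun S hS => by
      rw [mem_powersetCard] at hS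
      exact ⟨hS.2, fun i hi => hmem i (hS.1 hi), fun l => hS.1 (orderEmbOfFin_mem _ _ l)⟩)
    (fun _ _ => Sbd m D c0 P J) (fun _ _ => Sbd_nonneg ..)
    (fun _ _ _ a b _ => fwd_sum hsp hP hD0 hmem hJ a b)
    (fun _ _ _ a b ha' _ => bwd_sum hsp hP hD0 hJ a b ha')
  refine ⟨c', h1, h2.trans (le_of_eq ?_), ?_⟩
  · simp [mul_pow]; ring
  · have e : ∑ S ∈ F.powersetCard k, (1 : ℝ) • wd a (dlt a f) S n = Xk a (dlt a f) U k n := by
      simp [Xk, hF]
    rw [e] at h3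
    refine h3.trans (mul_le_mul_of_nonneg_right ?_ (serr_nonneg m D k hf.nonneg))
    rw [card_powersetCard]
    have hc : F.card ≤ U.card := card_le_card fun i hi => by rw [hF, mem_filter] at hi; exact hi.2
    calc ((F.card.choose k : ℕ) : ℝ) ≤ ((F.card ^ k : ℕ) : ℝ) := by
          exact_mod_cast Nat.choose_le_pow F.card k
      _ ≤ (U.card : ℝ) ^ k := by exact_mod_cast Nat.pow_le_pow_left hc k

end Vale.Agent.P321
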