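import Vale.Agent.P321.Flat

/-!
Products of a sparse part, a small middle part, and a sparse part.
-/

noncomputable section

open Finset

namespace Vale.Agent.P321

variable {σ : Type}

theorem card_lo_dn (N : ℕ) (S : Finset ℕ) : S.card = (lo N S).card + (dn N S).card := by
  conv_lhs => rw [← glue_lo_dn N S]
  exact card_glue fun i hi => (mem_filter.mp hi).2

theorem Sparse.shift {X : Finset ℕ} {c0 P : ℕ} (h : Sparse X c0 P) (t : ℕ) :
    Sparse (X.image fun v => t + v) c0 P := by
  intro x L
  rw [filter_image]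
  refine card_image_le.trans ?_
  rcases le_or_gt t x with hx | hx
  · refine le_trans (card_le_card fun v hv => ?_) (h (x - t) L)
    rw [mem_filter] at hv ⊢
    exact ⟨hv.1, by omega, by omega⟩
  · refine le_trans (card_le_card fun v hv => ?_) ((h 0 (L - (t - x))).trans ?_)
    · rw [mem_filter] at hv ⊢
      exact ⟨hv.1, by omega, by omega⟩
    · gcongr; omega

theorem wsq_sum {ι : Type*} (T : Finset ι) (c : ι → Alg Bool) {K : ℝ} (hK : 0 ≤ K) :
    wsq K (∑ i ∈ T, c i) ≤ (T.card : ℝ) * ∑ i ∈ T, wsq K (c i) := by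
  classical
  set S := T.biUnion (fun i => supp (c i)) ∪ supp (∑ i ∈ T, c i) with hS
  rw [wsq_eq K _ (S := S) subset_union_right]
  rw [sum_congr rfl fun i hi => wsq_eq K (c i) (S := S)
    ((subset_biUnion_of_mem (fun i => supp (c i)) hi).trans subset_union_left), sum_comm, mul_sum]
  refine sum_le_sum fun w _ => ?_
  rw [cf_sum, ← mul_sum, mul_left_comm]
  exact mul_le_mul_of_nonneg_left sq_sum_le_card_mul_sum_sq (by positivity)

/-- The one-step bound in the middle. -/
def SMid (m cM : ℕ) : ℝ := (cM : ℝ) ^ 2 * ovA m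

/-- The gain factor. -/
def gainF (D nL : ℕ) (rho : ℝ) : ℝ := rho + 1 / ((max 1 (wid D nL) : ℕ) : ℝ)

theorem triple_bound {a : Alg σ} (ha : IsProb a) {f : FreeMonoid σ → ℝ} {r : ℝ} (hf : IsTilt a f r)
    (hr : r ≤ 1) {tau : ℝ} (ht : 0 ≤ tau) (hs : Smooth a tau) {p m D kl km kr c0 P J nL nM : ℕ}
    (hD : 4 * (kl + km + kr + 1) * (2 * m + 3) ≤ D) (hg : gam m D tau ≤ 1) (hP : 0 < P)
    (hkm : 4 ≤ km)
    {F M : Finset ℕ} (hF : ∀ i ∈ F, i < nL) (hFs : Sparse F c0 P) (hM : ∀ i ∈ M, i < nM)
    (hJ : (nL + nM + nL) / P ≤ J)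
    (hrho : kap p * r ^ 2 * Sbd m D c0 P J ≤ 1) (hmid : kap p * r ^ 2 * SMid m M.card ≤ 1)
    {C : ℝ} (hC : 0 < C) {zM : Alg σ}
    (hzM : Comb a (dlt a f) M nM C (fun S => S.card = km) zM) :
    ∃ c' : Alg Bool, Homog (nL + nM + nL) c' ∧
      wsq (kap p * r ^ 2) c' ≤ C ^ 2 * (((kl + km + kr : ℕ) : ℝ) + 1) ^ 2 *
        (kap p * r ^ 2 * SMid m M.card) ^ 4 * gainF D nL (kap p * r ^ 2 * Sbd m D c0 P J) ∧
      nrm (Xk a (dlt a f) F kl nL * zM * Xk a (dlt a f) F kr nL - psi a (dlt a f) c') ≤
        C * ((F.card : ℝ) ^ (kl + kr) * 2 ^ M.card) * serr m D (kl + km + kr) tau r := by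
  classical
  set δ := dlt a f
  set N := nL + nM + nL with hN
  set k := kl + km + kr with hk
  set Kp := kap p * r ^ 2 with hKp
  have hKp0 : 0 ≤ Kp := by rw [hKp]; have := kap_pos p; positivity
  clear_value Kp
  have hD0 : 0 < D := lt_of_lt_of_le (by positivity) hD
  have hF' : (range nL).filter (fun i => i ∈ F) = F := by
    ext i; simp only [mem_filter, mem_range]; exact ⟨fun h => h.2, fun h => ⟨hF i h, h⟩⟩
  have hX : ∀ j, Comb a δ F nL 1 (fun S => S.card = j) (Xk a δ F j nL) := fun j => by
    have := comb_Xk a δ F j nL; rwa [hF'] at this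
  have hLM : ∀ i ∈ glue nL F M, i < nL + nM := by
    intro i hi
    simp only [glue, mem_union, mem_image] at hi
    rcases hi with h | ⟨v, hv, rfl⟩
    · have := hF i h; omega
    · have := hM v hv; omega
  obtain ⟨c, hc1, hc2, hc3⟩ := ((hX kl).mul hF hzM).mul hLM (hX kr)
  set U := glue (nL + nM) (glue nL F M) F with hU
  set T := U.powerset.filter (fun S => c S ≠ 0) with hT
  have hsum : Xk a δ F kl nL * zM * Xk a δ F kr nL = C • ∑ S ∈ T, (c S / C) • wd a δ S N := by
    rw [hc3, smul_sum, hT, sum_filter]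
    refine sum_congr rfl fun S _ => ?_
    by_cases h : c S = 0
    · simp [h]
    · rw [if_pos h, smul_smul, mul_div_cancel₀ _ hC.ne']
  set Mid' := M.image fun v => nL + v with hMid'
  set R' := F.image fun v => nL + nM + v with hR'
  let X : Fin k → Finset ℕ := fun l =>
    if l.val < kl then F else if l.val < kl + km then Mid' else R'
  have hQ : ∀ S ∈ T, (lo nL (lo (nL + nM) S)).card = kl ∧ (dn nL (lo (nL + nM) S)).card = km ∧
      (dn (nL + nM) S).card = kr := fun S hS => by
    have h := hc2 S (mem_filter.mp hS).2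
    exact ⟨h.1.1, h.1.2, h.2⟩
  have hTX : ∀ S ∈ T, ∃ h : S.card = k, (∀ i ∈ S, i < N) ∧ ∀ l, S.orderEmbOfFin h l ∈ X l := by
    intro S hS
    obtain ⟨q1, q2, q3⟩ := hQ S hS
    have hSU := mem_powerset.mp (mem_filter.mp hS).1
    have hcard : S.card = k := by
      rw [card_lo_dn (nL + nM) S, card_lo_dn nL (lo (nL + nM) S), q1, q2, q3]
    refine ⟨hcard, fun i hi => ?_, fun l => ?_⟩
    · have := hSU hi
      simp only [hU, glue, mem_union, mem_image] at this
      rcases this with (h | ⟨v, hv, rfl⟩) | ⟨v, hv, rfl⟩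
      · have := hF i h; omega
      · have := hM v hv; omega
      · have := hF v hv; omega
    · have e1 : (S.filter fun i => i < nL).card = kl := by
        rw [← q1]; congr 1; ext i; simp only [lo, mem_filter]; constructor
        · rintro ⟨h1, h2⟩; exact ⟨⟨h1, by omega⟩, h2⟩
        · rintro ⟨⟨h1, -⟩, h2⟩; exact ⟨h1, h2⟩
      have e2 : (S.filter fun i => i < nL + nM).card = kl + km := by
        show (lo (nL + nM) S).card = _
        rw [card_lo_dn nL (lo (nL + nM) S), q1, q2]
      have l1 := orderEmb_lt_iff hcard l nL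
      have l2 := orderEmb_lt_iff hcard l (nL + nM)
      rw [e1] at l1
      rw [e2] at l2
      have hv := hSU (orderEmbOfFin_mem S hcard l)
      simp only [hU, glue, mem_union, mem_image] at hv
      simp only [X]
      rcases hv with (h | ⟨v, hv, e⟩) | ⟨v, hv, e⟩
      · rw [if_pos (l1.mp (hF _ h))]; exact h
      · have hv' := hM v hv
        rw [if_neg (fun h => by have := l1.mpr h; omega), if_pos (l2.mp (by omega))]
        exact mem_image.mpr ⟨v, hv, e⟩
      · rw [if_neg (fun h => by have := l1.mpr h; omega), if_neg (fun h => by have := l2.mpr h; omega)]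
        exact mem_image.mpr ⟨v, hv, e⟩
  set SM := SMid m M.card
  set Wn : ℝ := ((max 1 (wid D nL) : ℕ) : ℝ) with hWn
  have hW1 : 1 ≤ Wn := by rw [hWn]; exact_mod_cast le_max_left _ _
  have hSM : 0 ≤ SM := by have := ovA_pos m; simp only [SM, SMid]; positivity
  let Sb : Fin (k + 1) → Fin k → ℝ := fun s l =>
    if kl ≤ l.val ∧ l.val < kl + km then
      (if kl = 0 ∧ kr = 0 ∧ ((l.val = 0 ∧ l.val < s.val) ∨ (l.val + 1 = k ∧ s.val ≤ l.val))
        then SM / Wn else SM)
    else Sbd m D c0 P J
  have hMc : Mid'.card ≤ M.card := card_image_le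
  have hNsub : nL + nM + nL = N := rfl
  have hFN : ∀ u ∈ F, u < N := fun u hu => by have := hF u hu; omega
  have hR'N : ∀ u ∈ R', u < N := fun u hu => by
    rw [hR', mem_image] at hu; obtain ⟨v, hv, rfl⟩ := hu
    have := hF v hv; omega
  have hR's : Sparse R' c0 P := hFs.shift _
  have hM' : ∀ u ∈ Mid', nL ≤ u ∧ u < nL + nM := fun u hu => by
    rw [hMid', mem_image] at hu; obtain ⟨v, hv, rfl⟩ := hu
    have := hM v hv; omega
  have hmidle : ∀ a' : ℕ, (M.card : ℝ) ^ 2 * (ovA m / ((max 1 (wid D a') : ℕ) : ℝ)) ≤ SM := by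
    intro a'
    show _ ≤ SMid m M.card
    rw [SMid]
    refine mul_le_mul_of_nonneg_left (div_le_self (ovA_pos m).le ?_) (sq_nonneg _)
    exact_mod_cast le_max_left _ _
  obtain ⟨c', h1, h2, h3⟩ := set_family (p := p) (N := N) ha hf ht hs (k := k) hD hg T
    (fun S => c S / C)
    (fun S _ => by
      rw [abs_div, abs_of_pos hC, div_le_one hC]
      exact (hc1 S).trans (le_of_eq (by ring))) X hTX Sb
    (fun s l => by simp only [Sb]; split_ifs <;> first | exact Sbd_nonneg .. | positivity)
    (fun s l hls a' b' h0 => by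
      simp only [X, Sb]
      by_cases hl1 : l.val < kl
      · rw [if_pos hl1, if_neg (by omega : ¬ (kl ≤ l.val ∧ l.val < kl + km))]
        exact fwd_sum hFs hP hD0 hFN hJ a' b'
      · rw [if_neg hl1]
        by_cases hl2 : l.val < kl + km
        · rw [if_pos hl2, if_pos (⟨by omega, hl2⟩ : kl ≤ l.val ∧ l.val < kl + km)]
          split
          · rename_i hh
            have hl0 : l.val = 0 := hh.2.2.elim (fun h => h.1) (fun h => absurd hls (by omega))
            obtain ⟨ha0, hb0⟩ := h0 hl0
            subst ha0 hb0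
            refine (fwd_small hMc 0 0 nL (fun u hu _ => by have := hM' u hu; omega)).trans (le_of_eq ?_)
            simp only [SM, SMid, hWn]; ring
          · exact (fwd_small hMc a' b' 0 (fun u _ _ => Nat.zero_le _)).trans (hmidle 0)
        · rw [if_neg hl2, if_neg (by omega : ¬ (kl ≤ l.val ∧ l.val < kl + km))]
          exact fwd_sum hR's hP hD0 hR'N hJ a' b')
    (fun s l hls a' b' haN h0 => by
      simp only [X, Sb]
      by_cases hl1 : l.val < kl
      · rw [if_pos hl1, if_neg (by omega : ¬ (kl ≤ l.val ∧ l.val < kl + km))]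
        exact bwd_sum hFs hP hD0 hJ a' b' haN
      · rw [if_neg hl1]
        by_cases hl2 : l.val < kl + km
        · rw [if_pos hl2, if_pos (⟨by omega, hl2⟩ : kl ≤ l.val ∧ l.val < kl + km)]
          split
          · rename_i hh
            have hl0 : l.val + 1 = k := hh.2.2.elim (fun h => absurd hls (by omega)) (fun h => h.1)
            obtain ⟨ha0, hb0⟩ := h0 hl0
            subst ha0 hb0
            refine (bwd_small hMc N N nL (fun u hu _ => by have := hM' u hu; omega)).trans (le_of_eq ?_)
            simp only [SM, SMid, hWn]; ring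
          · exact (bwd_small hMc a' b' 0 (fun u _ _ => Nat.zero_le _)).trans (hmidle 0)
        · rw [if_neg hl2, if_neg (by omega : ¬ (kl ≤ l.val ∧ l.val < kl + km))]
          exact bwd_sum hR's hP hD0 hJ a' b' haN)
  set rho := Kp * Sbd m D c0 P J with hrhodef
  have hrho0 : 0 ≤ rho := mul_nonneg hKp0 (Sbd_nonneg ..)
  have hq0 : 0 ≤ Kp * SM := mul_nonneg hKp0 hSM
  have hprod : ∀ s, Kp ^ k * ∏ l, Sb s l ≤ (Kp * SM) ^ 4 * gainF D nL rho := by
    intro s
    have hg0 : (Kp * SM) ^ km ≤ (Kp * SM) ^ 4 := pow_le_pow_of_le_one hq0 hmid hkm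
    by_cases h0 : kl = 0 ∧ kr = 0
    · have hk1 : 0 < k := by omega
      set ls : Fin k := ⟨if s.val = 0 then k - 1 else 0, by split <;> omega⟩ with hls
      have hsp : Sb s ls = SM / Wn := by
        have hmem : kl ≤ ls.val ∧ ls.val < kl + km := ⟨by omega, by have := ls.isLt; omega⟩
        simp only [Sb]
        rw [if_pos hmem, if_pos]
        refine ⟨h0.1, h0.2, ?_⟩
        simp only [hls]
        split
        · right; omega
        · left; omega
      have hle : ∀ l, 0 ≤ Sb s l ∧ Sb s l ≤ SM := by
        intro l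
        have hmem : kl ≤ l.val ∧ l.val < kl + km := ⟨by omega, by have := l.isLt; omega⟩
        simp only [Sb]
        rw [if_pos hmem]
        split
        · exact ⟨by positivity, div_le_self hSM hW1⟩
        · exact ⟨hSM, le_rfl⟩
      have : ∏ l, Sb s l ≤ SM ^ (k - 1) * (SM / Wn) := by
        rw [← mul_prod_erase univ _ (mem_univ ls), hsp, mul_comm]
        refine mul_le_mul_of_nonneg_right ?_ (by positivity)
        calc ∏ l ∈ univ.erase ls, Sb s l ≤ ∏ _l ∈ univ.erase ls, SM :=
              prod_le_prod (fun l _ => (hle l).1) fun l _ => (hle l).2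
          _ = _ := by rw [prod_const, card_erase_of_mem (mem_univ ls), card_univ, Fintype.card_fin]
      calc Kp ^ k * ∏ l, Sb s l ≤ Kp ^ k * (SM ^ (k - 1) * (SM / Wn)) :=
            mul_le_mul_of_nonneg_left this (by positivity)
        _ = (Kp * SM) ^ k / Wn := by
            rw [mul_pow, show SM ^ k = SM ^ (k - 1) * SM by
              rw [← pow_succ, show k - 1 + 1 = k by omega]]
            ring
        _ ≤ (Kp * SM) ^ 4 * gainF D nL rho := by
            rw [show k = km by omega, gainF, ← hWn, mul_add, mul_one_div]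
            have : (Kp * SM) ^ km / Wn ≤ (Kp * SM) ^ 4 / Wn :=
              div_le_div_of_nonneg_right hg0 (by positivity)
            have : 0 ≤ (Kp * SM) ^ 4 * rho := by positivity
            linarith
    · have hval : ∏ l, Sb s l = Sbd m D c0 P J ^ kl * SM ^ km * Sbd m D c0 P J ^ kr := by
        let g : ℕ → ℝ := fun i => if kl ≤ i ∧ i < kl + km then SM else Sbd m D c0 P J
        have hg' : ∀ l, Sb s l = g l.val := fun l => by
          simp only [Sb, g]
          by_cases hm' : kl ≤ l.val ∧ l.val < kl + km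
          · rw [if_pos hm', if_pos hm', if_neg (fun h => h0 ⟨h.1, h.2.1⟩)]
          · rw [if_neg hm', if_neg hm']
        rw [prod_congr rfl (fun l _ => hg' l), Fin.prod_univ_eq_prod_range g k, hk,
          prod_range_add, prod_range_add]
        have c1 : ∀ i ∈ range kl, g i = Sbd m D c0 P J := fun i hi => by
          rw [mem_range] at hi; simp only [g]; rw [if_neg (by omega)]
        have c2 : ∀ i ∈ range km, g (kl + i) = SM := fun i hi => by
          rw [mem_range] at hi; simp only [g]; rw [if_pos (by omega)]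
        have c3 : ∀ i ∈ range kr, g (kl + km + i) = Sbd m D c0 P J := fun i _ => by
          simp only [g]; rw [if_neg (by omega)]
        rw [prod_congr rfl c1, prod_congr rfl c2, prod_congr rfl c3, prod_const, prod_const,
          prod_const, card_range, card_range, card_range]
      have hj : rho ^ (kl + kr) ≤ rho := pow_le_of_le_one hrho0 hrho (by omega)
      calc Kp ^ k * ∏ l, Sb s l = (Kp * SM) ^ km * rho ^ (kl + kr) := by
            rw [hval, hk, hrhodef, mul_pow, mul_pow, pow_add, pow_add, pow_add]; ring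
        _ ≤ (Kp * SM) ^ 4 * rho := mul_le_mul hg0 hj (by positivity) (by positivity)
        _ ≤ _ := by
            rw [gainF]
            refine mul_le_mul_of_nonneg_left ?_ (by positivity)
            have : 0 ≤ 1 / ((max 1 (wid D nL) : ℕ) : ℝ) := by positivity
            linarith
  refine ⟨C • c', fun w hw => h1 w (fun h => hw (by rw [cf_smul, h, mul_zero])), ?_, ?_⟩
  · have hsq : wsq Kp (C • c') = C ^ 2 * wsq Kp c' := by
      rw [wsq_eq Kp (C • c') (S := supp c') (fun w hw => by
        rw [mem_supp, cf_smul] at hw; exact mem_supp.mpr (right_ne_zero_of_mul hw)), wsq, mul_sum]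
      exact sum_congr rfl fun w _ => by rw [cf_smul]; ring
    rw [hsq, mul_assoc (C ^ 2), mul_assoc (C ^ 2)]
    rw [← hKp] at h2
    refine mul_le_mul_of_nonneg_left (h2.trans ?_) (sq_nonneg C)
    rw [mul_left_comm, mul_sum]
    calc ((k : ℝ) + 1) * ∑ s, Kp ^ k * ∏ l, Sb s l
        ≤ ((k : ℝ) + 1) * ∑ _s : Fin (k + 1), (Kp * SM) ^ 4 * gainF D nL rho :=
          mul_le_mul_of_nonneg_left (sum_le_sum fun s _ => hprod s) (by positivity)
      _ = _ := by rw [sum_const, card_univ, Fintype.card_fin, nsmul_eq_mul]; push_cast; ring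
  · rw [hsum, map_smul, ← smul_sub, nrm_smul, abs_of_pos hC, mul_assoc]
    refine mul_le_mul_of_nonneg_left (h3.trans (mul_le_mul_of_nonneg_right ?_
      (serr_nonneg m D k hf.nonneg))) hC.le
    have hcT : T.card ≤ F.card ^ (kl + kr) * 2 ^ M.card := by
      calc T.card ≤ ((F.powersetCard kl) ×ˢ M.powerset ×ˢ (F.powersetCard kr)).card := by
            refine card_le_card_of_injOn (fun S => (lo nL (lo (nL + nM) S),
              dn nL (lo (nL + nM) S), dn (nL + nM) S)) (fun S hS => ?_) (fun S _ S' _ h => ?_)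
            · obtain ⟨q1, q2, q3⟩ := hQ S hS
              have hSU := mem_powerset.mp (mem_filter.mp hS).1
              have hlo : ∀ (A B : Finset ℕ) (n : ℕ) (S : Finset ℕ), (∀ i ∈ A, i < n) → S ⊆ glue n A B →
                  lo n S ⊆ A ∧ dn n S ⊆ B := by
                intro A B n S hA hS
                constructor
                · rw [← lo_glue (V := B) hA]; exact filter_subset_filter _ hS
                · intro i hi
                  rw [mem_dn] at hi
                  rw [← dn_glue (V := B) hA, mem_dn]; exact hS hi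
              obtain ⟨s1, s2⟩ := hlo _ _ _ _ hLM hSU
              obtain ⟨s3, s4⟩ := hlo _ _ _ _ hF s1
              simp only [coe_product, Set.mem_prod, mem_coe, mem_powersetCard, mem_powerset]
              exact ⟨⟨s3, q1⟩, s4, s2, q3⟩
            · simp only [Prod.mk.injEq] at h
              rw [← glue_lo_dn (nL + nM) S, ← glue_lo_dn (nL + nM) S',
                ← glue_lo_dn nL (lo (nL + nM) S), ← glue_lo_dn nL (lo (nL + nM) S'), h.1, h.2.1, h.2.2]
        _ ≤ _ := by
            rw [card_product, card_product, card_powerset, card_powersetCard, card_powersetCard,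
              pow_add]
            calc F.card.choose kl * (2 ^ M.card * F.card.choose kr)
                ≤ F.card ^ kl * (2 ^ M.card * F.card ^ kr) := by
                  gcongr <;> exact Nat.choose_le_pow ..
              _ = _ := by ring
    exact_mod_cast hcT

end Vale.Agent.P321
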